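import Vale.Agent.P167.H632.Path
import Vale.Agent.P167.H871.Glue

/-!
# P167, arm toolkit: probabilities

Colours `c : Bool` (`true` = primal). `HC c b r R`: the half annulus is not crossed by the colour
`!c`. Bounds at all scales, crossings, positive association, frozen squares.
-/

namespace Vale.Agent.P167.H632

open MeasureTheory Finset Vale.Agent.P145.FB Vale.Agent.P153 Vale.Agent.P153.Topo Vale.Agent.P167
  Vale.Agent.P167.H871
open Relation

/-! ### Colours -/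

/-- The squares of colour `c`. -/
def cs (c : Bool) (ω : Cfg) : Set Pt := {v | ω v = c}

/-- The parity of the sites of colour `c`. -/
def pr (c : Bool) : ℤ := if c then 0 else 1

theorem cs_true (ω : Cfg) : cs true ω = op ω := rfl

theorem cs_compl (c : Bool) (ω : Cfg) : (cs c ω)ᶜ = cs (!c) ω := by
  ext v
  simp only [cs, Set.mem_compl_iff, Set.mem_ofPred_eq]
  cases c <;> cases ω v <;> simp

theorem cs_false (ω : Cfg) : cs false ω = (op ω)ᶜ := by
  rw [← cs_true, cs_compl]; rfl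

theorem pr_or (c : Bool) : pr c = 0 ∨ pr c = 1 := by cases c <;> simp [pr]

theorem pr_not (c : Bool) : pr (!c) = 1 - pr c := by cases c <;> simp [pr]

/-! ### Increasing sets, positive association -/

/-- Increasing in the colour `c`. -/
def IncC (c : Bool) (A : Set Mk) : Prop :=
  ∀ o o' : Mk, (∀ w, o w = c → o' w = c) → o ∈ A → o' ∈ A

theorem IncC.inter {c : Bool} {A B : Set Mk} (hA : IncC c A) (hB : IncC c B) : IncC c (A ∩ B) :=
  fun o o' h ho => ⟨hA o o' h ho.1, hB o o' h ho.2⟩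

theorem IncC.compl {c : Bool} {A : Set Mk} (hA : IncC c A) : IncC (!c) Aᶜ := by
  intro o o' h ho ho'
  refine ho (hA o' o (fun w hw => ?_) ho')
  have := h w
  revert this hw
  cases c <;> cases o w <;> cases o' w <;> simp

/-- The flip of all the squares. -/
def fl (o : Mk) : Mk := fun w => !(o w)

theorem real_fl {F : Finset Pt} {A : Set Mk} (hA : Dep F A) : μ.real {o | fl o ∈ A} = μ.real A := by
  have := fair_mu.symm hA (Equiv.refl _) (fun _ => true)
  rw [← this]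
  congr 1
  ext o
  simp only [Set.mem_ofPred_eq]
  have : fl o = fun w => xor (o ((Equiv.refl Pt) w)) true := by
    funext w; simp [fl]
  rw [this]

theorem dep_fl {F : Finset Pt} {A : Set Mk} (hA : Dep F A) : Dep F {o | fl o ∈ A} :=
  fun o o' h ho => hA (fl o) (fl o') (fun w hw => by simp only [fl, h w hw]) ho

/-- Positive association for the colour `c`. -/
theorem fkg_c {c : Bool} {F G : Finset Pt} {A B : Set Mk} (hA : Dep F A) (hB : Dep G B)
    (iA : IncC c A) (iB : IncC c B) : μ.real A * μ.real B ≤ μ.real (A ∩ B) := by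
  have hA' : Dep (F ∪ G) A := hA.mono subset_union_left
  have hB' : Dep (F ∪ G) B := hB.mono subset_union_right
  cases c
  · rw [← real_fl hA', ← real_fl hB', ← real_fl (hA'.inter hB')]
    have key : ∀ A : Set Mk, IncC false A → IncS {o | fl o ∈ A} := by
      intro A iA o o' h ho
      refine iA (fl o) (fl o') (fun w hw => ?_) ho
      simp only [fl, Bool.not_eq_false'] at hw ⊢
      exact h w hw
    exact fair_mu.fkg (dep_fl hA') (dep_fl hB') (key A iA) (key B iB)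
  · exact fair_mu.fkg hA' hB' iA iB

/-- Negative association of the two colours. -/
theorem fkg_neg {c : Bool} {F G : Finset Pt} {A B : Set Mk} (hA : Dep F A) (hB : Dep G B)
    (iA : IncC c A) (iB : IncC (!c) B) : μ.real (A ∩ B) ≤ μ.real A * μ.real B := by
  have := fair_mu.prob
  have iB' : IncC c Bᶜ := by have := iB.compl; rwa [Bool.not_not] at this
  have h := fkg_c hA hB.compl iA iB'
  rw [probReal_compl_eq_one_sub hB.meas] at h
  have h2 := measureReal_inter_add_sdiff (μ := μ) (s := A) hB.meas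
  have e : A \ B = A ∩ Bᶜ := rfl
  rw [e] at h2
  nlinarith

/-! ### The half annuli -/

/-- The half annulus is not crossed by the colour `!c`. -/
def HC (c : Bool) (b : Pt) (r R : ℤ) : Set Mk := {ω | NoX (cs c ω) (hp b) (pr c) b r R}

/-- Crossing of the half annulus by the colour `c`. -/
def HX (c : Bool) (b : Pt) (r R : ℤ) : Set Mk :=
  {ω | ∃ y y' : Pt, (y.1 + y.2) % 2 = pr c ∧ nm (y - b) = r ∧ nm (y' - b) = R ∧
    PConn (cs c ω) (hp b ∩ an b r R) y y'}

theorem HC_eq (c : Bool) (b : Pt) (r R : ℤ) : HC c b r R = (HX (!c) b r R)ᶜ := by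
  ext ω
  simp only [HC, HX, NoX, Set.mem_compl_iff, Set.mem_ofPred_eq, pr_not, cs_compl]
  push Not
  rfl

theorem HX_eq (c : Bool) (b : Pt) (r R : ℤ) : HX c b r R = (HC (!c) b r R)ᶜ := by
  rw [HC_eq, Bool.not_not, compl_compl]

/-- The squares of the half annulus. -/
noncomputable def aq (b : Pt) (r R : ℤ) : Finset Pt :=
  (Finset.Icc (b.1 - R, b.2) (b.1 + R, b.2 + R)).filter (fun v => r - 1 ≤ nm (v - b))

theorem mem_aq {b v : Pt} {r R : ℤ} : v ∈ aq b r R ↔
    v ∈ bl b R ∧ b.2 ≤ v.2 ∧ r - 1 ≤ nm (v - b) := by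
  simp only [aq, Finset.mem_filter, Finset.mem_Icc, Prod.le_def, mem_bl]
  constructor
  · rintro ⟨⟨⟨h1, h2⟩, h3, h4⟩, h5⟩
    have : b.2 - R ≤ v.2 := by
      have : 0 ≤ R := by omega
      omega
    exact ⟨⟨h1, h3, this, h4⟩, h2, h5⟩
  · rintro ⟨⟨h1, h2, h3, h4⟩, h5, h6⟩
    exact ⟨⟨⟨h1, h5⟩, h2, h4⟩, h6⟩

theorem disj_aq {b : Pt} {r R r' R' : ℤ} (h : R < r' - 1) : Disjoint (aq b r R) (aq b r' R') := by
  rw [Finset.disjoint_left]
  intro v hv hv'
  rw [mem_aq] at hv hv'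
  have : nm (v - b) ≤ R := hv.1
  omega

theorem sq_mem_aq {b x y : Pt} {r R : ℤ} {F : Set Pt} (h : PStep F x y) (hx : x ∈ hp b ∩ an b r R)
    (hy : y ∈ hp b ∩ an b r R) : (min x.1 y.1, min x.2 y.2) ∈ aq b r R := by
  rw [mem_aq]
  refine ⟨sq_mem_bl hx.2.2 hy.2.2, le_min hx.1 hy.1, ?_⟩
  obtain ⟨hx1, hx2, hx3⟩ := hx
  obtain ⟨hy1, hy2, hy3⟩ := hy
  obtain ⟨h1, h2, -⟩ := h
  simp only [hp, Set.mem_ofPred_eq] at hx1 hy1
  rw [le_nm] at hx2 hy2 ⊢
  simp only [Prod.fst_sub, Prod.snd_sub] at *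
  omega

theorem pconn_congr_an {c : Bool} {o o' : Mk} {b : Pt} {r R : ℤ}
    (h : ∀ v ∈ aq b r R, o v = c → o' v = c) {u v : Pt}
    (huv : PConn (cs c o) (hp b ∩ an b r R) u v) : PConn (cs c o') (hp b ∩ an b r R) u v := by
  obtain ⟨h0, h1⟩ := huv
  induction h1 with
  | refl => exact PConn.refl h0
  | @tail x y hx hxy ih =>
    have hxm := (show PConn (cs c o) (hp b ∩ an b r R) u x from ⟨h0, hx⟩).right_mem
    exact ih.tail ⟨hxy.1.1, hxy.1.2.1, h _ (sq_mem_aq hxy.1 hxm hxy.2) hxy.1.2.2⟩ hxy.2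

theorem dep_HX (c : Bool) (b : Pt) (r R : ℤ) : Dep (aq b r R) (HX c b r R) := by
  rintro o o' ho ⟨y, y', h1, h2, h3, h4⟩
  exact ⟨y, y', h1, h2, h3, pconn_congr_an (fun v hv h => by rw [← ho v hv]; exact h) h4⟩

theorem inc_HX (c : Bool) (b : Pt) (r R : ℤ) : IncC c (HX c b r R) := by
  rintro o o' ho ⟨y, y', h1, h2, h3, h4⟩
  exact ⟨y, y', h1, h2, h3, pconn_congr_an (fun v _ h => ho v h) h4⟩

theorem dep_HC (c : Bool) (b : Pt) (r R : ℤ) : Dep (aq b r R) (HC c b r R) := by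
  rw [HC_eq]; exact (dep_HX _ _ _ _).compl

theorem inc_HC (c : Bool) (b : Pt) (r R : ℤ) : IncC c (HC c b r R) := by
  rw [HC_eq]
  have := (inc_HX (!c) b r R).compl
  rwa [Bool.not_not] at this

/-! ### Upper bounds -/

theorem armS_of_far {S : Set Pt} {b y y' : Pt} {r R : ℤ} (h : NC S (fi y) (fi y'))
    (hy : nm (y - b) ≤ r) (hy' : R ≤ nm (y' - b)) : ArmS (fi b) (2 * r) R S := by
  refine ⟨fi y, fi y', h, ?_, ?_, ?_⟩
  · rw [nm_le] at hy
    simp only [Prod.fst_sub, Prod.snd_sub, fi, abs_le] at *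
    omega
  · rw [nm_le] at hy
    simp only [Prod.fst_sub, Prod.snd_sub, fi, abs_le] at *
    omega
  · rw [le_nm] at hy'
    simp only [Prod.fst_sub, Prod.snd_sub, fi, le_abs] at *
    omega

theorem nc_of_cs {c : Bool} {ω : Mk} {Rg : Set Pt} {u v : Pt} (hu : (u.1 + u.2) % 2 = pr c)
    (h : PConn (cs c ω) Rg u v) : NC (if c then SB ω else (SB ω)ᶜ) (fi u) (fi v) := by
  cases c
  · rw [cs_false] at h
    have hu' : Odd (u.1 + u.2) := by rw [Int.odd_iff]; simpa [pr] using hu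
    exact (ncd_of_pconn hu' h).mono Set.inter_subset_left
  · have hu' : Even (u.1 + u.2) := by rw [Int.even_iff]; simpa [pr] using hu
    exact (nc_of_pconn hu' h).mono Set.inter_subset_left

/-- A path of colour `c` from distance `r` to distance `R` of `b`, anywhere. -/
def Arm (c : Bool) (b : Pt) (r R : ℤ) : Set Mk :=
  {ω | ∃ y y' : Pt, (y.1 + y.2) % 2 = pr c ∧ nm (y - b) ≤ r ∧ R ≤ nm (y' - b) ∧
    PConn (cs c ω) Set.univ y y'}

theorem HX_sub_Arm (c : Bool) (b : Pt) (r R : ℤ) : HX c b r R ⊆ Arm c b r R := by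
  rintro ω ⟨y, y', h1, h2, h3, h4⟩
  exact ⟨y, y', h1, h2.le, h3.ge, h4.mono subset_rfl (Set.subset_univ _)⟩

/-- **One-arm bound**, any colour, any centre. -/
theorem arm_le : ∃ C α : ℝ, 0 < C ∧ 0 < α ∧ ∀ (c : Bool) (b : Pt) (r R : ℤ), 1 ≤ r → r ≤ R →
    μ.real (Arm c b r R) ≤ C * ((r : ℝ) / R) ^ α := by
  obtain ⟨C, α, hC, hα, h⟩ := arm_decay fair_mu
  have := fair_mu.prob
  refine ⟨(C + 1) * 2 ^ α, α, by positivity, hα, fun c b r R hr hrR => ?_⟩
  have hr' : (1 : ℝ) ≤ r := by exact_mod_cast hr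
  have hR' : (r : ℝ) ≤ R := by exact_mod_cast hrR
  have hRp : (0 : ℝ) < R := by linarith
  have e : (C + 1) * 2 ^ α * ((r : ℝ) / R) ^ α = (C + 1) * ((2 * r : ℝ) / R) ^ α := by
    rw [mul_assoc, ← Real.mul_rpow (by norm_num) (by positivity), mul_div_assoc]
  rw [e]
  by_cases hbig : (R : ℝ) ≤ 2 * r
  · have h1 : (1 : ℝ) ≤ (2 * r / R) ^ α := Real.one_le_rpow ((one_le_div hRp).2 hbig) hα.le
    calc μ.real (Arm c b r R) ≤ 1 := measureReal_le_one
      _ ≤ (C + 1) * 1 := by linarith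
      _ ≤ _ := by gcongr
  · push Not at hbig
    have hle : 2 * r ≤ R := by exact_mod_cast hbig.le
    obtain ⟨h1, h2⟩ := h (fi b) (2 * r) R (by omega) hle
    have key : μ.real (Arm c b r R) ≤ C * (((2 * r : ℤ) : ℝ) / R) ^ α := by
      cases c
      · refine (measureReal_mono ?_).trans h2
        rintro ω ⟨y, y', k1, k2, k3, k4⟩
        exact armS_of_far (nc_of_cs k1 k4) k2 k3
      · refine (measureReal_mono ?_).trans h1
        rintro ω ⟨y, y', k1, k2, k3, k4⟩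
        exact armS_of_far (nc_of_cs k1 k4) k2 k3
    push_cast at key
    refine key.trans ?_
    gcongr
    linarith

/-! ### Lower bounds -/

/-- All squares of the box have colour `c`. -/
def allC (c : Bool) (b : Pt) (R : ℤ) : Set Mk :=
  {o | ∀ w ∈ Finset.Icc (b.1 - R, b.2 - R) (b.1 + R, b.2 + R), o w = c}

theorem mem_Icc_bl {b w : Pt} {R : ℤ} :
    w ∈ Finset.Icc (b.1 - R, b.2 - R) (b.1 + R, b.2 + R) ↔ w ∈ bl b R := by
  rw [Finset.mem_Icc, mem_bl, Prod.le_def, Prod.le_def]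
  tauto

theorem card_Icc_bl {b : Pt} {R : ℤ} :
    (Finset.Icc (b.1 - R, b.2 - R) (b.1 + R, b.2 + R)).card = (2 * R + 1).toNat ^ 2 := by
  rw [← Finset.Icc_product_Icc, Finset.card_product, Int.card_Icc, Int.card_Icc]
  rw [sq]
  congr 2 <;> ring

theorem allC_real (c : Bool) (b : Pt) (R : ℤ) :
    μ.real (allC c b R) = (1 / 2) ^ ((2 * R + 1).toNat ^ 2) := by
  rw [← card_Icc_bl (b := b)]
  exact fair_mu.cyl _ (fun _ => c)

theorem allC_ge {c : Bool} {b : Pt} {R R' : ℤ} (h : R ≤ R') :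
    (1 / 2 : ℝ) ^ ((2 * R' + 1).toNat ^ 2) ≤ μ.real (allC c b R) := by
  rw [allC_real]
  refine pow_le_pow_of_le_one (by norm_num) (by norm_num) ?_
  exact Nat.pow_le_pow_left (Int.toNat_le_toNat (by omega)) 2

theorem allC_sub_HC {c : Bool} {b : Pt} {r R M : ℤ} (hrR : r < R) (hM : r + 1 ≤ M) :
    allC c b M ⊆ HC c b r R := by
  intro ω hω
  rw [HC_eq, Set.mem_compl_iff]
  rintro ⟨y, y', h1, h2, h3, h4⟩
  obtain ⟨h0, h⟩ := h4
  rcases Relation.ReflTransGen.cases_head h with h5 | ⟨z, ⟨h5, h6⟩, -⟩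
  · rw [h5] at h2; omega
  · have hz := (nm_step (b := b) h5).1
    have hw : ω (min y.1 z.1, min y.2 z.2) = c := by
      refine hω _ (mem_Icc_bl.2 (sq_mem_bl ?_ ?_))
      · have : nm (y - b) ≤ M := by omega
        exact this
      · have : nm (z - b) ≤ M := by omega
        exact this
    have hw' : ω (min y.1 z.1, min y.2 z.2) = !c := h5.2.2
    rw [hw] at hw'
    cases c <;> simp at hw'

/-- **Half circuits at all scales.** -/
theorem hc_ge : ∃ c0 : ℝ, 0 < c0 ∧ ∀ (c : Bool) (b : Pt) (r R : ℤ), 1 ≤ r → 8 * r ≤ R →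
    c0 ≤ μ.real (HC c b r R) := by
  obtain ⟨c1, hc1, r0, hr0, h⟩ := ann_ge fair_mu
  have := fair_mu.prob
  obtain ⟨M, hM⟩ : ∃ M : ℤ, M = r0 + 4 := ⟨_, rfl⟩
  refine ⟨min c1 ((1 / 2 : ℝ) ^ ((2 * M + 1).toNat ^ 2)), by positivity, fun c b r R hr hR => ?_⟩
  by_cases hs : r < r0 + 3
  · refine (min_le_right _ _).trans ((allC_ge (R := r + 1) (c := c) (b := b) (by omega)).trans ?_)
    exact measureReal_mono (allC_sub_HC (by omega) le_rfl)
  · refine (min_le_left _ _).trans ?_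
    push Not at hs
    rw [HC_eq]
    cases c
    · have h1 := (h (r + 2) (by omega) ((b.1 - b.2) / 2) ((b.1 + b.2 - 2) / 2)).2
      refine h1.trans (measureReal_mono ?_)
      rintro ω hω ⟨y, y', k1, k2, k3, k4⟩
      have k5 : NC (SB ω) (fi y) (fi y') := nc_of_cs (c := true) k1 k4
      have k2' : nm (y - b) ≤ r := k2.le
      have k3' : R ≤ nm (y' - b) := k3.ge
      rw [nm_le] at k2'
      rw [le_nm] at k3'
      simp only [Prod.fst_sub, Prod.snd_sub] at k2' k3'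
      refine block (by omega) hω k5 ?_ ?_ ?_ <;> simp only [fi] <;> omega
    · have h1 := (h (r + 2) (by omega) ((b.1 + b.2 - 2) / 2) ((b.1 - b.2) / 2)).1
      refine h1.trans (measureReal_mono ?_)
      rintro ω hω ⟨y, y', k1, k2, k3, k4⟩
      have k5 : NC (SB ω)ᶜ (fi y) (fi y') := nc_of_cs (c := false) k1 k4
      have k2' : nm (y - b) ≤ r := k2.le
      have k3' : R ≤ nm (y' - b) := k3.ge
      rw [nm_le] at k2'
      rw [le_nm] at k3'
      simp only [Prod.fst_sub, Prod.snd_sub] at k2' k3'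
      refine block' (by omega) hω k5 ?_ ?_ ?_ <;> simp only [fi] <;> omega

/-! ### The exchange of the colours -/

/-- Shift of the squares. -/
def eSx : Pt ≃ Pt where
  toFun w := (w.1 + 1, w.2)
  invFun w := (w.1 - 1, w.2)
  left_inv w := by simp
  right_inv w := by simp

/-- Flip and shift. -/
def fsh (o : Mk) : Mk := fun w => !(o (w.1 + 1, w.2))

theorem real_fsh {F : Finset Pt} {A : Set Mk} (hA : Dep F A) : μ.real {o | fsh o ∈ A} = μ.real A := by
  have := fair_mu.symm hA eSx (fun _ => true)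
  rw [← this]
  congr 1
  ext o
  simp only [Set.mem_ofPred_eq]
  have : fsh o = fun w => xor (o (eSx w)) true := by
    funext w; simp [fsh, eSx]
  rw [this]

theorem path_fsh {o : Mk} {Rg : Set Pt} {u v : Pt} (h : PConn (cs true (fsh o)) Rg u v) :
    PConn (cs false o) {w | (w.1 - 1, w.2) ∈ Rg} (u.1 + 1, u.2) (v.1 + 1, v.2) := by
  obtain ⟨h0, h⟩ := h
  induction h with
  | refl =>
    refine PConn.refl ?_
    simp only [Set.mem_ofPred_eq, add_sub_cancel_right]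
    exact h0
  | @tail x y _ hxy ih =>
    refine ih.tail ⟨?_, ?_, ?_⟩ ?_
    · have := hxy.1.1; dsimp only; omega
    · exact hxy.1.2.1
    · have h1 : (!(o (min x.1 y.1 + 1, min x.2 y.2))) = true := hxy.1.2.2
      have e : min (x.1 + 1) (y.1 + 1) = min x.1 y.1 + 1 := by omega
      simp only [cs, Set.mem_ofPred_eq, e]
      simpa using h1
    · simp only [Set.mem_ofPred_eq, add_sub_cancel_right]
      exact hxy.2

/-! ### Crossings -/

/-- A vertical zigzag of squares of one colour. -/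
theorem zig {c : Bool} {ω : Mk} {b : Pt} {M : ℤ} (h : ω ∈ allC c b M) (n : ℕ) (e : ℤ)
    (he : e = 0 ∨ e = 1) (hn : e + n ≤ M) (hM : 1 ≤ M) :
    PConn (cs c ω) (hp b ∩ bl b M) (b.1, b.2 + e) (b.1 + n % 2, b.2 + e + n) := by
  induction n with
  | zero =>
    simp only [Nat.cast_zero, add_zero, Int.zero_emod]
    refine PConn.refl ⟨?_, ?_⟩
    · simp only [hp, Set.mem_ofPred_eq]; omega
    · rw [mem_bl]; dsimp only; omega
  | succ n ih =>
    have ih' := ih (by push_cast at hn; omega)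
    refine ih'.tail ⟨?_, ?_, ?_⟩ ⟨?_, ?_⟩
    · push_cast; omega
    · push_cast; omega
    · refine h _ (mem_Icc_bl.2 ?_)
      rw [mem_bl]
      push_cast at hn ⊢
      omega
    · simp only [hp, Set.mem_ofPred_eq]; push_cast; omega
    · rw [mem_bl]; push_cast at hn ⊢; omega

/-- Crossing from distance at most `r` to distance `R` in the half ball. -/
def HB (c : Bool) (b : Pt) (r R : ℤ) : Set Mk :=
  {ω | ∃ y y' : Pt, (y.1 + y.2) % 2 = pr c ∧ nm (y - b) ≤ r ∧ nm (y' - b) = R ∧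
    PConn (cs c ω) (hp b ∩ bl b R) y y'}

theorem HB_sub_HX {c : Bool} {b : Pt} {r R : ℤ} (h : r ≤ R) : HB c b r R ⊆ HX c b r R := by
  rintro ω ⟨y, y', h1, h2, h3, h4⟩
  obtain ⟨z, z', k1, k2, k3, k4, -⟩ := crossing h h4 h2 h3.ge
  refine ⟨z, z', by rw [← k3.parity, h1], k1, k2, k4.mono subset_rfl ?_⟩
  rintro w ⟨⟨hw1, -⟩, hw2⟩
  exact ⟨hw1, hw2⟩

theorem allC_sub_HB {c : Bool} {b : Pt} {r R : ℤ} (hr : 1 ≤ r) (hrR : r ≤ R) :
    allC c b R ⊆ HB c b r R := by
  intro ω h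
  obtain ⟨e, he, hpar⟩ : ∃ e : ℤ, (e = 0 ∨ e = 1) ∧ (b.1 + (b.2 + e)) % 2 = pr c := by
    rcases Int.emod_two_eq (b.1 + b.2 + pr c) with h1 | h1
    · refine ⟨0, Or.inl rfl, ?_⟩
      rcases pr_or c with h2 | h2 <;> omega
    · refine ⟨1, Or.inr rfl, ?_⟩
      rcases pr_or c with h2 | h2 <;> omega
  refine ⟨_, _, hpar, ?_, ?_, zig h (R - e).toNat e he (by omega) (by omega)⟩
  · rw [nm_le]; simp only [Prod.fst_sub, Prod.snd_sub]; omega
  · refine le_antisymm ?_ ?_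
    · rw [nm_le]; simp only [Prod.fst_sub, Prod.snd_sub]; omega
    · rw [le_nm]; simp only [Prod.fst_sub, Prod.snd_sub]; omega

theorem dep_HB (c : Bool) (b : Pt) (r R : ℤ) : Dep (aq b 0 R) (HB c b r R) := by
  have e : hp b ∩ bl b R = hp b ∩ an b 0 R := by
    ext w
    simp only [Set.mem_inter_iff, bl, an, Set.mem_ofPred_eq, nm_nonneg, true_and]
  rintro o o' ho ⟨y, y', h1, h2, h3, h4⟩
  rw [e] at h4
  refine ⟨y, y', h1, h2, h3, ?_⟩
  rw [e]
  exact pconn_congr_an (fun v hv h => by rw [← ho v hv]; exact h) h4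

theorem inc_HB (c : Bool) (b : Pt) (r R : ℤ) : IncC c (HB c b r R) := by
  have e : hp b ∩ bl b R = hp b ∩ an b 0 R := by
    ext w
    simp only [Set.mem_inter_iff, bl, an, Set.mem_ofPred_eq, nm_nonneg, true_and]
  rintro o o' ho ⟨y, y', h1, h2, h3, h4⟩
  rw [e] at h4
  refine ⟨y, y', h1, h2, h3, ?_⟩
  rw [e]
  exact pconn_congr_an (fun v _ h => ho v h) h4

/-- A crossing of a rectangle of the fine lattice which gives a primal crossing. -/
theorem HB_of_LRc {ω : Mk} {b : Pt} {r R : ℤ} (hr : 16 ≤ r) (hR : r ≤ R)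
    (h : LRc ((b.1 + b.2 - 2 + r) / 2) ((b.1 + b.2 - 2 + r) / 2 + R) ((b.1 - b.2) / 2 - r / 8)
      ((b.1 - b.2) / 2 - r / 8 + 2 * (r / 8)) (SB ω)) : ω ∈ HB true b r R := by
  obtain ⟨x, y, hxy, hx, hy⟩ := h
  obtain ⟨a, ha⟩ : ∃ a, a = (b.1 + b.2 - 2 + r) / 2 := ⟨_, rfl⟩
  obtain ⟨d, hd⟩ : ∃ d, d = (b.1 - b.2) / 2 - r / 8 := ⟨_, rfl⟩
  rw [← ha, ← hd] at hxy
  rw [← ha] at hx hy
  have hxm := hxy.left_mem
  have hym := hxy.right_mem
  -- end points at sites
  have fix : ∀ z : Pt, z ∈ SB ω ∩ rc a (a + R) d (d + 2 * (r / 8)) → Even z.1 →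
      ∃ z', z'.1 = z.1 ∧ Even z'.2 ∧ z' ∈ SB ω ∩ rc a (a + R) d (d + 2 * (r / 8)) ∧
        NC (SB ω ∩ rc a (a + R) d (d + 2 * (r / 8))) z z' := by
    intro z hz he
    have hz2 := hz.2
    rw [mem_rc] at hz2
    rcases Int.even_or_odd z.2 with h | h
    · exact ⟨z, rfl, h, hz, NC.refl hz⟩
    · have h3 : Even (z.2 - 1) := by rw [Int.even_iff]; rw [Int.odd_iff] at h; omega
      have hm : (z.1, z.2 - 1) ∈ SB ω ∩ rc a (a + R) d (d + 2 * (r / 8)) := by
        refine ⟨Or.inl ⟨he, h3⟩, ?_⟩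
        rw [mem_rc]; dsimp only; rw [Int.odd_iff] at h; omega
      exact ⟨(z.1, z.2 - 1), rfl, h3, hm, NC.of_nn hz hm (by unfold NN; dsimp only; omega)⟩
  obtain ⟨x', hx1, hx2, hx3, hx4⟩ := fix x hxm (by rw [hx]; exact even_two_mul _)
  obtain ⟨y', hy1, hy2, hy3, hy4⟩ := fix y hym (by rw [hy]; exact even_two_mul _)
  have hx1e : Even x'.1 := by rw [hx1, hx]; exact even_two_mul _
  have hy1e : Even y'.1 := by rw [hy1, hy]; exact even_two_mul _
  have hn : NC (SB ω ∩ rc a (a + R) d (d + 2 * (r / 8))) x' y' := (hx4.symm.trans hxy).trans hy4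
  have ex : fi (uf x') = x' := fi_uf (hx1e.add hx2)
  have ey : fi (uf y') = y' := fi_uf (hy1e.add hy2)
  have hsub : rc a (a + R) d (d + 2 * (r / 8)) ⊆ Tg (hp b) := by
    rintro z hz s rfl
    rw [mem_rc] at hz
    simp only [fi] at hz
    simp only [hp, Set.mem_ofPred_eq]
    omega
  have hn' : NC (SB ω ∩ Tg (hp b)) (fi (uf x')) (fi (uf y')) := by
    rw [ex, ey]
    exact hn.mono (Set.inter_subset_inter_right _ hsub)
  have hue : Even ((uf x').1 + (uf x').2) := by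
    rw [← even_fi1, ex]; exact ⟨hx1e, hx2⟩
  have hp' := pconn_of_nc hue hn'
  have hx5 := hx3.2
  have hy5 := hy3.2
  rw [mem_rc] at hx5 hy5
  obtain ⟨z, k1, k2, -⟩ := first_exit (b := b) (R := R) hp' (by
    rw [nm_le]; simp only [Prod.fst_sub, Prod.snd_sub, uf]; rw [Int.even_iff] at *; omega) (by
    rw [le_nm]; simp only [Prod.fst_sub, Prod.snd_sub, uf]; rw [Int.even_iff] at *; omega)
  refine ⟨uf x', z, ?_, ?_, k1, k2⟩
  · rw [Int.even_iff] at hue; simpa [pr] using hue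
  · rw [nm_le]; simp only [Prod.fst_sub, Prod.snd_sub, uf]; rw [Int.even_iff] at *; omega

/-- **Radial crossings**: from distance `r` to distance `R ≤ K r`, in the half ball. -/
theorem hb_ge (K : ℕ) : ∃ c0 : ℝ, 0 < c0 ∧ ∀ (c : Bool) (b : Pt) (r R : ℤ), 1 ≤ r → r ≤ R →
    R ≤ K * r → c0 ≤ μ.real (HB c b r R) := by
  obtain ⟨c1, hc1, r1, hr1⟩ := rsw_L fair_mu
  have hsq : ∀ n : ℤ, 0 ≤ n → (1 / 2 : ℝ) ≤ (pp μ fair_mu).L n n := fun n hn => sq_half fair_mu hn
  obtain ⟨N, hN⟩ : ∃ N : ℤ, N = max r1 16 := ⟨_, rfl⟩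
  have hN1 : r1 ≤ N := by rw [hN]; exact le_max_left _ _
  have hN2 : 16 ≤ N := by rw [hN]; exact le_max_right _ _
  obtain ⟨M, hM⟩ : ∃ M : ℤ, M = K * (8 * N) := ⟨_, rfl⟩
  have main : ∀ (b : Pt) (r R : ℤ), 1 ≤ r → r ≤ R → R ≤ K * r →
      min (c1 * (1 / 2 * c1) ^ (4 * K)) ((1 / 2 : ℝ) ^ ((2 * M + 1).toNat ^ 2)) ≤
        μ.real (HB true b r R) := by
    intro b r R hr hrR hRK
    have := fair_mu.prob
    by_cases hs : r < 8 * N
    · refine (min_le_right _ _).trans ((allC_ge (R := R) (c := true) (b := b) ?_).trans ?_)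
      · rw [hM]
        refine hRK.trans ?_
        have : (0 : ℤ) ≤ K := by positivity
        nlinarith
      · exact measureReal_mono (allC_sub_HB hr hrR)
    · push Not at hs
      refine (min_le_left _ _).trans ?_
      obtain ⟨h, hh⟩ : ∃ h : ℤ, h = r / 8 := ⟨_, rfl⟩
      have f1 := (pp μ fair_mu).L_iter geo (c0 := 1 / 2) (by norm_num) (h := 2 * h) (k := 3 * (2 * h))
        (by omega) (by omega) (hsq _ (by omega)) hc1.le
        (by have := hr1 (2 * h) (by omega); have e : 2 * h + 3 * (2 * h) = 4 * (2 * h) := by ring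
            rw [e]; exact this) (4 * K)
      have f2 := (pp μ fair_mu).L_eq' ((b.1 + b.2 - 2 + r) / 2) ((b.1 + b.2 - 2 + r) / 2 + R)
        ((b.1 - b.2) / 2 - r / 8) ((b.1 - b.2) / 2 - r / 8 + 2 * (r / 8))
      rw [pp_p] at f2
      have f3 : c1 * (1 / 2 * c1) ^ (4 * K) ≤ μ.real {ω : Mk | LRc ((b.1 + b.2 - 2 + r) / 2)
          ((b.1 + b.2 - 2 + r) / 2 + R) ((b.1 - b.2) / 2 - r / 8)
          ((b.1 - b.2) / 2 - r / 8 + 2 * (r / 8)) (SB ω)} := by
        rw [f2]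
        refine f1.trans (PP.L_mono (pp μ fair_mu) geo (by omega) ?_ (by omega))
        push_cast
        have hK0 : (0 : ℤ) ≤ K := by positivity
        have e1 : (b.1 + b.2 - 2 + r) / 2 + R - (b.1 + b.2 - 2 + r) / 2 = R := by ring
        rw [e1]
        have : r ≤ 8 * h + 7 := by omega
        nlinarith
      refine f3.trans (measureReal_mono ?_)
      intro ω hω
      exact HB_of_LRc (by omega) hrR hω
  refine ⟨min (c1 * (1 / 2 * c1) ^ (4 * K)) ((1 / 2 : ℝ) ^ ((2 * M + 1).toNat ^ 2)),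
    by positivity, fun c b r R hr hrR hRK => ?_⟩
  have := fair_mu.prob
  cases c
  · have h1 := main (b.1 - 1, b.2) r R hr hrR hRK
    rw [← real_fsh (dep_HB true (b.1 - 1, b.2) r R)] at h1
    refine h1.trans (measureReal_mono ?_)
    rintro ω ⟨y, y', k1, k2, k3, k4⟩
    refine ⟨(y.1 + 1, y.2), (y'.1 + 1, y'.2), ?_, ?_, ?_, (path_fsh k4).mono subset_rfl ?_⟩
    · simp only [pr, if_true] at k1
      simp only [pr, Bool.false_eq_true, if_false]; omega
    · have e : ((y.1 + 1, y.2) : Pt) - b = y - (b.1 - 1, b.2) := by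
        refine Prod.ext ?_ ?_ <;> simp only [Prod.fst_sub, Prod.snd_sub]; ring
      rw [e]; exact k2
    · have e : ((y'.1 + 1, y'.2) : Pt) - b = y' - (b.1 - 1, b.2) := by
        refine Prod.ext ?_ ?_ <;> simp only [Prod.fst_sub, Prod.snd_sub]; ring
      rw [e]; exact k3
    · rintro w ⟨hw1, hw2⟩
      refine ⟨hw1, ?_⟩
      rw [mem_bl] at hw2 ⊢
      dsimp only at hw2
      omega
  · exact main b r R hr hrR hRK

end Vale.Agent.P167.H632
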