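import Vale.Agent.P167.H632.Two
import Vale.Agent.P167.H365.NDefs

/-!
# P167, arm toolkit: two and three arms in strand form

`TwoS b r R`: the half annulus is crossed by the interface, `ThrS b r R`: it is crossed twice.
`P (TwoS b r R) ≤ C r / R`, `P (ThrS b r R) ≤ C (r / R) ^ (1 + α)`.
-/

namespace Vale.Agent.P167.H632

open MeasureTheory Vale.Agent.P145.FB Vale.Agent.P153 Vale.Agent.P153.Topo Vale.Agent.P167
  Vale.Agent.P167.H871
open Relation
open scoped ENNReal
open Vale.Agent.P167.H365 (hA CroI CroO Cro TwoS ThrS Inn Out mem_hA)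

variable {D : Set Pt} {b : Pt} {r R : ℤ} {e e' : Ed} {ω ω' : Cfg} {k : ℕ}

theorem hA_sub : (hA b r R : Set Pt) ⊆ hq b R := by
  intro v hv
  rw [Finset.mem_coe, mem_hA] at hv
  exact ⟨hv.1, hv.2.2⟩

/-- An inward crossing is a past. -/
theorem croO_past (hrR : r ≤ R) (h : CroO ω b r R e) :
    e ∈ E b R ∧ ∃ k, Past (hq b R) b (r - 1) ω e k := by
  obtain ⟨k, ⟨-, h1⟩, ⟨h2, h3⟩, ⟨h4, h5⟩⟩ := h
  have hk : 1 ≤ k := by
    by_contra hcon
    have : k = 0 := by omega
    subst this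
    have h6 : nm (hdv e - b) < r := h5
    have h7 := nm_ends b e
    omega
  refine ⟨mem_E.2 ⟨h2, h3, hA_sub (h1 0 hk)⟩, k, ?_, hk, fun i hi => hA_sub (h1 i hi), ?_, ?_⟩
  · rintro ⟨-, h6⟩
    have h6 : nm (tlv e - b) ≤ R := h6
    omega
  · rintro i hi ⟨-, h6⟩
    have h6 : nm (hdv (pth ω e i) - b) ≤ r - 1 := h6
    have h7 := (mem_hA.1 (h1 i hi)).2.1
    have h8 : nm (hdv (pth ω e i) - b) = nm (hdv ((nx ω)^[i] e) - b) := rfl
    omega
  · refine ⟨h4, ?_⟩
    show nm (hdv ((nx ω)^[k] e) - b) ≤ r - 1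
    omega

theorem past_hA (hP : Past (hq b R) b (r - 1) ω e k) {i : ℕ} (hi : i < k) :
    hdv (pth ω e i) ∈ (hA b r R : Set Pt) := by
  have h1 := hP.mem i hi
  have h2 := hP.off i hi
  rw [Finset.mem_coe, mem_hA]
  refine ⟨h1.1, ?_, h1.2⟩
  by_contra hcon
  refine h2 ⟨h1.1, ?_⟩
  show nm (hdv (pth ω e i) - b) ≤ r - 1
  omega

/-- The second crossing is fresh. -/
theorem second (hrR : r + 2 ≤ R) (hE : e ∈ E b R) (hP : Past (hq b R) b (r - 1) ω e k)
    (h' : Cro ω b r R e') (hne : e ≠ e') :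
    ω ∈ FX true (ex ω e k) b r (R - 1) ∪ FX false (ex ω e k) b r (R - 1) := by
  have hF : Flat (hq b R) b R := by
    intro v hv
    exact ⟨fun h => h.1, fun h => ⟨h, hv⟩⟩
  have heA : tlv e ∉ (hA b r R : Set Pt) := fun h => E_tlv hE (hA_sub h)
  suffices h : ω ∈ FX true (ex ω e k) b (r - 1 + 1) (R - 1) ∪
      FX false (ex ω e k) b (r - 1 + 1) (R - 1) by
    rwa [sub_add_cancel] at h
  rcases h' with ⟨n, ⟨-, h1⟩, ⟨h2, h3⟩, ⟨h4, h5⟩⟩ | ⟨n, ⟨-, h1⟩, ⟨h2, h3⟩, ⟨h4, h5⟩⟩
  · -- outward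
    have h1 : ∀ i < n, hdv (pth ω e' i) ∈ (hA b r R : Set Pt) := h1
    have h5 : R < nm (hdv (pth ω e' n) - b) := h5
    have he'A : tlv e' ∉ (hA b r R : Set Pt) := by
      intro h
      rw [Finset.mem_coe, mem_hA] at h
      omega
    obtain ⟨f, hf⟩ := (s_nx ω).2 e'
    have hfi : ∀ i, pth ω f (i + 1) = pth ω e' i := by
      intro i
      have := (pth_add ω f 1 i).symm
      rw [add_comm 1 i] at this
      rw [this, pth_succ, pth_zero, hf]
    have hft : hdv f = tlv e' := by rw [← hf, tlv_nx]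
    have hn : 1 ≤ n := by
      by_contra hcon
      have : n = 0 := by omega
      subst this
      have h6 := nm_ends b e'
      have h7 := (nm_pth ω f b 0).1
      rw [hfi, pth_zero, pth_zero, hft] at h7
      rw [pth_zero] at h5
      omega
    obtain ⟨m, rfl⟩ : ∃ m, n = m + 1 := ⟨n - 1, by omega⟩
    refine hP.fresh (f := f) (n := m + 1) (ex_hq b R) (by omega) hF ?_ ?_ ?_ ?_ (Or.inl ⟨?_, ?_⟩)
    · intro i hi
      rcases i with _ | i
      · rw [pth_zero, hft]
        refine ⟨h2, ?_⟩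
        show nm (tlv e' - b) ≤ R
        omega
      · rw [hfi]
        exact hA_sub (h1 i (by omega))
    · intro i hi
      rcases i with _ | i
      · rw [pth_zero, hft]
        omega
      · rw [hfi]
        exact (hA_sub (h1 i (by omega))).2
    · rintro i hi ⟨-, -, h6⟩
      rw [hfi] at h6
      have h6 : nm (hdv (pth ω e' i) - b) ≤ r - 1 := h6
      have h7 := h1 i hi
      rw [Finset.mem_coe, mem_hA] at h7
      omega
    · intro i hi j hj h6
      rw [hfi] at h6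
      exact hne (merge heA he'A (fun l hl => past_hA hP (by omega)) (fun l hl => h1 l (by omega)) h6)
    · rw [pth_zero, hft]
      omega
    · rw [hfi]
      have h6 := h1 m (by omega)
      rw [Finset.mem_coe, mem_hA] at h6
      have h7 := (nm_pth ω e' b m).1
      omega
  · -- inward
    have h1 : ∀ i < n, hdv (pth ω e' i) ∈ (hA b r R : Set Pt) := h1
    have h5 : nm (hdv (pth ω e' n) - b) < r := h5
    have h4 : b.2 ≤ (hdv (pth ω e' n)).2 := h4
    have he'A : tlv e' ∉ (hA b r R : Set Pt) := by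
      intro h
      rw [Finset.mem_coe, mem_hA] at h
      omega
    have hn : 1 ≤ n := by
      by_contra hcon
      have : n = 0 := by omega
      subst this
      rw [pth_zero] at h5
      have h7 := nm_ends b e'
      omega
    refine hP.fresh (f := e') (n := n) (ex_hq b R) (by omega) hF ?_ ?_ ?_ ?_ (Or.inr ⟨?_, ?_⟩)
    · intro i hi
      rcases lt_or_eq_of_le hi with h6 | h6
      · exact hA_sub (h1 i h6)
      · rw [h6]
        refine ⟨h4, ?_⟩
        show nm (hdv (pth ω e' n) - b) ≤ R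
        omega
    · intro i hi
      rcases lt_or_eq_of_le hi with h6 | h6
      · exact (hA_sub (h1 i h6)).2
      · rw [h6]
        omega
    · rintro i hi ⟨⟨-, h6⟩, -⟩
      have h6 : nm (hdv (pth ω e' i) - b) ≤ r - 1 := h6
      have h7 := h1 i hi
      rw [Finset.mem_coe, mem_hA] at h7
      omega
    · intro i hi j hj h6
      exact hne (merge heA he'A (fun l hl => past_hA hP (by omega)) (fun l hl => h1 l (by omega)) h6)
    · rw [pth_zero]
      have h6 := h1 0 hn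
      rw [Finset.mem_coe, mem_hA, pth_zero] at h6
      have h7 := nm_ends b e'
      omega
    · omega

/-! ### Outward crossings are inward crossings of the dual configuration -/

theorem real_du {F : Finset Pt} {A : Set Mk} (hA : Dep F A) : μ.real {o | FK.du o ∈ A} = μ.real A := by
  have := fair_mu.symm hA FK.shV.symm (fun _ => true)
  rw [← this]
  congr 1
  ext o
  simp only [Set.mem_ofPred_eq]
  have : FK.du o = fun w => xor (o (FK.shV.symm w)) true := by
    funext w; simp [FK.du, FK.shV]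
  rw [this]

theorem pth_du (ω : Cfg) (e : Ed) (k i : ℕ) (hi : i ≤ k) :
    pth (FK.du ω) (FK.shE (pth ω e k)) i = FK.shE (pth ω e (k - i)) := by
  induction i with
  | zero => rfl
  | succ i ih =>
    rw [pth_succ, ih (by omega)]
    have h1 : k - i = (k - (i + 1)) + 1 := by omega
    rw [h1, pth_succ]
    exact (FK.syR_du ω).n _

theorem croI_du (h : CroI ω b r R e) : ∃ k, (∀ i < k, hdv (pth ω e i) ∈ (hA b r R : Set Pt)) ∧
    CroO (FK.du ω) (b.1 + 1, b.2) r R (FK.shE (pth ω e k)) := by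
  obtain ⟨k, ⟨-, h1⟩, ⟨h2, h3⟩, ⟨h4, h5⟩⟩ := h
  have h1 : ∀ i < k, hdv (pth ω e i) ∈ hA b r R := h1
  have h4 : b.2 ≤ (hdv (pth ω e k)).2 := h4
  have h5 : R < nm (hdv (pth ω e k) - b) := h5
  have hy := FK.syR_du ω
  have hnm : ∀ v : Pt, nm (FK.shV v - (b.1 + 1, b.2)) = nm (v - b) := by
    intro v
    simp only [nm, Prod.fst_sub, Prod.snd_sub, FK.shV, Equiv.coe_fn_mk]
    congr 2
    ring
  have hmem : ∀ v : Pt, v ∈ hA b r R → FK.shV v ∈ hA (b.1 + 1, b.2) r R := by
    intro v hv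
    rw [mem_hA] at hv ⊢
    rw [hnm]
    exact hv
  refine ⟨k, h1, k, ⟨rfl, fun i hi => ?_⟩, ⟨?_, ?_⟩, ⟨?_, ?_⟩⟩
  · show hdv (pth (FK.du ω) (FK.shE (pth ω e k)) i) ∈ _
    rw [pth_du ω e k i hi.le, hy.h]
    apply hmem
    obtain ⟨m, hm⟩ : ∃ m, k - i = m + 1 := ⟨k - i - 1, by omega⟩
    rw [hm, tlv_pth]
    exact h1 m (by omega)
  · rw [hy.t]
    exact h4
  · rw [hy.t, hnm]
    exact h5
  · show _ ≤ (hdv (pth (FK.du ω) (FK.shE (pth ω e k)) k)).2
    rw [pth_du ω e k k le_rfl, hy.h, Nat.sub_self, pth_zero]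
    exact h2
  · show nm (hdv (pth (FK.du ω) (FK.shE (pth ω e k)) k) - _) < r
    rw [pth_du ω e k k le_rfl, hy.h, Nat.sub_self, pth_zero, hnm]
    exact h3

/-! ### Probabilities -/

/-- An inward crossing. -/
def InS (b : Pt) (r R : ℤ) : Set Cfg := {ω | ∃ e, CroO ω b r R e}

/-- An inward crossing and another crossing. -/
def InT (b : Pt) (r R : ℤ) : Set Cfg := {ω | ∃ e e', e ≠ e' ∧ CroO ω b r R e ∧ Cro ω b r R e'}

theorem dep_InS (b : Pt) (r R : ℤ) : Dep (hA b r R) (InS b r R) := by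
  rintro o o' h ⟨e, he⟩
  exact ⟨e, H365.croO_congr h he⟩

theorem dep_InT (b : Pt) (r R : ℤ) : Dep (hA b r R) (InT b r R) := by
  rintro o o' h ⟨e, e', hne, he, he'⟩
  exact ⟨e, e', hne, H365.croO_congr h he, (H365.cro_congr h).1 he'⟩

theorem TwoS_sub (b : Pt) (r R : ℤ) : {ω | TwoS b r R ω} ⊆
    InS b r R ∪ {ω | FK.du ω ∈ InS (b.1 + 1, b.2) r R} := by
  rintro ω ⟨e, he | he⟩
  · obtain ⟨k, -, hk⟩ := croI_du he
    exact Or.inr ⟨_, hk⟩
  · exact Or.inl ⟨e, he⟩

theorem ThrS_sub (b : Pt) (r R : ℤ) : {ω | ThrS b r R ω} ⊆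
    InT b r R ∪ {ω | FK.du ω ∈ InT (b.1 + 1, b.2) r R} := by
  rintro ω ⟨e, e', hne, he, he'⟩
  rcases he with he | he
  · rcases he' with he' | he'
    · right
      obtain ⟨k, h1, hk⟩ := croI_du he
      obtain ⟨k', h1', hk'⟩ := croI_du he'
      refine ⟨_, _, fun h => ?_, hk, Or.inr hk'⟩
      have h2 := FK.shE.injective h
      have tl : ∀ f, CroI ω b r R f → tlv f ∉ (hA b r R : Set Pt) := by
        rintro f ⟨-, -, ⟨-, h3⟩, -⟩ h4
        rw [Finset.mem_coe, mem_hA] at h4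
        omega
      exact hne (merge (tl e he) (tl e' he') h1 h1' h2)
    · exact Or.inl ⟨e', e, hne.symm, he', Or.inl he⟩
  · exact Or.inl ⟨e, e', hne, he, he'⟩

theorem InS_le (hrR : r ≤ R) : μ.real (InS b r R) ≤ S b r R := by
  have hp := fair_mu.prob
  have h1 : InS b r R ⊆ ⋃ e ∈ E b R, {w | Vis (hq b R) b r w e} := by
    rintro ω ⟨e, he⟩
    obtain ⟨h2, k, h3⟩ := croO_past hrR he
    simp only [Set.mem_iUnion]
    exact ⟨e, h2, h3.vis.mono (by omega)⟩
  exact (measureReal_mono h1 (measure_ne_top _ _)).trans (measureReal_biUnion_finset_le _ _)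

/-- A fresh crossing, given the past. -/
def FXe (B : Finset Pt) (bc : Cfg) (b : Pt) (r R : ℤ) (e : Ed) (k : ℕ) : Set Cfg :=
  {w | H192.ov B bc w ∈
    FX true (ex (H192.ov B bc w) e k) b r R ∪ FX false (ex (H192.ov B bc w) e k) b r R}

theorem meas_FXe (B : Finset Pt) (bc : Cfg) (b : Pt) (r R : ℤ) (e : Ed) (k : ℕ) :
    MeasurableSet (FXe B bc b r R e k) :=
  meas_ov (B := B) (bc := bc) (fun ω => ω ∈ FX true (ex ω e k) b r R ∪ FX false (ex ω e k) b r R)

theorem fxe_le (B : Finset Pt) (bc : Cfg) (D : Set Pt) (b : Pt) (r R : ℤ) (e : Ed) (k : ℕ)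
    {r' : ℤ} (hB : hq b R ⊆ (B : Set Pt)) {q : ℝ}
    (h : μ.real (HX true b r R ∪ HX false b r R) ≤ q) :
    μ ({w | PE B bc D b r' e k w} ∩ FXe B bc b r R e k) ≤
      ENNReal.ofReal q * μ {w | PE B bc D b r' e k w} := by
  have hp := fair_mu.prob
  rw [mu_eq]
  refine H558.stop_le fair (H192.stop_rev (D := B) (bc := bc) (e := e) k)
    (past_PE (D := D) (b := b) (r := r') k) (meas_FXe B bc b r R e k) fun w _ => ?_
  have h3 : {w' | H558.glue (↑(H192.rev B bc e k w)) w w' ∈ FXe B bc b r R e k} ⊆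
      HX true b r R ∪ HX false b r R := by
    rintro w' (h4 | h4)
    · exact Or.inl (hx_of_fx hB h4)
    · exact Or.inr (hx_of_fx hB h4)
  refine (measure_mono h3).trans ?_
  rw [← mu_eq, ← ofReal_measureReal]
  exact ENNReal.ofReal_le_ofReal h

theorem InT_le : ∃ C α : ℝ, 0 < C ∧ 0 < α ∧ ∀ (b : Pt) (r R : ℤ), 1 ≤ r → r + 2 ≤ R →
    μ.real (InT b r R) ≤ C * ((r : ℝ) / R) ^ α * S b r R := by
  obtain ⟨C, α, hC, hα, h⟩ := hx_le
  have hp := fair_mu.prob
  refine ⟨C * 4 ^ α, α, by positivity, hα, fun b r R hr hR => ?_⟩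
  set B := hF b R with hB
  set bc : Cfg := fun _ => true with hbc
  set q : ℝ := C * ((r : ℝ) / ((R - 1 : ℤ) : ℝ)) ^ α with hq'
  have hr0 : (1 : ℝ) ≤ r := by exact_mod_cast hr
  have hR1 : (0 : ℝ) < ((R - 1 : ℤ) : ℝ) := by exact_mod_cast (by omega : 0 < R - 1)
  have hR0 : (3 : ℝ) ≤ R := by exact_mod_cast (by omega : 3 ≤ R)
  have hq0 : 0 ≤ q := by positivity
  have hBs : hq b (R - 1) ⊆ (B : Set Pt) := by
    rw [hB, coe_hF]
    rintro v ⟨h1, h2⟩
    refine ⟨h1, ?_⟩
    have h2 : nm (v - b) ≤ R - 1 := h2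
    show nm (v - b) ≤ R
    omega
  have h1 : InT b r R ⊆ ⋃ e ∈ E b R, ⋃ k, ({w | PE B bc (hq b R) b (r - 1) e k w} ∩
      FXe B bc b r (R - 1) e k) := by
    intro w hw
    have h2 : H192.ov B bc w ∈ InT b r R := by
      refine dep_InT b r R w _ (fun v hv => ?_) hw
      rw [H192.ov_mem (mem_hF.2 (hA_sub hv))]
    obtain ⟨e, e', hne, h3, h4⟩ := h2
    obtain ⟨h5, k, h6⟩ := croO_past (by omega) h3
    have h7 := second hR h5 h6 h4 hne
    refine Set.mem_iUnion₂.2 ⟨e, h5, Set.mem_iUnion.2 ⟨k, h6, ?_⟩⟩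
    exact h7
  have h2 : ∀ e ∈ E b R, ∀ k, μ ({w | PE B bc (hq b R) b (r - 1) e k w} ∩
      FXe B bc b r (R - 1) e k) ≤ ENNReal.ofReal q * μ {w | PE B bc (hq b R) b (r - 1) e k w} :=
    fun e _ k => fxe_le B bc (hq b R) b r (R - 1) e k hBs (h b r (R - 1) hr (by omega))
  have h3 : μ (InT b r R) ≤ ENNReal.ofReal q * ∑ e ∈ E b R, μ {w | Vis (hq b R) b r w e} := by
    rw [Finset.mul_sum]
    refine (measure_mono h1).trans ((measure_biUnion_finset_le _ _).trans ?_)
    refine Finset.sum_le_sum fun e he => ?_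
    refine (measure_iUnion_le _).trans ((ENNReal.tsum_le_tsum (h2 e he)).trans ?_)
    rw [ENNReal.tsum_mul_left]
    gcongr
    rw [← measure_iUnion (fun i j hij => ?_) (fun k => meas_PE k)]
    · refine measure_mono (Set.iUnion_subset fun k w hw => ?_)
      have h4 : Vis (hq b R) b (r - 1) (H192.ov B bc w) e := Past.vis hw
      exact (vis_hF.1 h4).mono (by omega)
    · rw [Function.onFun, Set.disjoint_left]
      intro w h4 h5
      exact hij (Past.unique h4 h5)
  have h4 := ENNReal.toReal_mono (by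
    refine ENNReal.mul_ne_top ENNReal.ofReal_ne_top (ENNReal.sum_ne_top.2 fun e _ => ?_)
    exact measure_ne_top _ _) h3
  rw [ENNReal.toReal_mul, ENNReal.toReal_ofReal hq0,
    ENNReal.toReal_sum (fun j _ => measure_ne_top _ _)] at h4
  refine h4.trans (mul_le_mul_of_nonneg_right ?_ (Finset.sum_nonneg fun _ _ => ENNReal.toReal_nonneg))
  rw [hq', mul_assoc, ← Real.mul_rpow (by norm_num) (by positivity)]
  gcongr
  rw [mul_div_assoc', div_le_div_iff₀ hR1 (by linarith)]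
  push_cast
  nlinarith

/-- **(I-2)** Two arms in the half plane, strand form. -/
theorem twoS_le : ∃ C : ℝ, 0 < C ∧ ∀ (b : Pt) (r R : ℤ), 1 ≤ r → r ≤ R →
    μ.real {ω | TwoS b r R ω} ≤ C * ((r : ℝ) / R) := by
  obtain ⟨M, C, hM, hC, h⟩ := S_bd
  have hp := fair_mu.prob
  refine ⟨max (2 * C) M, by positivity, fun b r R hr hrR => ?_⟩
  have hr0 : (1 : ℝ) ≤ r := by exact_mod_cast hr
  have hR0 : (r : ℝ) ≤ R := by exact_mod_cast hrR
  have h0 : 0 ≤ (r : ℝ) / R := div_nonneg (by linarith) (by linarith)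
  rcases le_or_gt (M * r) R with h1 | h1
  · have h2 := (measureReal_mono (TwoS_sub b r R) (measure_ne_top μ _)).trans (measureReal_union_le _ _)
    rw [real_du (dep_InS _ r R)] at h2
    have h3 := (InS_le (b := b) hrR).trans (h b r R hr h1)
    have h4 := (InS_le (b := (b.1 + 1, b.2)) hrR).trans (h _ r R hr h1)
    calc μ.real {ω | TwoS b r R ω} ≤ 2 * C * ((r : ℝ) / R) := by linarith
      _ ≤ _ := mul_le_mul_of_nonneg_right (le_max_left _ _) h0
  · refine measureReal_le_one.trans ?_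
    have h2 : (R : ℝ) ≤ M * r := by exact_mod_cast h1.le
    calc (1 : ℝ) ≤ M * ((r : ℝ) / R) := by
          rw [mul_div_assoc', le_div_iff₀ (by linarith)]
          linarith
      _ ≤ _ := mul_le_mul_of_nonneg_right (le_max_right _ _) h0

/-- **(I-3)** Three arms in the half plane, strand form. -/
theorem thrS_le : ∃ C α : ℝ, 0 < C ∧ 0 < α ∧ ∀ (b : Pt) (r R : ℤ), 1 ≤ r → r ≤ R →
    μ.real {ω | ThrS b r R ω} ≤ C * ((r : ℝ) / R) ^ (1 + α) := by
  obtain ⟨M, C, hM, hC, h⟩ := S_bd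
  obtain ⟨C', α, hC', hα, h'⟩ := InT_le
  have hp := fair_mu.prob
  have hM0 : (0 : ℝ) < M := by exact_mod_cast (by omega : 0 < M)
  refine ⟨max (2 * (C' * C)) ((M + 2) ^ (1 + α)), α, by positivity, hα, fun b r R hr hrR => ?_⟩
  have hr0 : (1 : ℝ) ≤ r := by exact_mod_cast hr
  have hR0 : (r : ℝ) ≤ R := by exact_mod_cast hrR
  have h0 : 0 < (r : ℝ) / R := div_pos (by linarith) (by linarith)
  rcases le_or_gt ((M + 2) * r) R with h1 | h1
  · have h1' : M * r ≤ R := by nlinarith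
    have h1'' : r + 2 ≤ R := by nlinarith
    have h2 := (measureReal_mono (ThrS_sub b r R) (measure_ne_top μ _)).trans (measureReal_union_le _ _)
    rw [real_du (dep_InT _ r R)] at h2
    have key : ∀ b, μ.real (InT b r R) ≤ C' * C * ((r : ℝ) / R) ^ (1 + α) := by
      intro b
      calc μ.real (InT b r R) ≤ C' * ((r : ℝ) / R) ^ α * S b r R := h' b r R hr h1''
        _ ≤ C' * ((r : ℝ) / R) ^ α * (C * ((r : ℝ) / R)) := by
            gcongr
            exact h b r R hr h1'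
        _ = _ := by
            rw [Real.rpow_add h0, Real.rpow_one]
            ring
    have h3 := key b
    have h4 := key (b.1 + 1, b.2)
    calc μ.real {ω | ThrS b r R ω} ≤ 2 * (C' * C) * ((r : ℝ) / R) ^ (1 + α) := by linarith
      _ ≤ _ := mul_le_mul_of_nonneg_right (le_max_left _ _) (by positivity)
  · refine measureReal_le_one.trans ?_
    have h2 : (R : ℝ) ≤ (M + 2) * r := by exact_mod_cast h1.le
    calc (1 : ℝ) = 1 ^ (1 + α) := (Real.one_rpow _).symm
      _ ≤ ((M + 2) * ((r : ℝ) / R)) ^ (1 + α) := by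
          refine Real.rpow_le_rpow zero_le_one ?_ (by linarith)
          rw [mul_div_assoc', le_div_iff₀ (by linarith)]
          linarith
      _ = (M + 2) ^ (1 + α) * ((r : ℝ) / R) ^ (1 + α) := Real.mul_rpow (by positivity) h0.le
      _ ≤ _ := mul_le_mul_of_nonneg_right (le_max_right _ _) (by positivity)

end Vale.Agent.P167.H632
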