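import Vale.Agent.P167.H632.Esc
import Vale.Agent.P167.H192.Inter

/-!
# P167, arm toolkit: the escape lemma (probability)

`B`: the fresh squares, the other ones are frozen in the state `bc`. The strand starts outside `D`.
-/

namespace Vale.Agent.P167.H632

open MeasureTheory Vale.Agent.P145.FB Vale.Agent.P153 Vale.Agent.P153.Topo Vale.Agent.P167
  Vale.Agent.P167.H871
open Relation
open scoped ENNReal

/-! ### No crossing by either colour -/

theorem HC_mono {c : Bool} {b : Pt} {r R r' R' : ℤ} (h1 : r ≤ r') (h2 : r' ≤ R') (h3 : R' ≤ R) :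
    HC c b r' R' ⊆ HC c b r R := by
  intro ω hω
  rw [HC_eq, Set.mem_compl_iff] at hω ⊢
  rintro ⟨y, y', k1, k2, k3, k4⟩
  apply hω
  obtain ⟨z, z', j1, j2, j3, j4, -⟩ := crossing (b := b) h2 k4 (by omega) (by omega)
  refine ⟨z, z', by rw [← j3.parity, k1], j1, j2, j4.mono subset_rfl ?_⟩
  rintro w ⟨⟨hw1, -⟩, hw2⟩
  exact ⟨hw1, hw2⟩

/-- Neither colour crosses the half annulus. -/
def NX (b : Pt) (r R : ℤ) : Set Mk := HC true b r R ∩ HC false b r R

theorem NX_compl (b : Pt) (r R : ℤ) : (NX b r R)ᶜ = HX true b r R ∪ HX false b r R := by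
  rw [NX, Set.compl_inter, HX_eq, HX_eq, Set.union_comm]
  rfl

theorem nx_ge : ∃ c0 : ℝ, 0 < c0 ∧ c0 ≤ 1 ∧ ∀ (b : Pt) (r R : ℤ), 1 ≤ r → 80 * r ≤ R →
    c0 ≤ μ.real (NX b r R) := by
  obtain ⟨c, hc, h⟩ := hc_ge
  have hp := fair_mu.prob
  refine ⟨c * c, by positivity, ?_, fun b r R hr hR => ?_⟩
  · have h1 := (h true 0 1 8 le_rfl (by norm_num)).trans measureReal_le_one
    nlinarith
  · have h1 := h true b r (8 * r) hr le_rfl
    have h2 := h false b (8 * r + 2) (8 * (8 * r + 2)) (by omega) le_rfl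
    calc c * c ≤ μ.real (HC true b r (8 * r)) * μ.real (HC false b (8 * r + 2) (8 * (8 * r + 2))) := by
          gcongr
      _ = μ.real (HC true b r (8 * r) ∩ HC false b (8 * r + 2) (8 * (8 * r + 2))) :=
          (fair_mu.indep (disj_aq (by omega)) (dep_HC _ _ _ _) (dep_HC _ _ _ _)).symm
      _ ≤ _ := measureReal_mono (Set.inter_subset_inter (HC_mono le_rfl (by omega) (by omega))
          (HC_mono (by omega) (by omega) (by omega)))

theorem hx_le : ∃ C α : ℝ, 0 < C ∧ 0 < α ∧ ∀ (b : Pt) (r R : ℤ), 1 ≤ r → r ≤ R →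
    μ.real (HX true b r R ∪ HX false b r R) ≤ C * ((r : ℝ) / R) ^ α := by
  obtain ⟨C, α, hC, hα, h⟩ := arm_le
  have hp := fair_mu.prob
  refine ⟨2 * C, α, by positivity, hα, fun b r R hr hR => ?_⟩
  refine (measureReal_union_le _ _).trans ?_
  have h1 := (measureReal_mono (HX_sub_Arm true b r R)).trans (h true b r R hr hR)
  have h2 := (measureReal_mono (HX_sub_Arm false b r R)).trans (h false b r R hr hR)
  linarith

theorem meas_NX (b : Pt) (r R : ℤ) : MeasurableSet (NX b r R) :=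
  ((dep_HC true b r R).meas).inter (dep_HC false b r R).meas

theorem meas_HX (c : Bool) (b : Pt) (r R : ℤ) : MeasurableSet (HX c b r R) := (dep_HX c b r R).meas

/-! ### The strand in a partly frozen configuration -/

variable {B : Finset Pt} {bc : Cfg} {D : Set Pt} {b : Pt} {r R : ℤ} {e : Ed}

theorem path_eq (w : Cfg) (i : ℕ) : H192.path B bc e w i = pth (H192.ov B bc w) e i := rfl

/-- The past event. -/
def PE (B : Finset Pt) (bc : Cfg) (D : Set Pt) (b : Pt) (r : ℤ) (e : Ed) (k : ℕ) (w : Cfg) : Prop :=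
  Past D b r (H192.ov B bc w) e k

/-- No escape after time `k`. -/
def NE (B : Finset Pt) (bc : Cfg) (D : Set Pt) (b : Pt) (R : ℤ) (e : Ed) (k : ℕ) : Set Cfg :=
  {w | ∀ m, k ≤ m → (∀ i ≤ m, hdv (pth (H192.ov B bc w) e i) ∈ D) →
    nm (hdv (pth (H192.ov B bc w) e m) - b) < R}

theorem past_PE (k : ℕ) : H558.Past (H192.rev B bc e k) (PE B bc D b r e k) := by
  intro w w' h
  have hp := H192.path_eq_of_rev (D := B) (bc := bc) (e := e) h
  simp only [path_eq] at hp
  refine propext ⟨fun h1 => ?_, fun h1 => ?_⟩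
  · exact ⟨h1.start, h1.pos, fun i hi => by rw [← hp i hi.le]; exact h1.mem i hi,
      fun i hi => by rw [← hp i hi.le]; exact h1.off i hi, by rw [← hp k le_rfl]; exact h1.tip⟩
  · exact ⟨h1.start, h1.pos, fun i hi => by rw [hp i hi.le]; exact h1.mem i hi,
      fun i hi => by rw [hp i hi.le]; exact h1.off i hi, by rw [hp k le_rfl]; exact h1.tip⟩

theorem meas_PE (k : ℕ) : MeasurableSet {w | PE B bc D b r e k w} :=
  (past_PE k).measurableSet {p | p}

theorem meas_NE (k : ℕ) : MeasurableSet (NE B bc D b R e k) := by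
  have : NE B bc D b R e k = ⋂ m, {w | k ≤ m → (∀ i ≤ m, hdv (pth (H192.ov B bc w) e i) ∈ D) →
      nm (hdv (pth (H192.ov B bc w) e m) - b) < R} := by
    ext w
    simp only [NE, Set.mem_ofPred_eq, Set.mem_iInter]
  rw [this]
  refine MeasurableSet.iInter fun m => ?_
  have hP : H558.Past (H192.rev B bc e m) (fun w => k ≤ m →
      (∀ i ≤ m, hdv (pth (H192.ov B bc w) e i) ∈ D) →
      nm (hdv (pth (H192.ov B bc w) e m) - b) < R) := by
    intro w w' h
    have hp := H192.path_eq_of_rev (D := B) (bc := bc) (e := e) h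
    simp only [path_eq] at hp
    have e1 : (∀ i ≤ m, hdv (pth (H192.ov B bc w') e i) ∈ D) ↔
        ∀ i ≤ m, hdv (pth (H192.ov B bc w) e i) ∈ D :=
      forall₂_congr fun i hi => by rw [hp i hi]
    simp only [e1, hp m le_rfl]
  exact hP.measurableSet {p | p}

/-- Unexplored squares are fresh. -/
theorem hx_of_fx {w w' : Cfg} {k : ℕ} {c : Bool} {r' R' : ℤ} (hB : hq b R' ⊆ (B : Set Pt))
    (h : H192.ov B bc (H558.glue (↑(H192.rev B bc e k w)) w w') ∈
      FX c (ex (H192.ov B bc (H558.glue (↑(H192.rev B bc e k w)) w w')) e k) b r' R') :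
    w' ∈ HX c b r' R' := by
  obtain ⟨y, y', h1, h2, h3, h0, h4⟩ := h
  refine ⟨y, y', h1, h2, h3, ?_⟩
  clear h1 h2 h3
  have hpath : ∀ i ≤ k, pth (H192.ov B bc (H558.glue (↑(H192.rev B bc e k w)) w w')) e i =
      pth (H192.ov B bc w) e i := by
    intro i hi
    exact H192.path_eq_of_rev (D := B) (bc := bc) (e := e) (k := k)
      (fun q hq => H558.glue_mem (Finset.mem_coe.2 hq)) i hi
  induction h4 with
  | refl => exact PConn.refl h0
  | @tail x z hx hxz ih =>
    have hxm : x ∈ hp b ∩ an b r' R' := ih.right_mem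
    have hsq := mem_aq.1 (sq_mem_aq hxz.1 hxm hxz.2)
    have hv : (min x.1 z.1, min x.2 z.2) ∈ hq b R' := ⟨hsq.2.1, hsq.1⟩
    have hvB := Finset.mem_coe.1 (hB hv)
    refine ih.tail ⟨hxz.1.1, hxz.1.2.1, ?_⟩ hxz.2
    obtain ⟨hc, hne⟩ := hxz.1.2.2
    have hnr : (min x.1 z.1, min x.2 z.2) ∉ H192.rev B bc e k w := by
      intro hmem
      obtain ⟨-, i, hi, h5⟩ := H192.mem_rev.1 hmem
      apply hne
      refine ⟨i, hi, ?_⟩
      rw [hpath i hi.le]
      exact h5
    have h6 : H192.ov B bc (H558.glue (↑(H192.rev B bc e k w)) w w') (min x.1 z.1, min x.2 z.2) = c :=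
      hc
    rw [H192.ov_mem hvB, H558.glue_not_mem (fun h => hnr (Finset.mem_coe.1 h))] at h6
    exact h6

/-- **Escape lemma, given the past.** -/
theorem escape_sub (hD : Ex D) (hrR : r + 3 ≤ R) (hf : Flat D b R) (hB : hq b R ⊆ (B : Set Pt))
    {w : Cfg} {k : ℕ} (hw : PE B bc D b r e k w) :
    {w' | H558.glue (↑(H192.rev B bc e k w)) w w' ∈ (NE B bc D b R e k)ᶜ} ⊆
      (NX b (r + 1) (R - 1))ᶜ := by
  intro w' hw'
  rw [NX_compl]
  have hP : PE B bc D b r e k (H558.glue (↑(H192.rev B bc e k w)) w w') := by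
    have := (past_PE (B := B) (bc := bc) (D := D) (b := b) (r := r) (e := e) k).glue w w'
    rw [this]
    exact hw
  simp only [NE, Set.mem_compl_iff, Set.mem_ofPred_eq] at hw'
  push Not at hw'
  obtain ⟨m, h1, h2, h3⟩ := hw'
  have hsub : hq b (R - 1) ⊆ (B : Set Pt) := by
    refine subset_trans ?_ hB
    rintro v ⟨hv1, hv2⟩
    refine ⟨hv1, ?_⟩
    have : nm (v - b) ≤ R - 1 := hv2
    show nm (v - b) ≤ R
    omega
  rcases Past.escape hD hrR hf hP h1 h2 h3 with h | h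
  · exact Or.inl (hx_of_fx hsub h)
  · exact Or.inr (hx_of_fx hsub h)

theorem glue_NE {w : Cfg} {k : ℕ} (hD : Ex D) (hrR : r + 3 ≤ R) (hf : Flat D b R)
    (hB : hq b R ⊆ (B : Set Pt)) (hw : PE B bc D b r e k w) :
    NX b (r + 1) (R - 1) ⊆ {w' | H558.glue (↑(H192.rev B bc e k w)) w w' ∈ NE B bc D b R e k} := by
  intro w' h1
  by_contra h2
  exact escape_sub hD hrR hf hB hw h2 h1

theorem mu_eq : (μ : Measure Cfg) = H558.Pm fair (ℤ × ℤ) := rfl

/-- **No escape with positive probability, given the past.** -/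
theorem noesc_ge : ∃ c0 : ℝ, 0 < c0 ∧ c0 ≤ 1 ∧ ∀ (B : Finset Pt) (bc : Cfg) (D : Set Pt) (b : Pt)
    (r R : ℤ) (e : Ed) (k : ℕ), Ex D → 1 ≤ r → 200 * r ≤ R → Flat D b R → hq b R ⊆ (B : Set Pt) →
    c0 * μ.real {w | PE B bc D b r e k w} ≤
      μ.real ({w | PE B bc D b r e k w} ∩ NE B bc D b R e k) := by
  obtain ⟨c0, hc, hc1, h⟩ := nx_ge
  have hp := fair_mu.prob
  refine ⟨c0, hc, hc1, fun B bc D b r R e k hD hr hR hf hB => ?_⟩
  have h1 := H558.le_stop fair (H192.stop_rev (D := B) (bc := bc) (e := e) k)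
    (past_PE (D := D) (b := b) (r := r) k) (meas_NE (D := D) (b := b) (R := R) k)
    (q := ENNReal.ofReal c0) (fun w hw => by
      refine le_trans ?_ (measure_mono (glue_NE hD (by omega) hf hB hw))
      rw [← mu_eq, ← ofReal_measureReal]
      exact ENNReal.ofReal_le_ofReal (h b (r + 1) (R - 1) (by omega) (by omega)))
  rw [← mu_eq] at h1
  have h2 := ENNReal.toReal_mono (measure_ne_top _ _) h1
  rw [ENNReal.toReal_mul, ENNReal.toReal_ofReal hc.le] at h2
  exact h2

/-- **Escape, given the past.** -/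
theorem esc_le : ∃ C α : ℝ, 0 < C ∧ 0 < α ∧ ∀ (B : Finset Pt) (bc : Cfg) (D : Set Pt) (b : Pt)
    (r R : ℤ) (e : Ed) (k : ℕ), Ex D → 1 ≤ r → r ≤ R → Flat D b R → hq b R ⊆ (B : Set Pt) →
    μ.real ({w | PE B bc D b r e k w} ∩ (NE B bc D b R e k)ᶜ) ≤
      C * ((r : ℝ) / R) ^ α * μ.real {w | PE B bc D b r e k w} := by
  obtain ⟨C, α, hC, hα, h⟩ := hx_le
  have hp := fair_mu.prob
  refine ⟨max (C * 4 ^ α) (4 ^ α), α, by positivity, hα, fun B bc D b r R e k hD hr hR hf hB => ?_⟩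
  have hr' : (1 : ℝ) ≤ r := by exact_mod_cast hr
  have hR' : (r : ℝ) ≤ R := by exact_mod_cast hR
  have hrR0 : (0 : ℝ) ≤ (r : ℝ) / R := div_nonneg (by linarith) (by linarith)
  rcases lt_or_ge R (r + 3) with h4 | h4
  · have h5 : (R : ℝ) ≤ 4 * r := by exact_mod_cast (by omega : R ≤ 4 * r)
    have h6 : (1 : ℝ) ≤ max (C * 4 ^ α) (4 ^ α) * ((r : ℝ) / R) ^ α := by
      calc (1 : ℝ) = 1 ^ α := (Real.one_rpow α).symm
        _ ≤ (4 * ((r : ℝ) / R)) ^ α := by
            refine Real.rpow_le_rpow zero_le_one ?_ hα.le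
            rw [mul_div_assoc', le_div_iff₀ (by linarith)]
            linarith
        _ = 4 ^ α * ((r : ℝ) / R) ^ α := Real.mul_rpow (by norm_num) hrR0
        _ ≤ _ := mul_le_mul_of_nonneg_right (le_max_right _ _) (Real.rpow_nonneg hrR0 _)
    calc μ.real ({w | PE B bc D b r e k w} ∩ (NE B bc D b R e k)ᶜ)
        ≤ μ.real {w | PE B bc D b r e k w} := measureReal_mono Set.inter_subset_left
      _ = 1 * μ.real {w | PE B bc D b r e k w} := (one_mul _).symm
      _ ≤ _ := by gcongr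
  · set q : ℝ := C * (((r + 1 : ℤ) : ℝ) / ((R - 1 : ℤ) : ℝ)) ^ α with hq
    have hq0 : 0 ≤ q := by
      have : (0 : ℝ) ≤ ((R - 1 : ℤ) : ℝ) := by exact_mod_cast (by omega : 0 ≤ R - 1)
      have : (0 : ℝ) ≤ ((r + 1 : ℤ) : ℝ) := by exact_mod_cast (by omega : 0 ≤ r + 1)
      positivity
    have h1 := H558.stop_le fair (H192.stop_rev (D := B) (bc := bc) (e := e) k)
      (past_PE (D := D) (b := b) (r := r) k) (meas_NE (D := D) (b := b) (R := R) k).compl
      (q := ENNReal.ofReal q) (fun w hw => by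
        refine le_trans (measure_mono (escape_sub hD h4 hf hB hw)) ?_
        rw [NX_compl, ← mu_eq, ← ofReal_measureReal]
        exact ENNReal.ofReal_le_ofReal (h b (r + 1) (R - 1) (by omega) (by omega)))
    rw [← mu_eq] at h1
    have h2 := ENNReal.toReal_mono (by finiteness) h1
    rw [ENNReal.toReal_mul, ENNReal.toReal_ofReal hq0] at h2
    refine h2.trans ?_
    have h3 : q ≤ max (C * 4 ^ α) (4 ^ α) * ((r : ℝ) / R) ^ α := by
      calc q ≤ C * (4 * ((r : ℝ) / R)) ^ α := by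
            rw [hq]
            have h7 : (0 : ℝ) < ((R - 1 : ℤ) : ℝ) := by exact_mod_cast (by omega : 0 < R - 1)
            have h8 : (0 : ℝ) ≤ ((r + 1 : ℤ) : ℝ) := by exact_mod_cast (by omega : 0 ≤ r + 1)
            have h9 : ((r + 1 : ℤ) : ℝ) / ((R - 1 : ℤ) : ℝ) ≤ 4 * ((r : ℝ) / R) := by
              rw [mul_div_assoc', div_le_div_iff₀ h7 (by linarith)]
              push_cast
              have : (4 : ℝ) ≤ R := by exact_mod_cast (by omega : 4 ≤ R)
              nlinarith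
            gcongr
        _ = C * 4 ^ α * ((r : ℝ) / R) ^ α := by
            rw [Real.mul_rpow (by norm_num) hrR0]
            ring
        _ ≤ _ := mul_le_mul_of_nonneg_right (le_max_left _ _) (Real.rpow_nonneg hrR0 _)
    exact mul_le_mul_of_nonneg_right h3 measureReal_nonneg

end Vale.Agent.P167.H632
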