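import Vale.Agent.P167.H632.Pot2

/-!
# P167: `SCon D` implies `CoConn D`
-/

namespace Vale.Agent.P167.H632

open Vale.Agent.P167
open Relation

/-- Connection off `D`. -/
def Off (D : Finset (ℤ × ℤ)) (a b : ℤ × ℤ) : Prop :=
  a ∉ D ∧ ReflTransGen (fun a b => H318.Adj a b ∧ b ∉ D) a b

variable {D : Finset (ℤ × ℤ)} {a b c : ℤ × ℤ}

theorem Off.right (h : Off D a b) : b ∉ D := by
  obtain ⟨h0, h⟩ := h
  induction h with
  | refl => exact h0
  | tail _ h _ => exact h.2

theorem Off.trans (h : Off D a b) (h' : Off D b c) : Off D a c := ⟨h.1, h.2.trans h'.2⟩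

theorem adj_symm (h : H318.Adj a b) : H318.Adj b a := by
  unfold H318.Adj at *
  omega

theorem Off.one (ha : a ∉ D) (hb : b ∉ D) (h : H318.Adj a b) : Off D a b :=
  ⟨ha, ReflTransGen.single ⟨h, hb⟩⟩

theorem Off.symm (h : Off D a b) : Off D b a := by
  obtain ⟨h0, h⟩ := h
  induction h with
  | refl => exact ⟨h0, ReflTransGen.refl⟩
  | @tail b c hab hbc ih =>
    have hb : b ∉ D := Off.right ⟨h0, hab⟩
    exact (Off.one hbc.2 hb (adj_symm hbc.1)).trans ih

theorem adj_ends (e : Ed) : H318.Adj (tlv e) (hdv e) := by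
  unfold H318.Adj
  rcases e with v | v
  · rcases sq_inl v with h | h <;> rw [h.1, h.2.1] <;> dsimp only <;> omega
  · rcases sq_inr v with h | h <;> rw [h.1, h.2.1] <;> dsimp only <;> omega

theorem off_of_chain (ha : a ∉ D) (h : ReflTransGen (BR.Adj D) a b) : Off D a b := by
  induction h with
  | refl => exact ⟨ha, ReflTransGen.refl⟩
  | @tail b c _ hbc ih =>
    obtain ⟨e, he, h⟩ := hbc
    rw [BR.mem_eds, not_or] at he
    refine ih.trans ?_
    rcases h with ⟨rfl, rfl⟩ | ⟨rfl, rfl⟩
    · exact Off.one he.2 he.1 (adj_ends e)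
    · exact Off.one he.1 he.2 (adj_symm (adj_ends e))

theorem off_row {x y : ℤ} (n : ℕ) (h : ∀ i : ℕ, i ≤ n → ((x + i, y) : ℤ × ℤ) ∉ D) :
    Off D (x, y) (x + n, y) := by
  induction n with
  | zero =>
    have := h 0 le_rfl
    simp only [Nat.cast_zero, add_zero] at this ⊢
    exact ⟨this, ReflTransGen.refl⟩
  | succ n ih =>
    refine (ih fun i hi => h i (by omega)).trans (Off.one (h n (by omega)) (h (n + 1) le_rfl) ?_)
    right
    refine ⟨rfl, Or.inl ?_⟩
    push_cast
    ring

theorem off_col {x y : ℤ} (n : ℕ) (h : ∀ i : ℕ, i ≤ n → ((x, y + i) : ℤ × ℤ) ∉ D) :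
    Off D (x, y) (x, y + n) := by
  induction n with
  | zero =>
    have := h 0 le_rfl
    simp only [Nat.cast_zero, add_zero] at this ⊢
    exact ⟨this, ReflTransGen.refl⟩
  | succ n ih =>
    refine (ih fun i hi => h i (by omega)).trans (Off.one (h n (by omega)) (h (n + 1) le_rfl) ?_)
    left
    refine ⟨rfl, Or.inl ?_⟩
    push_cast
    ring

/-- Squares of a half plane off `D`. -/
theorem off_far {X : ℤ} (hX : ∀ v : ℤ × ℤ, X < v.1 → v ∉ D) (ha : X < a.1) (hb : X < b.1) :
    Off D a b := by
  obtain ⟨x, y⟩ := a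
  obtain ⟨z, w⟩ := b
  dsimp only at ha hb
  have row : Off D (x, y) (z, y) := by
    rcases le_total x z with h | h
    · have := off_row (D := D) (x := x) (y := y) (z - x).toNat fun i _ => hX _ (by dsimp only; omega)
      rwa [show x + ((z - x).toNat : ℤ) = z by omega] at this
    · have := off_row (D := D) (x := z) (y := y) (x - z).toNat fun i _ => hX _ (by dsimp only; omega)
      rw [show z + ((x - z).toNat : ℤ) = x by omega] at this
      exact this.symm
  have col : Off D (z, y) (z, w) := by
    rcases le_total y w with h | h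
    · have := off_col (D := D) (x := z) (y := y) (w - y).toNat fun i _ => hX _ (by dsimp only; omega)
      rwa [show y + ((w - y).toNat : ℤ) = w by omega] at this
    · have := off_col (D := D) (x := z) (y := w) (y - w).toNat fun i _ => hX _ (by dsimp only; omega)
      rw [show w + ((y - w).toNat : ℤ) = y by omega] at this
      exact this.symm
  exact row.trans col

/-- **SCon implies CoConn.** -/
theorem coConn_of_scon (hD : BR.SCon D) : H318.CoConn D := by
  classical
  have key : ∀ a b, a ∉ D → b ∉ D → Off D a b := by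
    rcases D.eq_empty_or_nonempty with rfl | hne
    · intro a b _ _
      exact off_far (X := min a.1 b.1 - 1) (fun v _ => Finset.notMem_empty v) (by omega) (by omega)
    · obtain ⟨d, hd, hmax⟩ := D.exists_max_image (fun v => v.1) hne
      obtain ⟨t, ht, hmaxt⟩ := (D.filter fun v => v.1 = d.1).exists_max_image (fun v => v.2)
        ⟨d, Finset.mem_filter.2 ⟨hd, rfl⟩⟩
      rw [Finset.mem_filter] at ht
      obtain ⟨htD, htX⟩ := ht
      have far : ∀ v : ℤ × ℤ, t.1 < v.1 → v ∉ D := fun v hv hm => by
        have := hmax v hm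
        omega
      have hr : ((t.1 + 1, t.2) : ℤ × ℤ) ∉ D := far _ (by dsimp only; omega)
      have hu : ((t.1, t.2 + 1) : ℤ × ℤ) ∉ D := by
        intro hm
        have := hmaxt _ (Finset.mem_filter.2 ⟨hm, htX⟩)
        dsimp only at this
        omega
      -- an entrance and an exit
      obtain ⟨ei, eo, hi1, hi2, ho1, ho2, hF⟩ : ∃ ei eo : Ed, ei ∈ BR.eds D ∧ tlv ei ∉ D ∧
          eo ∈ BR.eds D ∧ hdv eo ∉ D ∧ ((t.1 + 1, t.2) = tlv ei ∨ (t.1 + 1, t.2) = hdv eo) := by
        have m1 : Sum.inl t ∈ BR.eds D := by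
          rw [BR.mem_eds]
          rcases sq_inl t with h | h <;> rw [h.1, h.2.1] <;> simp [htD]
        have m2 : Sum.inr t ∈ BR.eds D := by
          rw [BR.mem_eds]
          rcases sq_inr t with h | h <;> rw [h.1, h.2.1] <;> simp [htD]
        by_cases hp : Even (t.1 + t.2)
        · exact ⟨Sum.inr t, Sum.inl t, m2, by simpa [tlv, hp] using hu, m1,
            by simpa [hdv, hp] using hr, Or.inr (by simp [hdv, hp])⟩
        · exact ⟨Sum.inl t, Sum.inr t, m1, by simpa [tlv, hp] using hr, m2,
            by simpa [hdv, hp] using hu, Or.inl (by simp [tlv, hp])⟩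
      have hio : Off D (tlv ei) (hdv eo) := off_of_chain hi2 (hD ei hi1 eo ho1 hi2 ho2)
      set F0 : ℤ × ℤ := (t.1 + 1, t.2) with hF0
      have c0 : Off D F0 (hdv eo) ∧ Off D F0 (tlv ei) := by
        rcases hF with h | h
        · rw [h]
          exact ⟨hio, ⟨hi2, ReflTransGen.refl⟩⟩
        · rw [h]
          exact ⟨⟨ho2, ReflTransGen.refl⟩, hio.symm⟩
      have c1 : ∀ e ∈ BR.eds D, ∀ a, (a = tlv e ∨ a = hdv e) → a ∉ D → Off D a F0 := by
        rintro e he a (rfl | rfl) ha
        · exact (off_of_chain ha (hD e he eo ho1 ha ho2)).trans c0.1.symm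
        · exact (c0.2.trans (off_of_chain hi2 (hD ei hi1 e he hi2 ha))).symm
      have c2 : ∀ a, a ∉ D → Off D a F0 := by
        intro a ha
        by_cases hex : ∃ n : ℕ, ((a.1 + n + 1, a.2) : ℤ × ℤ) ∈ D
        · have hn := Nat.find_spec hex
          have hmin : ∀ i < Nat.find hex, ((a.1 + i + 1, a.2) : ℤ × ℤ) ∉ D := fun i hi =>
            Nat.find_min hex hi
          set n := Nat.find hex
          have hoff : ∀ i : ℕ, i ≤ n → ((a.1 + i, a.2) : ℤ × ℤ) ∉ D := by
            intro i hi
            rcases i with _ | i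
            · simpa using ha
            · have := hmin i (by omega)
              push_cast
              rwa [← add_assoc]
          refine (off_row (D := D) (x := a.1) (y := a.2) n hoff).trans ?_
          refine c1 (Sum.inl (a.1 + n, a.2)) ?_ _ ?_ (hoff n le_rfl)
          · rw [BR.mem_eds]
            rcases sq_inl (a.1 + n, a.2) with h | h <;> rw [h.1, h.2.1] <;> simp [hn]
          · rcases sq_inl (a.1 + n, a.2) with h | h
            · exact Or.inr h.1.symm
            · exact Or.inl h.2.1.symm
        · push Not at hex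
          have hoff : ∀ i : ℕ, ((a.1 + i, a.2) : ℤ × ℤ) ∉ D := by
            intro i
            rcases i with _ | i
            · simpa using ha
            · have := hex i
              push_cast
              rwa [← add_assoc]
          refine (off_row (D := D) (x := a.1) (y := a.2) (t.1 + 1 - a.1).toNat
            fun i _ => hoff i).trans ?_
          exact off_far far (by dsimp only; omega) (by rw [hF0]; dsimp only; omega)
      intro a b ha hb
      exact (c2 a ha).trans (c2 b hb).symm
  intro a b ha hb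
  exact (key a b ha hb).2

end Vale.Agent.P167.H632
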