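import Vale.Agent.P167.H632.Vis
import Vale.Agent.P167.FK.Sym

/-!
# P167, arm toolkit: the expected number of strands which enter a half box and reach its centre

`E b R`: the edges which enter the half box of radius `R` from the half plane;
`S b r R = ∑ e ∈ E b R, P (Vis (hq b R) b r w e)` is at most `C r / R`.
-/

namespace Vale.Agent.P167.H632

open MeasureTheory Vale.Agent.P145.FB Vale.Agent.P153 Vale.Agent.P153.Topo Vale.Agent.P167
  Vale.Agent.P167.H871
open Relation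
open scoped ENNReal

variable {D : Set Pt} {b : Pt} {r R : ℤ} {e : Ed} {ω ω' : Cfg} {k : ℕ}

theorem pth_congr (h : ∀ v ∈ D, ω' v = ω v) (h1 : ∀ i < k, hdv (pth ω e i) ∈ D) :
    ∀ i ≤ k, pth ω' e i = pth ω e i := by
  intro i
  induction i with
  | zero => exact fun _ => rfl
  | succ i ih =>
    intro hi
    rw [pth_succ, pth_succ, ih (by omega)]
    exact H192.nx_congr (h _ (h1 i (by omega)))

theorem vis_congr (h : ∀ v ∈ D, ω' v = ω v) (hv : Vis D b r ω e) : Vis D b r ω' e := by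
  obtain ⟨k, h1, h2⟩ := hv
  have h3 := pth_congr h h1
  exact ⟨k, fun i hi => by rw [h3 i hi.le]; exact h1 i hi, by rw [h3 k le_rfl]; exact h2⟩

theorem Vis.mono {r' : ℤ} (h : r ≤ r') (hv : Vis D b r ω e) : Vis D b r' ω e := by
  obtain ⟨k, h1, h2, h3⟩ := hv
  exact ⟨k, h1, h2, le_trans h3 h⟩

/-- Two runs which meet started at the same edge. -/
theorem merge {e₁ e₂ : Ed} (h1 : tlv e₁ ∉ D) (h2 : tlv e₂ ∉ D) {i j : ℕ}
    (hd1 : ∀ l < i, hdv (pth ω e₁ l) ∈ D) (hd2 : ∀ l < j, hdv (pth ω e₂ l) ∈ D)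
    (h : pth ω e₁ i = pth ω e₂ j) : e₁ = e₂ := by
  induction i generalizing j with
  | zero =>
    rcases j with _ | m
    · exact h
    · exfalso
      apply h1
      rw [pth_zero] at h
      rw [h, tlv_pth]
      exact hd2 m (by omega)
  | succ i ih =>
    rcases j with _ | m
    · exfalso
      apply h2
      rw [pth_zero] at h
      rw [← h, tlv_pth]
      exact hd1 i (by omega)
    · rw [pth_succ, pth_succ] at h
      exact ih (fun l hl => hd1 l (by omega)) (fun l hl => hd2 l (by omega)) ((s_nx ω).1 h)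

theorem mem_hq {v : Pt} : v ∈ hq b R ↔
    b.1 - R ≤ v.1 ∧ v.1 < b.1 + R + 1 ∧ b.2 ≤ v.2 ∧ v.2 < b.2 + R + 1 ∧ b.2 - R ≤ v.2 := by
  have := mem_bl (b := b) (w := v) (R := R)
  constructor
  · rintro ⟨h1, h2⟩
    rw [this] at h2
    omega
  · rintro h
    exact ⟨h.2.2.1, this.2 (by omega)⟩

theorem hq_finite (b : Pt) (R : ℤ) : (hq b R).Finite := by
  refine (Finset.finite_toSet (Finset.Icc (b.1 - R) (b.1 + R) ×ˢ Finset.Icc b.2 (b.2 + R))).subset ?_
  intro v hv
  rw [mem_hq] at hv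
  rw [Finset.mem_coe, Finset.mem_product, Finset.mem_Icc, Finset.mem_Icc]
  omega

theorem ex_hq (b : Pt) (R : ℤ) : Ex (hq b R) := by
  have : hq b R = {v | b.1 - R ≤ v.1 ∧ v.1 < b.1 + R + 1 ∧ b.2 ≤ v.2 ∧ v.2 < b.2 + R + 1} := by
    ext v
    rw [mem_hq]
    simp only [Set.mem_ofPred_eq]
    omega
  rw [this]
  exact ex_rect _ _ _ _

/-- The squares of the half box. -/
noncomputable def hF (b : Pt) (R : ℤ) : Finset Pt := (hq_finite b R).toFinset

theorem mem_hF {v : Pt} : v ∈ hF b R ↔ v ∈ hq b R := Set.Finite.mem_toFinset _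

theorem coe_hF : (hF b R : Set Pt) = hq b R := Set.Finite.coe_toFinset _

theorem vis_hF {c : Pt} {w : Cfg} {bc : Cfg} :
    Vis (hq b R) c r (H192.ov (hF b R) bc w) e ↔ Vis (hq b R) c r w e := by
  constructor
  · exact vis_congr fun v hv => (H192.ov_mem (mem_hF.2 hv)).symm
  · exact vis_congr fun v hv => H192.ov_mem (mem_hF.2 hv)

/-- The edges which enter the half box from the half plane. -/
def En (b : Pt) (R : ℤ) : Set Ed := {e | b.2 ≤ (tlv e).2 ∧ R < nm (tlv e - b) ∧ hdv e ∈ hq b R}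

theorem En_finite (b : Pt) (R : ℤ) : (En b R).Finite :=
  (H166.touch_finite (hF b R)).subset fun _ h => Or.inl (mem_hF.2 h.2.2)

noncomputable def E (b : Pt) (R : ℤ) : Finset Ed := (En_finite b R).toFinset

theorem mem_E : e ∈ E b R ↔ b.2 ≤ (tlv e).2 ∧ R < nm (tlv e - b) ∧ hdv e ∈ hq b R :=
  Set.Finite.mem_toFinset _

theorem E_tlv (h : e ∈ E b R) : tlv e ∉ hq b R := by
  intro h1
  have h2 : nm (tlv e - b) ≤ R := h1.2
  have h3 := (mem_E.1 h).2.1
  omega

theorem nm_ends (b : Pt) (e : Ed) : nm (tlv e - b) ≤ nm (hdv e - b) + 1 := by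
  have k2 : nm (hdv e - b) ≤ nm (hdv e - b) := le_rfl
  rw [nm_le] at k2 ⊢
  simp only [Prod.fst_sub, Prod.snd_sub] at *
  rcases e with v | v
  · rcases sq_inl v with h' | h' <;> rw [h'.1] at k2 ⊢ <;> rw [h'.2.1] <;> dsimp only at * <;> omega
  · rcases sq_inr v with h' | h' <;> rw [h'.1] at k2 ⊢ <;> rw [h'.2.1] <;> dsimp only at * <;> omega

theorem E_hdv (h : e ∈ E b R) : nm (hdv e - b) = R := by
  have h3 := mem_E.1 h
  have h4 : nm (hdv e - b) ≤ R := h3.2.2.2
  have h5 := nm_ends b e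
  omega

/-- The expected number. -/
noncomputable def S (b : Pt) (r R : ℤ) : ℝ := ∑ e ∈ E b R, μ.real {w | Vis (hq b R) b r w e}

theorem meas_vis (b c : Pt) (r R : ℤ) (e : Ed) : MeasurableSet {w | Vis (hq b R) c r w e} := by
  have := meas_ov (B := hF b R) (bc := fun _ => true) (fun ω => Vis (hq b R) c r ω e)
  simpa only [vis_hF] using this

theorem dep_vis (b c : Pt) (r R : ℤ) (e : Ed) : Dep (hF b R) {w | Vis (hq b R) c r w e} := by
  intro w w' h hw
  exact vis_congr (fun v hv => (h v (mem_hF.2 hv)).symm) hw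

/-- **The number of the crossing strands has a bounded expectation.** -/
theorem S_le : ∃ (K : ℤ) (C : ℝ), 2 ≤ K ∧ 0 < C ∧ ∀ (b : Pt) (ρ R : ℤ), 1 ≤ ρ → K * ρ ≤ R →
    S b ρ R ≤ C := by
  classical
  obtain ⟨K, l, C, hK, hl, hC, h⟩ := H945.crossS
  have hp := fair_mu.prob
  refine ⟨K, C / l, hK, by positivity, fun b ρ R hρ hR => ?_⟩
  obtain ⟨Z, -, hZ, hE⟩ := h b ρ hρ
  have h1 : ∑ e ∈ E b R, μ {w | Vis (hq b R) b ρ w e} ≤ ∫⁻ w, ENNReal.ofReal (Z w : ℝ) ∂μ := by
    refine sum_le_lint (E b R) _ (fun e _ => meas_vis _ _ _ _ _) _ fun w T hT hTw => ?_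
    rw [ENNReal.ofReal_natCast]
    have hk : ∀ e : Ed, ∃ k, e ∈ T → (∀ i < k, hdv (pth w e i) ∈ hq b R) ∧
        hdv (pth w e k) ∈ hq b ρ := by
      intro e
      by_cases he : e ∈ T
      · obtain ⟨k, hk⟩ := hTw e he
        exact ⟨k, fun _ => hk⟩
      · exact ⟨0, fun h => absurd h he⟩
    choose k hk using hk
    set γ : Ed → Finset Ed := fun e => (Finset.range (k e + 1)).image (pth w e) with hγ
    have hmem : ∀ e a, a ∈ γ e ↔ ∃ i ≤ k e, pth w e i = a := by
      intro e a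
      simp only [hγ, Finset.mem_image, Finset.mem_range, Nat.lt_succ_iff]
    have hmerge : ∀ e₁ ∈ T, ∀ e₂ ∈ T, ¬ Disjoint (γ e₁) (γ e₂) → e₁ = e₂ := by
      intro e₁ he₁ e₂ he₂ hnd
      rw [Finset.not_disjoint_iff] at hnd
      obtain ⟨a, ha1, ha2⟩ := hnd
      obtain ⟨i, hi, hi2⟩ := (hmem _ _).1 ha1
      obtain ⟨j, hj, hj2⟩ := (hmem _ _).1 ha2
      exact merge (D := hq b R) (E_tlv (hT he₁)) (E_tlv (hT he₂))
        (fun l hl => (hk e₁ he₁).1 l (by omega)) (fun l hl => (hk e₂ he₂).1 l (by omega))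
        (hi2.trans hj2.symm)
    have hinj : Set.InjOn γ T := by
      intro e₁ he₁ e₂ he₂ heq
      refine hmerge e₁ he₁ e₂ he₂ ?_
      rw [← heq, Finset.not_disjoint_iff]
      exact ⟨_, (hmem e₁ _).2 ⟨0, Nat.zero_le _, rfl⟩, (hmem e₁ _).2 ⟨0, Nat.zero_le _, rfl⟩⟩
    rw [← Finset.card_image_of_injOn hinj]
    have h2 := hZ w (T.image γ) ?_ ?_ ?_
    · exact_mod_cast h2
    · intro g hg
      obtain ⟨e, he, rfl⟩ := Finset.mem_image.1 hg
      exact ⟨e, k e, hmem e⟩
    · intro g hg g' hg' hne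
      obtain ⟨e₁, he₁, rfl⟩ := Finset.mem_image.1 hg
      obtain ⟨e₂, he₂, rfl⟩ := Finset.mem_image.1 hg'
      by_contra hnd
      exact hne (by rw [hmerge e₁ he₁ e₂ he₂ hnd])
    · intro g hg
      obtain ⟨e, he, rfl⟩ := Finset.mem_image.1 hg
      refine ⟨⟨pth w e (k e), (hmem e _).2 ⟨_, le_rfl, rfl⟩, (hk e he).2.2⟩,
        ⟨e, (hmem e _).2 ⟨0, Nat.zero_le _, rfl⟩, ?_⟩⟩
      rw [E_hdv (hT he)]
      exact hR
  have h2 : ∫⁻ w, ENNReal.ofReal (Z w : ℝ) ∂μ ≤ ENNReal.ofReal (C / l) := by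
    calc ∫⁻ w, ENNReal.ofReal (Z w : ℝ) ∂μ
        ≤ ∫⁻ w, ENNReal.ofReal (1 / l) * ENNReal.ofReal (Real.exp (l * (Z w : ℝ))) ∂μ := by
          refine lintegral_mono fun w => ?_
          rw [← ENNReal.ofReal_mul (by positivity)]
          refine ENNReal.ofReal_le_ofReal ?_
          rw [div_mul_eq_mul_div, one_mul, le_div_iff₀ hl]
          have := Real.add_one_le_exp (l * (Z w : ℝ))
          linarith
      _ = ENNReal.ofReal (1 / l) * ∫⁻ w, ENNReal.ofReal (Real.exp (l * (Z w : ℝ))) ∂μ :=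
          lintegral_const_mul' _ _ ENNReal.ofReal_ne_top
      _ ≤ ENNReal.ofReal (1 / l) * ENNReal.ofReal C := by gcongr
      _ = ENNReal.ofReal (C / l) := by
          rw [← ENNReal.ofReal_mul (by positivity)]
          congr 1
          ring
  have h3 := ENNReal.toReal_mono ENNReal.ofReal_ne_top (h1.trans h2)
  rw [ENNReal.toReal_sum (fun j _ => measure_ne_top _ _),
    ENNReal.toReal_ofReal (by positivity)] at h3
  exact h3

/-! ### Translation -/

theorem pth_syP {φ : Ed ≃ Ed} {σ : Pt ≃ Pt} (h : FK.SyP φ σ ω ω') (e : Ed) (i : ℕ) :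
    pth ω' (φ e) i = φ (pth ω e i) := by
  induction i with
  | zero => rfl
  | succ i ih => rw [pth_succ, pth_succ, ih, h.n]

theorem hq_tr (p v : Pt) : (v.1 - p.1, v.2 - p.2) ∈ hq b R ↔ v ∈ hq (b.1 + p.1, b.2 + p.2) R := by
  rw [mem_hq, mem_hq]
  dsimp only
  omega

theorem vis_tr (p : Pt) (hp : Even (p.1 + p.2)) (c : Pt) (ω : Cfg) (e : Ed) :
    Vis (hq b R) c r (ω ∘ fun v => (v.1 + p.1, v.2 + p.2)) (FK.trE p e) ↔
      Vis (hq (b.1 + p.1, b.2 + p.2) R) (c.1 + p.1, c.2 + p.2) r ω e := by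
  have h := FK.syP_tr p hp ω
  unfold Vis
  simp only [pth_syP h, h.h]
  have h1 : ∀ v : Pt, ∀ b' : Pt, ∀ R' : ℤ, FK.trV p v ∈ hq b' R' ↔
      v ∈ hq (b'.1 + p.1, b'.2 + p.2) R' := fun v b' R' => hq_tr p v
  simp only [h1]

theorem tlv_tr (p : Pt) (hp : Even (p.1 + p.2)) (e : Ed) :
    tlv (FK.trE p e) = ((tlv e).1 - p.1, (tlv e).2 - p.2) := by
  obtain ⟨p, q⟩ := p
  have hev : ∀ x y : ℤ, Even (x - p + (y - q)) ↔ Even (x + y) := fun x y => by
    simp only [Int.even_iff] at hp ⊢; omega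
  rcases e with ⟨x, y⟩ | ⟨x, y⟩ <;> by_cases h : Even (x + y) <;> simp [tlv, FK.trE, h, hev] <;>
    omega

theorem real_tr {F : Finset Pt} {A : Set Mk} (hA : Dep F A) (p : Pt) :
    μ.real {o | (o ∘ fun v : Pt => (v.1 + p.1, v.2 + p.2)) ∈ A} = μ.real A := by
  have := fair_mu.symm hA (FK.trV p).symm (fun _ => false)
  rw [← this]
  congr 1
  ext o
  simp only [Set.mem_ofPred_eq]
  have : (o ∘ fun v : Pt => (v.1 + p.1, v.2 + p.2)) =
      fun w => xor (o ((FK.trV p).symm w)) false := by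
    funext w; simp [FK.trV]
  rw [this]

theorem S_tr (p : Pt) (hp : Even (p.1 + p.2)) (b : Pt) (r R : ℤ) :
    S (b.1 + p.1, b.2 + p.2) r R = S b r R := by
  unfold S
  refine Finset.sum_equiv (FK.trE p) (fun e => ?_) fun e _ => ?_
  · rw [mem_E, mem_E, tlv_tr p hp, (FK.syP_tr p hp (fun _ => true)).h]
    have h1 : FK.trV p (hdv e) ∈ hq b R ↔ hdv e ∈ hq (b.1 + p.1, b.2 + p.2) R := hq_tr p _
    rw [h1]
    have h2 : nm (((tlv e).1 - p.1, (tlv e).2 - p.2) - b) =
        nm (tlv e - (b.1 + p.1, b.2 + p.2)) := by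
      simp only [nm, Prod.fst_sub, Prod.snd_sub]
      congr 2 <;> ring
    rw [h2]
    dsimp only
    constructor <;> rintro ⟨a1, a2, a3⟩ <;> exact ⟨by omega, a2, a3⟩
  · rw [← real_tr (dep_vis b b r R (FK.trE p e)) p]
    congr 1
    ext o
    exact (vis_tr p hp b o e).symm

/-! ### The bound -/

/-- The last entrance in `D` before the visit. -/
theorem last_entry {D' : Set Pt} (h0 : tlv e ∉ D) (hrD : hq b r ⊆ D)
    (h1 : ∀ i < k, hdv (pth ω e i) ∈ D') (h2 : hdv (pth ω e k) ∈ hq b r) :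
    ∃ i ≤ k, tlv (pth ω e i) ∉ D ∧ hdv (pth ω e i) ∈ D ∧ Vis D b r ω (pth ω e i) ∧
      (i = 0 ∨ tlv (pth ω e i) ∈ D') := by
  classical
  set i0 := Nat.findGreatest (fun i => tlv (pth ω e i) ∉ D) k with hi0
  have a1 : tlv (pth ω e i0) ∉ D :=
    Nat.findGreatest_spec (P := fun i => tlv (pth ω e i) ∉ D) (Nat.zero_le k) h0
  have a2 : i0 ≤ k := Nat.findGreatest_le _
  have a3 : ∀ i, i0 < i → i ≤ k → tlv (pth ω e i) ∈ D := fun i hi hi' =>
    not_not.1 (Nat.findGreatest_is_greatest hi hi')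
  have a4 : ∀ i, i0 ≤ i → i ≤ k → hdv (pth ω e i) ∈ D := by
    intro i hi hi'
    rcases lt_or_eq_of_le hi' with h3 | h3
    · rw [← tlv_pth]
      exact a3 _ (by omega) (by omega)
    · rw [h3]
      exact hrD h2
  refine ⟨i0, a2, a1, a4 i0 le_rfl a2, ⟨k - i0, fun i hi => ?_, ?_⟩, ?_⟩
  · rw [pth_add]
    exact a4 _ (by omega) (by omega)
  · rw [pth_add]
    have : i0 + (k - i0) = k := by omega
    rw [this]
    exact h2
  · rcases Nat.eq_zero_or_pos i0 with h3 | h3
    · exact Or.inl h3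
    · right
      obtain ⟨m, hm⟩ : ∃ m, i0 = m + 1 := ⟨i0 - 1, by omega⟩
      rw [hm, tlv_pth]
      exact h1 m (by omega)

/-- Smaller boxes have at least as many entering strands. -/
theorem S_sub {c : Pt} {R' : ℤ} (h2 : c.2 = b.2) (hR : |c.1 - b.1| + R' ≤ R)
    (hr : |c.1 - b.1| + r ≤ R') :
    S c r R ≤ ∑ e ∈ E b R', μ.real {w | Vis (hq b R') c r w e} := by
  classical
  have hp := fair_mu.prob
  have hd := abs_nonneg (c.1 - b.1)
  have hab := abs_le.1 (le_refl |c.1 - b.1|)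
  have hrD : hq c r ⊆ hq b R' := by
    intro v hv
    rw [mem_hq] at hv ⊢
    omega
  have hsub : hq b R' ⊆ hq c R := by
    intro v hv
    rw [mem_hq] at hv ⊢
    omega
  refine sum_le_sum' (E c R) _ (fun e _ => meas_vis _ _ _ _ _) (E b R') _
    (fun e _ => meas_vis _ _ _ _ _) fun w T hT hTw => ?_
  have key : ∀ e : Ed, ∃ i, e ∈ T → (∀ l < i, hdv (pth w e l) ∈ hq c R) ∧
      pth w e i ∈ E b R' ∧ Vis (hq b R') c r w (pth w e i) := by
    intro e
    by_cases he : e ∈ T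
    · obtain ⟨k, h3, h4⟩ := hTw e he
      have h5 := mem_E.1 (hT he)
      have h0 : tlv e ∉ hq b R' := fun h6 => E_tlv (hT he) (hsub h6)
      obtain ⟨i, j1, j2, j3, j4, j5⟩ := last_entry h0 hrD h3 h4
      refine ⟨i, fun _ => ⟨fun l hl => h3 l (by omega), ?_, j4⟩⟩
      have h7 : b.2 ≤ (tlv (pth w e i)).2 := by
        rcases j5 with rfl | j5
        · rw [← h2]; exact h5.1
        · rw [← h2]; exact j5.1
      refine mem_E.2 ⟨h7, ?_, j3⟩
      by_contra hcon
      exact j2 ⟨h7, not_lt.1 hcon⟩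
    · exact ⟨0, fun h => absurd h he⟩
  choose i hi using key
  refine ⟨T.image fun e => pth w e (i e), ?_, ?_, ?_⟩
  · intro g hg
    obtain ⟨e, he, rfl⟩ := Finset.mem_image.1 hg
    exact (hi e he).2.1
  · intro g hg
    obtain ⟨e, he, rfl⟩ := Finset.mem_image.1 hg
    exact (hi e he).2.2
  · rw [Finset.card_image_of_injOn]
    intro e₁ he₁ e₂ he₂ heq
    exact merge (D := hq c R) (E_tlv (hT he₁)) (E_tlv (hT he₂)) (hi e₁ he₁).1 (hi e₂ he₂).1 heq

/-- **The expected number of the strands which enter the half box of radius `R` and reach the half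
box of radius `r`.** -/
theorem S_bd : ∃ (M : ℤ) (C : ℝ), 1 ≤ M ∧ 0 < C ∧ ∀ (b : Pt) (r R : ℤ), 1 ≤ r → M * r ≤ R →
    S b r R ≤ C * ((r : ℝ) / R) := by
  classical
  obtain ⟨K, C1, hK, hC1, h1⟩ := S_le
  obtain ⟨C2, hC2, h2⟩ := vis_sum
  have hp := fair_mu.prob
  refine ⟨1000 * (K + 1), C2 * 201 * C1 * (16 * (K + 1)), by omega, by
    have : (0 : ℝ) < K := by exact_mod_cast (by omega : (0 : ℤ) < K)
    positivity, fun b r R hr hR => ?_⟩
  -- the scales
  set ρ := R / (K + 1) with hρ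
  have r1 : (K + 1) * ρ ≤ R := Int.mul_ediv_self_le (by omega)
  have r2 : R < (K + 1) * (ρ + 1) := by
    have := Int.lt_ediv_add_one_mul_self R (by omega : (0 : ℤ) < K + 1)
    rw [← hρ] at this
    linarith
  have r3 : 1000 * r ≤ ρ := by
    rw [hρ, Int.le_ediv_iff_mul_le (by omega)]
    linarith
  set N := ρ / (4 * r) with hN
  have n1 : 4 * r * N ≤ ρ := Int.mul_ediv_self_le (by omega)
  have n2 : ρ < 4 * r * (N + 1) := by
    have := Int.lt_ediv_add_one_mul_self ρ (by omega : (0 : ℤ) < 4 * r)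
    rw [← hN] at this
    linarith
  have n3 : 1 ≤ N := by
    rw [hN, Int.le_ediv_iff_mul_le (by omega)]
    linarith
  obtain ⟨n, hn⟩ : ∃ n : ℕ, N = n := ⟨N.toNat, by omega⟩
  have r4 : 3 * ρ ≤ R := by nlinarith
  have r5 : K * ρ ≤ R - ρ := by linarith
  -- the blocks
  set x : ℕ → Pt := fun j => (b.1 + 2 * r * j, b.2) with hx
  have hxj : ∀ j ∈ Finset.range n, 0 ≤ 2 * r * (j : ℤ) ∧ 4 * (r * (j : ℤ)) ≤ ρ - 4 * r := by
    intro j hj
    have h3 : (j : ℤ) + 1 ≤ N := by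
      rw [hn]
      exact_mod_cast Finset.mem_range.1 hj
    constructor
    · positivity
    · nlinarith
  -- every block has the same expectation
  have s1 : ∀ j : ℕ, S (x j) r R = S b r R := by
    intro j
    have := S_tr (2 * r * j, 0) (by
      simp only [add_zero]
      exact ⟨r * j, by ring⟩) b r R
    simpa [hx] using this
  have s2 : ∀ j ∈ Finset.range n, S b r R ≤
      ∑ e ∈ E b (R - ρ), μ.real {w | Vis (hq b (R - ρ)) (x j) r w e} := by
    intro j hj
    obtain ⟨h3, h4⟩ := hxj j hj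
    rw [← s1 j]
    have h5 : |(x j).1 - b.1| = 2 * r * j := by
      simp only [hx, add_sub_cancel_left]
      exact abs_of_nonneg h3
    refine S_sub rfl ?_ ?_
    · rw [h5]; nlinarith
    · rw [h5]; nlinarith
  have s3 : ∀ e ∈ E b (R - ρ), ∑ j ∈ Finset.range n, μ.real {w | Vis (hq b (R - ρ)) (x j) r w e} ≤
      C2 * 201 * μ.real {w | Vis (hq b (R - ρ)) b ρ w e} := by
    intro e he
    have h3 := h2 (hF b (R - ρ)) (fun _ => true) (hq b (R - ρ)) e (Finset.range n) x (fun _ => r) 201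
      {w | Vis (hq b (R - ρ)) b ρ w e} (ex_hq _ _) (hq_finite _ _) (E_tlv he) ?_ ?_ ?_
    · simpa only [vis_hF, Nat.cast_ofNat] using h3
    · intro j hj
      obtain ⟨h4, h5⟩ := hxj j hj
      have h6 : 2 * r * (j : ℤ) = 2 * (r * j) := by ring
      refine ⟨hr, ?_, ?_, ?_⟩
      · intro v hv
        rw [mem_bl] at hv
        rw [mem_hq]
        simp only [hx] at hv ⊢
        constructor
        · intro h7
          exact h7.2.2.1
        · intro h7
          omega
      · rw [coe_hF]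
        intro v hv
        rw [mem_hq] at hv ⊢
        simp only [hx] at hv ⊢
        omega
      · intro h7
        have h8 := E_hdv he
        rw [mem_hq] at h7
        have h9 : nm (hdv e - b) ≤ R - ρ - 1 := by
          rw [nm_le]
          simp only [Prod.fst_sub, Prod.snd_sub, hx] at h7 ⊢
          omega
        omega
    · intro v T hTn hT
      have h4 : T ⊆ (Finset.range n).filter fun j : ℕ =>
          (v.1 - b.1 + 200 * r) / (2 * r) - 200 ≤ (j : ℤ) ∧
            (j : ℤ) ≤ (v.1 - b.1 + 200 * r) / (2 * r) := by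
        intro j hj
        rw [Finset.mem_filter]
        have h5 := hT j hj
        rw [mem_bl] at h5
        simp only [hx] at h5
        refine ⟨hTn hj, ?_, ?_⟩
        · have : (v.1 - b.1 + 200 * r) / (2 * r) ≤ (j : ℤ) + 200 := by
            apply Int.ediv_le_of_le_mul (by omega)
            nlinarith
          omega
        · rw [Int.le_ediv_iff_mul_le (by omega)]
          nlinarith
      refine (Finset.card_le_card h4).trans ?_
      have h5 : ((Finset.range n).filter fun j : ℕ =>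
          (v.1 - b.1 + 200 * r) / (2 * r) - 200 ≤ (j : ℤ) ∧
            (j : ℤ) ≤ (v.1 - b.1 + 200 * r) / (2 * r)).card ≤
          (Finset.Icc ((v.1 - b.1 + 200 * r) / (2 * r) - 200)
            ((v.1 - b.1 + 200 * r) / (2 * r))).card := by
        refine Finset.card_le_card_of_injOn (fun j : ℕ => (j : ℤ)) ?_ (by
          intro i _ j _ h
          exact Nat.cast_injective h)
        intro j hj
        rw [Finset.mem_coe, Finset.mem_filter] at hj
        rw [Finset.mem_coe, Finset.mem_Icc]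
        exact hj.2
      refine h5.trans ?_
      rw [Int.card_Icc]
      omega
    · intro j hj w hw
      rw [Set.mem_ofPred_eq, vis_hF] at hw
      obtain ⟨h4, h5⟩ := hxj j hj
      have h6 : 2 * r * (j : ℤ) = 2 * (r * j) := by ring
      obtain ⟨k, k1, k2⟩ := hw
      refine ⟨k, k1, ?_⟩
      rw [mem_hq] at k2 ⊢
      simp only [hx] at k2
      omega
  -- summation
  have s4 : (n : ℝ) * S b r R ≤ C2 * 201 * C1 := by
    calc (n : ℝ) * S b r R = ∑ j ∈ Finset.range n, S b r R := by simp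
      _ ≤ ∑ j ∈ Finset.range n, ∑ e ∈ E b (R - ρ), μ.real {w | Vis (hq b (R - ρ)) (x j) r w e} :=
          Finset.sum_le_sum s2
      _ = ∑ e ∈ E b (R - ρ), ∑ j ∈ Finset.range n, μ.real {w | Vis (hq b (R - ρ)) (x j) r w e} :=
          Finset.sum_comm
      _ ≤ ∑ e ∈ E b (R - ρ), C2 * 201 * μ.real {w | Vis (hq b (R - ρ)) b ρ w e} :=
          Finset.sum_le_sum s3
      _ = C2 * 201 * S b ρ (R - ρ) := by rw [S, Finset.mul_sum]
      _ ≤ _ := by
          gcongr
          exact h1 b ρ (R - ρ) (by omega) r5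
  have hn0 : (0 : ℝ) < n := by exact_mod_cast (by omega : 0 < n)
  have hR0 : (0 : ℝ) < R := by
    have : (0 : ℤ) < R := by nlinarith
    exact_mod_cast this
  have hr0 : (0 : ℝ) < r := by exact_mod_cast (by omega : (0 : ℤ) < r)
  have s5 : (R : ℝ) ≤ 16 * (K + 1) * r * n := by
    have h3 : ρ ≤ 8 * r * n := by rw [← hn]; nlinarith
    have h4 : R ≤ 16 * (K + 1) * r * n := by nlinarith
    exact_mod_cast h4
  have hS0 : 0 ≤ S b r R := Finset.sum_nonneg fun _ _ => measureReal_nonneg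
  calc S b r R ≤ C2 * 201 * C1 / n := by
        rw [le_div_iff₀ hn0]
        linarith
    _ ≤ C2 * 201 * C1 * (16 * (K + 1)) * (r / R) := by
        rw [div_le_iff₀ hn0]
        have : (1 : ℝ) ≤ 16 * (K + 1) * (r / R) * n := by
          rw [show 16 * ((K : ℝ) + 1) * (r / R) * n = 16 * (K + 1) * r * n / R by ring,
            le_div_iff₀ hR0]
          linarith
        have h5 : 0 ≤ C2 * 201 * C1 := by positivity
        nlinarith

end Vale.Agent.P167.H632
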