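import Vale.Agent.P167.H632.Pot2
import Vale.Agent.P167.H632.Two

/-!
# P167, block NSYM: the escape estimate `ESC` of `H318.Defs`
-/

namespace Vale.Agent.P167.H632

open MeasureTheory Vale.Agent.P145.FB Vale.Agent.P153 Vale.Agent.P153.Topo Vale.Agent.P167
  Vale.Agent.P167.H871
open Relation

theorem HB_eq (b R : ℤ) : H318.HB b R = hq (b, 0) R := by
  ext v
  rw [mem_hq]
  simp only [H318.HB, Set.mem_ofPred_eq]
  omega

theorem st_eq (e0 : Ed) (ξ : Cfg) (i : ℕ) : H318.st e0 ξ i = pth ξ e0 i := rfl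

section

variable {D : Finset Pt} {e0 : Ed} {A : Set Pt} {ξ : Cfg}

theorem hit_spec (h0 : tlv e0 ∉ D) : hdv (pth ξ e0 (H318.hit D e0 A ξ)) ∈ A ∨
    hdv (pth ξ e0 (H318.hit D e0 A ξ)) ∉ D := by
  obtain ⟨m, hm⟩ := exit_exists (ω := ξ) D.finite_toSet (show tlv e0 ∉ (D : Set Pt) from h0)
  exact Nat.sInf_mem (s := {n | hdv (H318.st e0 ξ n) ∈ A ∨ hdv (H318.st e0 ξ n) ∉ D})
    ⟨m, Or.inr hm⟩

theorem lt_hit {i : ℕ} (h : i < H318.hit D e0 A ξ) :
    hdv (pth ξ e0 i) ∉ A ∧ hdv (pth ξ e0 i) ∈ D := by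
  have := Nat.notMem_of_lt_sInf (s := {n | hdv (H318.st e0 ξ n) ∈ A ∨ hdv (H318.st e0 ξ n) ∉ D}) h
  simp only [Set.mem_ofPred_eq, not_or, not_not] at this
  exact this

theorem lt_ex {i : ℕ} (h : i < H318.ex D e0 ξ) : hdv (pth ξ e0 i) ∈ D := (lt_hit h).2

theorem ex_spec (h0 : tlv e0 ∉ D) : hdv (pth ξ e0 (H318.ex D e0 ξ)) ∉ D := by
  rcases hit_spec (A := ∅) (ξ := ξ) h0 with h | h
  · exact absurd h (Set.notMem_empty _)
  · exact h

theorem ex_le {n : ℕ} (h : hdv (pth ξ e0 n) ∉ D) : H318.ex D e0 ξ ≤ n :=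
  Nat.sInf_le (s := {n | hdv (H318.st e0 ξ n) ∈ (∅ : Set Pt) ∨ hdv (H318.st e0 ξ n) ∉ D}) (Or.inr h)

end

/-- The strand before its first fresh square does not depend on the fresh squares. -/
theorem pth_z (S : H318.St) (ω : Cfg) :
    ∀ i ≤ S.m, pth (H192.ov S.F S.z ω) S.e0 i = pth S.z S.e0 i := by
  intro i
  induction i with
  | zero => exact fun _ => rfl
  | succ i ih =>
    intro hi
    rw [pth_succ, pth_succ, ih (by omega)]
    have h1 := (lt_hit (D := S.D) (e0 := S.e0) (A := (S.F : Set Pt)) (ξ := S.z)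
      (show i < H318.hit S.D S.e0 (↑S.F) S.z from by
        have : S.m = H318.hit S.D S.e0 (↑S.F) S.z := rfl
        omega)).1
    exact H192.nx_congr (H192.ov_notMem h1)

theorem esc : H318.ESC := by
  obtain ⟨C, α, hC, hα, h⟩ := hx_le
  have hprob := fair_mu.prob
  refine ⟨max (C * 4 ^ α) (4 ^ α), α, by positivity, hα, ?_⟩
  intro S b r R hr hrR hOk hD hrow hF hPO htip
  rw [HB_eq] at hD hF hPO htip
  have hr' : (1 : ℝ) ≤ r := by exact_mod_cast hr
  have hR' : (r : ℝ) ≤ R := by exact_mod_cast hrR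
  have hrR0 : (0 : ℝ) ≤ (r : ℝ) / R := div_nonneg (by linarith) (by linarith)
  rcases lt_or_ge R (r + 3) with h4 | h4
  · have h5 : (R : ℝ) ≤ 4 * r := by exact_mod_cast (by omega : R ≤ 4 * r)
    refine measureReal_le_one.trans ?_
    calc (1 : ℝ) = 1 ^ α := (Real.one_rpow α).symm
      _ ≤ (4 * ((r : ℝ) / R)) ^ α := by
          refine Real.rpow_le_rpow zero_le_one ?_ hα.le
          rw [mul_div_assoc', le_div_iff₀ (by linarith)]
          linarith
      _ = 4 ^ α * ((r : ℝ) / R) ^ α := Real.mul_rpow (by norm_num) hrR0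
      _ ≤ _ := mul_le_mul_of_nonneg_right (le_max_right _ _) (Real.rpow_nonneg hrR0 _)
  have hFU : FlatU (S.D : Set Pt) ((b, 0) : Pt) R :=
    ⟨fun v hv => hD v hv, fun x h1 h2 => hrow x h1 h2⟩
  have hEx : Ex (S.D : Set Pt) := ex_of_co hOk.co
  -- the event
  have hsub : {ω | H192.ov S.F S.z ω ∈ {ξ | H318.Visit S.D S.e0 S.m (H318.HB b R)ᶜ ξ}} ⊆
      HX true (b, 0) (r + 1) (R - 1) ∪ HX false (b, 0) (r + 1) (R - 1) := by
    rintro ω ⟨j, hj1, hj2, hj3⟩
    set ξ := H192.ov S.F S.z ω with hξ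
    rw [HB_eq] at hj3
    have hj3 : hdv (pth ξ S.e0 j) ∉ hq (b, 0) R := hj3
    have hz := pth_z S ω
    rw [← hξ] at hz
    have htip' : hdv (pth ξ S.e0 S.m) ∈ hq (b, 0) r := by
      rw [hz S.m le_rfl]
      exact htip
    -- the first square off the half box
    classical
    have hex : ∃ i, S.m ≤ i ∧ hdv (pth ξ S.e0 i) ∉ hq (b, 0) R := ⟨j, hj1, hj3⟩
    obtain ⟨i, hi1, hi2, hi3, hi4⟩ : ∃ i, S.m ≤ i ∧ hdv (pth ξ S.e0 i) ∉ hq (b, 0) R ∧ i ≤ j ∧
        ∀ l, S.m ≤ l → l < i → hdv (pth ξ S.e0 l) ∈ hq (b, 0) R := by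
      refine ⟨Nat.find hex, (Nat.find_spec hex).1, (Nat.find_spec hex).2,
        Nat.find_min' hex ⟨hj1, hj3⟩, ?_⟩
      intro l hl hlt
      by_contra hcon
      exact Nat.find_min hex hlt ⟨hl, hcon⟩
    have hiD : ∀ l ≤ i, hdv (pth ξ S.e0 l) ∈ (S.D : Set Pt) := fun l hl =>
      lt_ex (lt_of_le_of_lt (hl.trans hi3) hj2)
    have himt : S.m < i := by
      rcases lt_or_eq_of_le hi1 with h5 | h5
      · exact h5
      · exfalso
        apply hi2
        rw [← h5]
        exact ⟨htip'.1, le_trans htip'.2 hrR⟩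
    have hfar : R ≤ nm (hdv (pth ξ S.e0 i) - ((b, 0) : Pt)) := by
      by_contra hcon
      push Not at hcon
      obtain ⟨l, rfl⟩ : ∃ l, i = l + 1 := ⟨i - 1, by omega⟩
      have h5 := hi4 l (by omega) (by omega)
      have h6 := hiD (l + 1) le_rfl
      rw [← tlv_pth] at h5
      have h7 := mem_bl.1 (show hdv (pth ξ S.e0 (l + 1)) ∈ bl ((b, 0) : Pt) R from hcon.le)
      have h8 : (hdv (pth ξ S.e0 (l + 1))).2 ≠ -1 := by
        intro h9
        apply hFU.row (hdv (pth ξ S.e0 (l + 1))).1 h7.1 h7.2.1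
        have : ((hdv (pth ξ S.e0 (l + 1))).1, ((b, 0) : Pt).2 - 1) = hdv (pth ξ S.e0 (l + 1)) := by
          rw [Prod.ext_iff]
          exact ⟨rfl, by dsimp only; omega⟩
        rw [this]
        exact h6
      apply hi2
      refine ⟨?_, hcon.le⟩
      have h10 : (0 : ℤ) ≤ (tlv (pth ξ S.e0 (l + 1))).2 := h5.1
      revert h10 h8
      show _ → _ → (0 : ℤ) ≤ _
      generalize pth ξ S.e0 (l + 1) = g
      rcases g with v | v
      · rcases sq_inl v with h' | h' <;> rw [h'.1, h'.2.1] <;> dsimp only <;> omega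
      · rcases sq_inr v with h' | h' <;> rw [h'.1, h'.2.1] <;> dsimp only <;> omega
    -- a fresh crossing
    have hHs : S.Hs = ex ξ S.e0 S.m := by
      ext v
      constructor
      · rintro ⟨l, hl, hv⟩
        exact ⟨l, hl, by rw [hz l hl.le]; exact hv⟩
      · rintro ⟨l, hl, hv⟩
        exact ⟨l, hl, by rw [hz l hl.le] at hv; exact hv⟩
    have hFX : ξ ∈ FX true (ex ξ S.e0 S.m) (b, 0) (r + 1) (R - 1) ∪
        FX false (ex ξ S.e0 S.m) (b, 0) (r + 1) (R - 1) := by
      rcases Nat.eq_zero_or_pos S.m with hm | hm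
      · -- the strand starts in the half box
        obtain ⟨l, n, a1, a2, a3, a4, a5, a6, a7⟩ := seg_of_far (by omega) htip' himt.le hfar
        refine fx_of_run (f := pth ξ S.e0 l) (n := n) h4 _ ?_ (Or.inl ?_) (Or.inl ⟨?_, ?_⟩)
        · intro i' hi'
          rw [pth_add]
          rcases lt_or_eq_of_le (show l + i' ≤ i by omega) with h5 | h5
          · exact (hi4 _ (by omega) h5).1
          · exfalso
            have h6 := hfar
            have h7 := hi4 (i - 1) (by omega) (by omega)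
            apply hi2
            refine ⟨?_, ?_⟩
            · have h8 := up_of_row (b := ((b, 0) : Pt)) (f := pth ξ S.e0 (l)) (n := i') (ω := ξ)
                hFU.row a4.1 (fun i'' hi'' => by rw [pth_add]; exact hiD _ (by omega))
                (fun i'' hi'' => by rw [pth_add]; exact a6 _ (by omega)) i' le_rfl
              rw [pth_add, h5] at h8
              exact h8
            · have h8 := a6 i' hi'
              rw [h5] at h8
              exact h8
        · intro i' _ _ _ hcon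
          obtain ⟨l', hl', -⟩ := hcon
          omega
        · rw [pth_zero]; exact a4.2
        · rw [pth_add]; exact a7
      · have hP : Past (S.D : Set Pt) (b, 0) r ξ S.e0 S.m := by
          refine ⟨hOk.st, hm, fun l hl => hiD l (by omega), fun l hl hmem => ?_, htip'⟩
          have h5 := (lt_hit (D := S.D) (e0 := S.e0) (A := (S.F : Set Pt)) (ξ := S.z)
            (show l < H318.hit S.D S.e0 (↑S.F) S.z from hl)).1
          rw [← hz l hl.le] at h5
          exact h5 (hF _ hmem)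
        exact hP.escapeU hEx h4 hFU hi1 hiD hfar
    -- transfer
    have tr : ∀ c : Bool, ξ ∈ FX c (ex ξ S.e0 S.m) (b, 0) (r + 1) (R - 1) →
        ω ∈ HX c (b, 0) (r + 1) (R - 1) := by
      rintro c ⟨y, y', h1, h2, h3, h0, h4'⟩
      refine ⟨y, y', h1, h2, h3, ?_⟩
      clear h1 h2 h3
      induction h4' with
      | refl => exact PConn.refl h0
      | @tail x z hx hxz ih =>
        have hxm : x ∈ hp ((b, 0) : Pt) ∩ an (b, 0) (r + 1) (R - 1) := ih.right_mem
        have hsq := mem_aq.1 (sq_mem_aq hxz.1 hxm hxz.2)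
        have hv : (min x.1 z.1, min x.2 z.2) ∈ hq ((b, 0) : Pt) R := by
          refine ⟨hsq.2.1, ?_⟩
          have h5 : nm ((min x.1 z.1, min x.2 z.2) - ((b, 0) : Pt)) ≤ R - 1 := hsq.1
          show nm ((min x.1 z.1, min x.2 z.2) - ((b, 0) : Pt)) ≤ R
          omega
        refine ih.tail ⟨hxz.1.1, hxz.1.2.1, ?_⟩ hxz.2
        obtain ⟨hc, hne⟩ := hxz.1.2.2
        rcases hPO _ hv with h5 | h5
        · have hc' : ξ (min x.1 z.1, min x.2 z.2) = c := hc
          rw [hξ, H192.ov_mem h5] at hc'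
          exact hc'
        · rw [hHs] at h5
          exact absurd h5 hne
    rcases hFX with h5 | h5
    · exact Or.inl (tr true h5)
    · exact Or.inr (tr false h5)
  refine (measureReal_mono hsub (measure_ne_top _ _)).trans
    ((h (b, 0) (r + 1) (R - 1) (by omega) (by omega)).trans ?_)
  calc C * (((r + 1 : ℤ) : ℝ) / ((R - 1 : ℤ) : ℝ)) ^ α ≤ C * (4 * ((r : ℝ) / R)) ^ α := by
        have h7 : (0 : ℝ) < ((R - 1 : ℤ) : ℝ) := by exact_mod_cast (by omega : 0 < R - 1)
        have h8 : (0 : ℝ) ≤ ((r + 1 : ℤ) : ℝ) := by exact_mod_cast (by omega : 0 ≤ r + 1)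
        have h9 : ((r + 1 : ℤ) : ℝ) / ((R - 1 : ℤ) : ℝ) ≤ 4 * ((r : ℝ) / R) := by
          rw [mul_div_assoc', div_le_div_iff₀ h7 (by linarith)]
          push_cast
          have : (4 : ℝ) ≤ R := by exact_mod_cast (by omega : 4 ≤ R)
          nlinarith
        gcongr
    _ = C * 4 ^ α * ((r : ℝ) / R) ^ α := by
        rw [Real.mul_rpow (by norm_num) hrR0]
        ring
    _ ≤ _ := mul_le_mul_of_nonneg_right (le_max_left _ _) (Real.rpow_nonneg hrR0 _)

end Vale.Agent.P167.H632
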