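import Vale.Agent.P167.H632.Vis2
import Vale.Agent.P167.H632.EscP

/-!
# P167, block NSYM: the second moment `SM` of `H318.Defs`
-/

namespace Vale.Agent.P167.H632

open MeasureTheory Vale.Agent.P145.FB Vale.Agent.P153 Vale.Agent.P153.Topo Vale.Agent.P167
  Vale.Agent.P167.H871
open Relation
open scoped ENNReal

/-! ### The potential of the complete strand takes two values near the strand -/

/-- The value `a` or `a + 1`. -/
def Q2 (u : Pt → ℤ) (a : ℤ) (z : Pt) : Prop := u z = a ∨ u z = a + 1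

theorem Q2_edge {u : Pt → ℤ} {a : ℤ} {f : Ed} (h : (u (ls f) = a + 1 ∧ u (rs f) = a) ∨
    u (ls f) = u (rs f)) : Q2 u a (ls f) ↔ Q2 u a (rs f) := by
  unfold Q2
  omega

/-- The corners of a square. -/
theorem Q2_sq {u : Pt → ℤ} {a : ℤ} {v : Pt} (h : ∀ f, (hdv f = v ∨ tlv f = v) →
    ((u (ls f) = a + 1 ∧ u (rs f) = a) ∨ u (ls f) = u (rs f))) :
    (Q2 u a (v.1 + 1, v.2) ↔ Q2 u a (v.1 + 1, v.2 + 1)) ∧
      (Q2 u a (v.1, v.2 + 1) ↔ Q2 u a (v.1 + 1, v.2 + 1)) ∧
      (Q2 u a (v.1, v.2) ↔ Q2 u a (v.1, v.2 + 1)) ∧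
      (Q2 u a (v.1, v.2) ↔ Q2 u a (v.1 + 1, v.2)) := by
  refine ⟨?_, ?_, ?_, ?_⟩
  · rcases sq_inl v with h' | h'
    · have := Q2_edge (h (Sum.inl v) (Or.inl h'.1))
      rw [h'.2.2.2.1, h'.2.2.2.2] at this
      exact this
    · have := Q2_edge (h (Sum.inl v) (Or.inr h'.2.1))
      rw [h'.2.2.2.1, h'.2.2.2.2] at this
      exact this.symm
  · rcases sq_inr v with h' | h'
    · have := Q2_edge (h (Sum.inr v) (Or.inl h'.1))
      rw [h'.2.2.2.1, h'.2.2.2.2] at this
      exact this.symm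
    · have := Q2_edge (h (Sum.inr v) (Or.inr h'.2.1))
      rw [h'.2.2.2.1, h'.2.2.2.2] at this
      exact this
  · have e1 : v.1 - 1 + 1 = v.1 := by ring
    rcases sq_inl (v.1 - 1, v.2) with h' | h'
    · have := Q2_edge (h (Sum.inl (v.1 - 1, v.2)) (Or.inr (by rw [h'.2.1]; simp)))
      rw [h'.2.2.2.1, h'.2.2.2.2] at this
      dsimp only at this
      rwa [e1] at this
    · have := Q2_edge (h (Sum.inl (v.1 - 1, v.2)) (Or.inl (by rw [h'.1]; simp)))
      rw [h'.2.2.2.1, h'.2.2.2.2] at this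
      dsimp only at this
      rw [e1] at this
      exact this.symm
  · have e1 : v.2 - 1 + 1 = v.2 := by ring
    rcases sq_inr (v.1, v.2 - 1) with h' | h'
    · have := Q2_edge (h (Sum.inr (v.1, v.2 - 1)) (Or.inr (by rw [h'.2.1]; simp)))
      rw [h'.2.2.2.1, h'.2.2.2.2] at this
      dsimp only at this
      rw [e1] at this
      exact this.symm
    · have := Q2_edge (h (Sum.inr (v.1, v.2 - 1)) (Or.inl (by rw [h'.1]; simp)))
      rw [h'.2.2.2.1, h'.2.2.2.2] at this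
      dsimp only at this
      rwa [e1] at this

theorem iff_range {P : ℤ → Prop} {a b : ℤ} (h : ∀ x, a ≤ x → x < b → (P x ↔ P (x + 1))) {x x' : ℤ}
    (hx : a ≤ x) (hx' : x' ≤ b) (hxx : x ≤ x') : P x ↔ P x' := by
  induction x', hxx using Int.leInduction with
  | base => exact Iff.rfl
  | succ n hn ih => exact (ih (by omega)).trans (h n (by omega) (by omega))

/-- The sites of a rectangle of squares of `D`. -/
theorem Q2_rect {u : Pt → ℤ} {a : ℤ} {x0 x1 y1 : ℤ}
    (h : ∀ v : Pt, x0 ≤ v.1 → v.1 ≤ x1 → 0 ≤ v.2 → v.2 < y1 → ∀ f, (hdv f = v ∨ tlv f = v) →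
      ((u (ls f) = a + 1 ∧ u (rs f) = a) ∨ u (ls f) = u (rs f)))
    {z z' : Pt} (hz : x0 ≤ z.1 ∧ z.1 ≤ x1 + 1 ∧ 0 ≤ z.2 ∧ z.2 ≤ y1)
    (hz' : x0 ≤ z'.1 ∧ z'.1 ≤ x1 + 1 ∧ 0 ≤ z'.2 ∧ z'.2 ≤ y1) (hx : x0 ≤ x1) (hy : 0 < y1) :
    Q2 u a z ↔ Q2 u a z' := by
  -- rows
  have row : ∀ y, 0 ≤ y → y ≤ y1 → ∀ x, x0 ≤ x → x < x1 + 1 → (Q2 u a (x, y) ↔ Q2 u a (x + 1, y)) := by
    intro y h1 h2 x h3 h4
    rcases lt_or_eq_of_le h2 with h5 | h5
    · exact (Q2_sq (h (x, y) h3 (by dsimp only; omega) h1 h5)).2.2.2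
    · subst h5
      have h6 := (Q2_sq (h (x, y - 1) h3 (by dsimp only; omega) (by dsimp only; omega)
        (by dsimp only; omega))).2.1
      dsimp only at h6
      rwa [sub_add_cancel] at h6
  have col : ∀ x, x0 ≤ x → x ≤ x1 + 1 → ∀ y, 0 ≤ y → y < y1 → (Q2 u a (x, y) ↔ Q2 u a (x, y + 1)) := by
    intro x h1 h2 y h3 h4
    rcases lt_or_eq_of_le h2 with h5 | h5
    · exact (Q2_sq (h (x, y) h1 (by dsimp only; omega) h3 h4)).2.2.1
    · subst h5
      have h6 := (Q2_sq (h (x1, y) (by dsimp only; omega) (by dsimp only; omega) h3 h4)).1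
      exact h6
  have rows : ∀ y, 0 ≤ y → y ≤ y1 → ∀ x x', x0 ≤ x → x ≤ x1 + 1 → x0 ≤ x' → x' ≤ x1 + 1 →
      (Q2 u a (x, y) ↔ Q2 u a (x', y)) := by
    intro y h1 h2 x x' h3 h4 h5 h6
    rcases le_total x x' with h7 | h7
    · exact iff_range (P := fun x => Q2 u a (x, y)) (row y h1 h2) h3 h6 h7
    · exact (iff_range (P := fun x => Q2 u a (x, y)) (row y h1 h2) h5 h4 h7).symm
  have cols : ∀ x, x0 ≤ x → x ≤ x1 + 1 → ∀ y y', 0 ≤ y → y ≤ y1 → 0 ≤ y' → y' ≤ y1 →
      (Q2 u a (x, y) ↔ Q2 u a (x, y')) := by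
    intro x h1 h2 y y' h3 h4 h5 h6
    rcases le_total y y' with h7 | h7
    · exact iff_range (P := fun y => Q2 u a (x, y)) (col x h1 h2) h3 h6 h7
    · exact (iff_range (P := fun y => Q2 u a (x, y)) (col x h1 h2) h5 h4 h7).symm
  obtain ⟨x, y⟩ := z
  obtain ⟨x', y'⟩ := z'
  exact (rows y hz.2.2.1 hz.2.2.2 x x' hz.1 hz.2.1 hz'.1 hz'.2.1).trans
    (cols x' hz'.1 hz'.2.1 y y' hz.2.2.1 hz.2.2.2 hz'.2.2.1 hz'.2.2.2)

/-- The values along the strand. -/
theorem strand_vals {D : Set Pt} {ω : Cfg} {e : Ed} {n : ℕ} (hn : 1 ≤ n)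
    (h1 : ∀ i < n, hdv (pth ω e i) ∈ D) {u : Pt → ℤ}
    (hu : ∀ i ≤ n, (hdv (pth ω e i) ∈ D ∨ tlv (pth ω e i) ∈ D) →
      u (ls (pth ω e i)) = u (rs (pth ω e i)) + 1) :
    ∀ i ≤ n, u (ls (pth ω e i)) = u (rs e) + 1 ∧ u (rs (pth ω e i)) = u (rs e) := by
  intro i
  induction i with
  | zero =>
    intro _
    exact ⟨hu 0 (by omega) (Or.inl (h1 0 hn)), rfl⟩
  | succ i ih =>
    intro hi
    obtain ⟨a1, a2⟩ := ih (by omega)
    have a3 := hu (i + 1) hi (Or.inr (by rw [tlv_pth]; exact h1 i (by omega)))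
    rw [pth_succ] at a3 ⊢
    rcases step_cases ω (pth ω e i) with ⟨-, h5, -⟩ | ⟨-, h5, -⟩
    · rw [h5] at a3 ⊢; omega
    · rw [h5] at a3 ⊢; omega

open Classical in
/-- **The signed number of crossings of a vertical segment is at most one.** -/
theorem col_le {D : Finset Pt} (hD : Ex (D : Set Pt)) {u0 w0 y0 : ℤ} (hfl : H318.Flat D u0 w0 y0)
    {e0 : Ed} (h0 : tlv e0 ∉ D) {ξ : Cfg} {k : ℕ} (hk : 1 ≤ k) (hky : (k : ℤ) ≤ y0) {x : ℤ}
    (hx1 : u0 - w0 + 1 ≤ x) (hx2 : x ≤ u0 + w0) :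
    |∑ y ∈ Finset.range k, if ∃ i < H318.ex D e0 ξ, pth ξ e0 i = Sum.inl (x - 1, (y : ℤ)) then
      sg (Sum.inl (x - 1, (y : ℤ))) else 0| ≤
      if ∃ y : ℕ, y < k ∧ ∃ i < H318.ex D e0 ξ, pth ξ e0 i = Sum.inl (x - 1, (y : ℤ)) then 1 else 0 := by
  set n := H318.ex D e0 ξ with hn
  have hin : ∀ y : ℕ, y < k → ((x - 1, (y : ℤ)) : Pt) ∈ D ∧ ((x, (y : ℤ)) : Pt) ∈ D := by
    intro y hy
    exact ⟨hfl.mem _ ⟨by dsimp only; omega, by dsimp only; omega, by dsimp only; omega,
        by dsimp only; omega⟩, hfl.mem _ ⟨by dsimp only; omega, by dsimp only; omega,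
        by dsimp only; omega, by dsimp only; omega⟩⟩
  have hex := ex_spec (ξ := ξ) h0
  rw [← hn] at hex
  -- the edge of the exit is not one of these
  have hlt : ∀ y : ℕ, y < k → ∀ i ≤ n, pth ξ e0 i = Sum.inl (x - 1, (y : ℤ)) → i < n := by
    intro y hy i hi h1
    rcases lt_or_eq_of_le hi with h2 | h2
    · exact h2
    · exfalso
      apply hex
      rw [← h2, h1]
      have h3 := hin y hy
      rcases sq_inl (x - 1, (y : ℤ)) with h' | h' <;> rw [h'.1]
      · exact h3.1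
      · simpa using h3.2
  split_ifs with hv
  · obtain ⟨y1, hy1, i1, hi1, he1⟩ := hv
    have hn1 : 1 ≤ n := by omega
    obtain ⟨u, hu⟩ := strand_pot hD (ω := ξ) (e := e0) (n := n) h0 hex
    have hvals := strand_vals hn1 (fun i hi => lt_ex hi) (u := u) (fun i hi hi' => by
      rw [hu _ hi', if_pos ⟨i, hi, rfl⟩])
    set a := u (rs e0) with ha
    -- the sum
    have hsum : (∑ y ∈ Finset.range k, if ∃ i < n, pth ξ e0 i = Sum.inl (x - 1, (y : ℤ)) then
        sg (Sum.inl (x - 1, (y : ℤ))) else 0) = u (x, (k : ℤ)) - u (x, 0) := by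
      have h1 : ∀ y ∈ Finset.range k, (if ∃ i < n, pth ξ e0 i = Sum.inl (x - 1, (y : ℤ)) then
          sg (Sum.inl (x - 1, (y : ℤ))) else 0) = u (x, ((y + 1 : ℕ) : ℤ)) - u (x, (y : ℤ)) := by
        intro y hy
        have hiff : (∃ i < n, pth ξ e0 i = Sum.inl (x - 1, (y : ℤ))) ↔
            ∃ i ≤ n, pth ξ e0 i = Sum.inl (x - 1, (y : ℤ)) :=
          ⟨fun ⟨i, hi, h⟩ => ⟨i, hi.le, h⟩,
            fun ⟨i, hi, h⟩ => ⟨i, hlt y (Finset.mem_range.1 hy) i hi h, h⟩⟩
        simp only [hiff]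
        have h2 := hin y (Finset.mem_range.1 hy)
        have h3 := hu (Sum.inl (x - 1, (y : ℤ))) (by
          rcases sq_inl (x - 1, (y : ℤ)) with h' | h' <;> rw [h'.1, h'.2.1]
          · exact Or.inl h2.1
          · exact Or.inr h2.1)
        rcases sq_inl (x - 1, (y : ℤ)) with h' | h'
        · rw [h'.2.2.2.1, h'.2.2.2.2] at h3
          rw [h'.2.2.1]
          simp only [sub_add_cancel] at h3
          rw [h3]
          push_cast
          split_ifs <;> ring
        · rw [h'.2.2.2.1, h'.2.2.2.2] at h3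
          rw [h'.2.2.1]
          simp only [sub_add_cancel] at h3
          push_cast
          rw [h3]
          split_ifs <;> ring
      rw [Finset.sum_congr rfl h1, Finset.sum_range_sub (fun y : ℕ => u (x, (y : ℤ)))]
      simp
    rw [hsum]
    -- two values
    have hQ : ∀ v : Pt, u0 - w0 ≤ v.1 → v.1 ≤ u0 + w0 → 0 ≤ v.2 → v.2 < y0 →
        ∀ f, (hdv f = v ∨ tlv f = v) →
        ((u (ls f) = a + 1 ∧ u (rs f) = a) ∨ u (ls f) = u (rs f)) := by
      intro v g1 g2 g3 g4 f hf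
      have hvD : v ∈ (D : Set Pt) := hfl.mem v ⟨g1, g2, g3, g4⟩
      have h3 := hu f (by rcases hf with hf | hf <;> rw [hf]; exacts [Or.inl hvD, Or.inr hvD])
      by_cases hA : ∃ i ≤ n, pth ξ e0 i = f
      · left
        obtain ⟨i, hi, rfl⟩ := hA
        exact hvals i hi
      · right
        rw [h3, if_neg hA, add_zero]
    have hone : Q2 u a (x, (y1 : ℤ)) := by
      have h4 := hvals i1 hi1.le
      rw [he1] at h4
      rcases sq_inl (x - 1, (y1 : ℤ)) with h' | h'
      · rw [h'.2.2.2.1, h'.2.2.2.2] at h4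
        simp only [sub_add_cancel] at h4
        exact Or.inr h4.1
      · rw [h'.2.2.2.1, h'.2.2.2.2] at h4
        simp only [sub_add_cancel] at h4
        exact Or.inl h4.2
    have hall : ∀ y : ℤ, 0 ≤ y → y ≤ k → Q2 u a (x, y) := by
      intro y g1 g2
      refine (Q2_rect hQ (z := (x, (y1 : ℤ))) (z' := (x, y)) ?_ ?_ (by omega) (by omega)).1 hone
      · exact ⟨by dsimp only; omega, by dsimp only; omega, by dsimp only; omega,
          by dsimp only; omega⟩
      · exact ⟨by dsimp only; omega, by dsimp only; omega, g1, by dsimp only; omega⟩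
    have q1 := hall k (by omega) le_rfl
    have q2 := hall 0 le_rfl (by omega)
    unfold Q2 at q1 q2
    rw [abs_le]
    omega
  · rw [Finset.sum_eq_zero, abs_zero]
    intro y hy
    rw [if_neg]
    rintro ⟨i, hi, h1⟩
    exact hv ⟨y, Finset.mem_range.1 hy, i, hi, h1⟩

/-! ### The bound of the observable by the number of visited blocks -/

/-- The blocks. -/
noncomputable def Bl (u w : ℤ) (k : ℕ) : Finset ℤ :=
  (Finset.Icc (u - w + 150 * k - 1) (u + w - 150 * k)).image (fun x => x / (k : ℤ))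

theorem ediv_bd {x k : ℤ} (hk : 1 ≤ k) : k * (x / k) ≤ x ∧ x ≤ k * (x / k) + (k - 1) := by
  have h1 := Int.mul_ediv_add_emod x k
  have h2 := Int.emod_nonneg x (show k ≠ 0 by omega)
  have h3 := Int.emod_lt_of_pos x (show 0 < k by omega)
  omega

theorem mem_Bl {u w : ℤ} {k : ℕ} (hk : 1 ≤ k) {j : ℤ} (h : j ∈ Bl u w k) :
    u - w + 149 * k ≤ k * j ∧ k * j ≤ u + w - 150 * k := by
  unfold Bl at h
  obtain ⟨x, hx, rfl⟩ := Finset.mem_image.1 h
  rw [Finset.mem_Icc] at hx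
  have := ediv_bd (x := x) (k := k) (by omega)
  omega

theorem Bl_of {u w : ℤ} {k : ℕ} {x : ℤ} (h1 : u - w + 150 * k - 1 ≤ x) (h2 : x ≤ u + w - 150 * k) :
    x / (k : ℤ) ∈ Bl u w k :=
  Finset.mem_image.2 ⟨x, Finset.mem_Icc.2 ⟨h1, h2⟩, rfl⟩

open Classical in
theorem wt_inl {ψ : ℤ → ℝ} {k : ℕ} {x : ℤ} {y : ℕ} (hy : y < k) :
    H318.wt ψ k (Sum.inl (x - 1, (y : ℤ))) = ψ x * (sg (Sum.inl (x - 1, (y : ℤ))) : ℝ) := by
  have h : (0 : ℤ) ≤ y ∧ (y : ℤ) < k := by omega
  simp only [H318.wt, h, and_self, if_true, sub_add_cancel]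

open Classical in
theorem J_eq {D : Finset Pt} {e0 : Ed} (h0 : tlv e0 ∉ D) (ξ : Cfg) {k : ℕ} {ψ : ℤ → ℝ}
    (X : Finset ℤ) (hX : ∀ x, ψ x ≠ 0 → x ∈ X) :
    H318.J D e0 ψ k ξ = ∑ x ∈ X, ψ x * ((∑ y ∈ Finset.range k,
      if ∃ i < H318.ex D e0 ξ, pth ξ e0 i = Sum.inl (x - 1, (y : ℤ)) then
        sg (Sum.inl (x - 1, (y : ℤ))) else 0 : ℤ) : ℝ) := by
  set n := H318.ex D e0 ξ with hn
  set P : Finset Ed := (Finset.range n).image (pth ξ e0) with hP
  have hmemP : ∀ f, f ∈ P ↔ ∃ i < n, pth ξ e0 i = f := by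
    intro f
    simp only [hP, Finset.mem_image, Finset.mem_range]
  set g : ℤ × ℕ → Ed := fun p => Sum.inl (p.1 - 1, (p.2 : ℤ)) with hg
  have hginj : Function.Injective g := by
    rintro ⟨a, b⟩ ⟨c, d⟩ h
    simp only [hg, Sum.inl.injEq, Prod.mk.injEq] at h
    rw [Prod.mk.injEq]
    omega
  set G : Finset Ed := (X ×ˢ Finset.range k).image g with hG
  have h1 : H318.J D e0 ψ k ξ = ∑ f ∈ P, H318.wt ψ k f := by
    rw [hP, Finset.sum_image]
    · rfl
    · intro i hi j hj hij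
      have hi' := Finset.mem_range.1 (Finset.mem_coe.1 hi)
      have hj' := Finset.mem_range.1 (Finset.mem_coe.1 hj)
      by_contra hne
      rcases lt_or_gt_of_ne hne with h | h
      · exact pth_inj (D := (D : Set Pt)) h0 (n := n) (fun i hi => lt_ex hi) hj'.le h hij
      · exact pth_inj (D := (D : Set Pt)) h0 (n := n) (fun i hi => lt_ex hi) hi'.le h hij.symm
  have h2 : ∑ f ∈ P, H318.wt ψ k f = ∑ f ∈ P.filter (· ∈ G), H318.wt ψ k f := by
    rw [Finset.sum_filter]
    refine Finset.sum_congr rfl fun f _ => ?_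
    split_ifs with h
    · rfl
    · rcases f with v | v
      · by_contra hne
        apply h
        simp only [H318.wt] at hne
        by_cases hv : 0 ≤ v.2 ∧ v.2 < k
        · rw [if_pos hv] at hne
          have hψ : ψ (v.1 + 1) ≠ 0 := fun h' => hne (by rw [h', zero_mul])
          refine Finset.mem_image.2 ⟨(v.1 + 1, v.2.toNat), ?_, ?_⟩
          · rw [Finset.mem_product, Finset.mem_range]
            exact ⟨hX _ hψ, by omega⟩
          · simp only [hg, add_sub_cancel_right]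
            congr 1
            rw [Prod.ext_iff]
            exact ⟨rfl, by dsimp only; omega⟩
        · rw [if_neg hv] at hne
          exact absurd rfl hne
      · rfl
  have h3 : P.filter (· ∈ G) = G.filter (· ∈ P) := by
    ext f
    simp only [Finset.mem_filter]
    tauto
  rw [h1, h2, h3, Finset.sum_filter, hG, Finset.sum_image (fun a _ b _ h => hginj h),
    Finset.sum_product]
  refine Finset.sum_congr rfl fun x _ => ?_
  push_cast
  rw [Finset.mul_sum]
  refine Finset.sum_congr rfl fun y hy => ?_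
  have h4 := hmemP (g (x, y))
  have h5 := wt_inl (ψ := ψ) (x := x) (Finset.mem_range.1 hy)
  by_cases h6 : ∃ i < n, pth ξ e0 i = Sum.inl (x - 1, (y : ℤ))
  · rw [if_pos (h4.2 h6), if_pos h6]
    exact h5
  · rw [if_neg (fun h => h6 (h4.1 h)), if_neg h6]
    simp

open Classical in
theorem J_le {D : Finset Pt} (hD : Ex (D : Set Pt)) {u0 w0 y0 : ℤ} (hfl : H318.Flat D u0 w0 y0)
    {e0 : Ed} (h0 : tlv e0 ∉ D) (ξ : Cfg) {k : ℕ} (hk : 1 ≤ k) (hky : 150 * (k : ℤ) ≤ y0)
    {ψ : ℤ → ℝ} (hψ : ∀ x, |ψ x| ≤ 1)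
    (hs : ∀ x, ψ x ≠ 0 → u0 - w0 + 150 * k ≤ x ∧ x ≤ u0 + w0 - 150 * k) :
    |H318.J D e0 ψ k ξ| ≤ 2 * k *
      (((Bl u0 w0 k).filter fun j => Vis (D : Set Pt) (k * j, 0) (k - 1) ξ e0).card : ℝ) := by
  set X : Finset ℤ := Finset.Icc (u0 - w0 + 150 * k) (u0 + w0 - 150 * k) with hX
  set n := H318.ex D e0 ξ with hn
  set T : ℤ → Prop := fun x => ∃ y : ℕ, y < k ∧ ∃ i < n, pth ξ e0 i = Sum.inl (x - 1, (y : ℤ))
    with hT
  set N := ((Bl u0 w0 k).filter fun j => Vis (D : Set Pt) (k * j, 0) (k - 1) ξ e0) with hN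
  have h1 : |H318.J D e0 ψ k ξ| ≤ ((X.filter T).card : ℝ) := by
    rw [J_eq h0 ξ X (fun x hx => Finset.mem_Icc.2 (hs x hx))]
    refine (Finset.abs_sum_le_sum_abs _ _).trans ?_
    rw [Finset.natCast_card_filter]
    refine Finset.sum_le_sum fun x hx => ?_
    rw [Finset.mem_Icc] at hx
    have h2 := col_le hD hfl h0 (ξ := ξ) hk (by omega) (x := x) (by omega) (by omega)
    rw [abs_mul]
    have h3 : |((∑ y ∈ Finset.range k, if ∃ i < n, pth ξ e0 i = Sum.inl (x - 1, (y : ℤ)) then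
        sg (Sum.inl (x - 1, (y : ℤ))) else 0 : ℤ) : ℝ)| ≤ if T x then 1 else 0 := by
      rw [← Int.cast_abs]
      have h4 := Int.cast_le (R := ℝ).2 h2
      refine h4.trans (le_of_eq ?_)
      push_cast
      rfl
    calc |ψ x| * _ ≤ 1 * _ := mul_le_mul_of_nonneg_right (hψ x) (abs_nonneg _)
      _ ≤ _ := by rw [one_mul]; exact h3
  -- the columns of the visited blocks
  have cover : ∀ x ∈ X.filter T, (x - 1) / (k : ℤ) ∈ N ∨ x / (k : ℤ) ∈ N := by
    intro x hx
    rw [Finset.mem_filter, Finset.mem_Icc] at hx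
    obtain ⟨⟨hx1, hx2⟩, y, hy, i, hi, hxi⟩ := hx
    have key : ∀ x' : ℤ, u0 - w0 + 150 * k - 1 ≤ x' → x' ≤ u0 + w0 - 150 * k →
        hdv (pth ξ e0 i) = (x', (y : ℤ)) → x' / (k : ℤ) ∈ N := by
      intro x' g1 g2 g3
      rw [hN, Finset.mem_filter]
      refine ⟨Bl_of g1 g2, i, fun l hl => lt_ex (by omega), ?_⟩
      rw [g3, mem_hq]
      have := ediv_bd (x := x') (k := k) (by omega)
      dsimp only
      omega
    rcases sq_inl (x - 1, (y : ℤ)) with h' | h'
    · exact Or.inl (key (x - 1) (by omega) (by omega) (by rw [hxi, h'.1]))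
    · exact Or.inr (key x (by omega) (by omega) (by rw [hxi, h'.1]; simp))
  have cnt : ∀ (c : ℤ) (T' : Finset ℤ), (∀ x ∈ T', (x - c) / (k : ℤ) ∈ N) → T'.card ≤ k * N.card := by
    intro c T' hT'
    refine (Finset.card_le_mul_card_image (f := fun x => (x - c) / (k : ℤ)) T' k ?_).trans ?_
    · intro j _
      refine (Finset.card_le_card (t := Finset.Icc (k * j + c) (k * j + c + (k - 1))) ?_).trans ?_
      · intro x hx
        rw [Finset.mem_filter] at hx
        rw [Finset.mem_Icc]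
        have := ediv_bd (x := x - c) (k := k) (by omega)
        rw [hx.2] at this
        omega
      · rw [Int.card_Icc]
        omega
    · refine Nat.mul_le_mul_left _ (Finset.card_le_card ?_)
      intro j hj
      obtain ⟨x, hx, rfl⟩ := Finset.mem_image.1 hj
      exact hT' x hx
  have h2 : (X.filter T).card ≤ 2 * (k * N.card) := by
    have e1 : X.filter T ⊆ ((X.filter T).filter fun x => (x - 1) / (k : ℤ) ∈ N) ∪
        ((X.filter T).filter fun x => (x - 0) / (k : ℤ) ∈ N) := by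
      intro x hx
      rw [Finset.mem_union]
      rcases cover x hx with h | h
      · exact Or.inl (Finset.mem_filter.2 ⟨hx, h⟩)
      · exact Or.inr (Finset.mem_filter.2 ⟨hx, by rwa [sub_zero]⟩)
    refine (Finset.card_le_card e1).trans ((Finset.card_union_le _ _).trans ?_)
    have e2 := cnt 1 ((X.filter T).filter fun x => (x - 1) / (k : ℤ) ∈ N)
      (fun x hx => (Finset.mem_filter.1 hx).2)
    have e3 := cnt 0 ((X.filter T).filter fun x => (x - 0) / (k : ℤ) ∈ N)
      (fun x hx => (Finset.mem_filter.1 hx).2)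
    omega
  refine h1.trans ?_
  have h3 : ((X.filter T).card : ℝ) ≤ ((2 * (k * N.card) : ℕ) : ℝ) := by exact_mod_cast h2
  refine h3.trans (le_of_eq ?_)
  push_cast
  ring

/-! ### The second moment -/

/-- **SM** of `H318.Defs`. -/
theorem sm : H318.SM := by
  classical
  obtain ⟨C, hC, h⟩ := vis2
  have hprob := fair_mu.prob
  refine ⟨32 + 8 * (C * 165 ^ 2), by positivity, ?_⟩
  intro S u w y k ψ hk hky hTA hψ hs
  have hEx : Ex (S.D : Set Pt) := ex_of_co hTA.co
  have hk' : (1 : ℤ) ≤ k := by exact_mod_cast hk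
  set J := Bl u w k with hJ
  set PVj : ℤ → Set Cfg := fun j => PV S.F S.z (S.D : Set Pt) (k * j, 0) (k - 1) S.e0 with hPV
  -- the second moment of the number of the visited blocks
  have h2 : ∑ i ∈ J, ∑ j ∈ J, μ.real (PVj i ∩ PVj j) ≤ C * (165 : ℝ) ^ 2 := by
    have h3 := h S.F S.z (S.D : Set Pt) S.e0 J (fun j => ((k * j, 0) : Pt)) (fun _ => (k : ℤ) - 1)
      165 hEx S.D.finite_toSet ?_ ?_
    · simpa using h3
    · intro j hj
      have hj' := mem_Bl hk hj
      refine ⟨by omega, ⟨?_, ?_⟩, ?_⟩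
      · intro v hv
        rw [mem_hq] at hv
        dsimp only at hv
        exact hTA.flat.mem v ⟨by omega, by omega, by omega, by omega⟩
      · intro x g1 g2
        dsimp only at g1 g2
        have := hTA.flat.not x (by omega) (by omega)
        simpa using this
      · intro v hv
        rw [mem_hq] at hv
        dsimp only at hv
        exact hTA.fresh v ⟨by omega, by omega, by omega, by omega⟩
    · intro v T _ hT
      have h4 : T ⊆ Finset.Icc (v.1 / (k : ℤ) - 82) (v.1 / (k : ℤ) + 82) := by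
        intro j hj
        have h5 := hT j hj
        rw [mem_bl] at h5
        dsimp only at h5
        have h6 := ediv_bd (x := v.1) (k := k) hk'
        rw [Finset.mem_Icc]
        constructor
        · by_contra hcon
          push Not at hcon
          have : (k : ℤ) * (j + 83) ≤ k * (v.1 / (k : ℤ)) := by
            refine mul_le_mul_of_nonneg_left (by omega) (by omega)
          have e1 : (k : ℤ) * (j + 83) = k * j + 83 * k := by ring
          omega
        · by_contra hcon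
          push Not at hcon
          have : (k : ℤ) * (v.1 / (k : ℤ) + 83) ≤ k * j := by
            refine mul_le_mul_of_nonneg_left (by omega) (by omega)
          have e1 : (k : ℤ) * (v.1 / (k : ℤ) + 83) = k * (v.1 / (k : ℤ)) + 83 * k := by ring
          omega
      refine (Finset.card_le_card h4).trans ?_
      rw [Int.card_Icc]
      omega
  -- the number of visited blocks
  set P : Cfg → ℕ := fun ω => (J.filter fun j => ω ∈ PVj j).card with hP
  have h3 : ∀ ω, ((J.filter fun j => Vis (S.D : Set Pt) (k * j, 0) (k - 1)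
      (H192.ov S.F S.z ω) S.e0).card) ≤ 2 + P ω := by
    intro ω
    have e1 : (J.filter fun j => Vis (S.D : Set Pt) (k * j, 0) (k - 1) (H192.ov S.F S.z ω) S.e0) ⊆
        Finset.Icc ((hdv S.e0).1 / (k : ℤ)) ((hdv S.e0).1 / (k : ℤ) + 1) ∪
          (J.filter fun j => ω ∈ PVj j) := by
      intro j hj
      rw [Finset.mem_filter] at hj
      rw [Finset.mem_union, Finset.mem_filter]
      by_cases h4 : hdv S.e0 ∈ hq ((k * j, 0) : Pt) (k - 1)
      · left
        rw [mem_hq] at h4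
        dsimp only at h4
        have h6 := ediv_bd (x := (hdv S.e0).1) (k := k) hk'
        rw [Finset.mem_Icc]
        constructor
        · by_contra hcon
          push Not at hcon
          have : (k : ℤ) * (j + 1) ≤ k * ((hdv S.e0).1 / (k : ℤ)) := by
            refine mul_le_mul_of_nonneg_left (by omega) (by omega)
          have e1 : (k : ℤ) * (j + 1) = k * j + k := by ring
          omega
        · by_contra hcon
          push Not at hcon
          have : (k : ℤ) * ((hdv S.e0).1 / (k : ℤ) + 2) ≤ k * j := by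
            refine mul_le_mul_of_nonneg_left (by omega) (by omega)
          have e1 : (k : ℤ) * ((hdv S.e0).1 / (k : ℤ) + 2) =
            k * ((hdv S.e0).1 / (k : ℤ)) + 2 * k := by ring
          omega
      · right
        exact ⟨hj.1, vis_past (show tlv S.e0 ∉ (S.D : Set Pt) from hTA.st) h4 hj.2⟩
    refine (Finset.card_le_card e1).trans ((Finset.card_union_le _ _).trans ?_)
    rw [Int.card_Icc]
    simp only [hP]
    omega
  have h4 : ∀ ω, H318.J S.D S.e0 ψ k (H192.ov S.F S.z ω) ^ 2 ≤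
      32 * (k : ℝ) ^ 2 + 8 * (k : ℝ) ^ 2 * (P ω : ℝ) ^ 2 := by
    intro ω
    have h5 := J_le hEx hTA.flat hTA.st (H192.ov S.F S.z ω) hk hky hψ hs
    have h6 : ((((Bl u w k).filter fun j => Vis (S.D : Set Pt) (k * j, 0) (k - 1)
        (H192.ov S.F S.z ω) S.e0).card : ℕ) : ℝ) ≤ 2 + (P ω : ℝ) := by exact_mod_cast h3 ω
    have h7 : |H318.J S.D S.e0 ψ k (H192.ov S.F S.z ω)| ≤ 2 * k * (2 + (P ω : ℝ)) :=
      h5.trans (mul_le_mul_of_nonneg_left h6 (by positivity))
    have h8 : H318.J S.D S.e0 ψ k (H192.ov S.F S.z ω) ^ 2 ≤ (2 * k * (2 + (P ω : ℝ))) ^ 2 := by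
      rw [← sq_abs]
      exact pow_le_pow_left₀ (abs_nonneg _) h7 2
    have h9 : (0 : ℝ) ≤ (k : ℝ) ^ 2 := by positivity
    nlinarith [sq_nonneg ((P ω : ℝ) - 2), mul_nonneg h9 (sq_nonneg ((P ω : ℝ) - 2))]
  -- the square of the number
  have h5 : ∀ ω, (P ω : ℝ) ^ 2 = ∑ i ∈ J, ∑ j ∈ J, (PVj i ∩ PVj j).indicator (fun _ => (1 : ℝ)) ω := by
    intro ω
    have e1 : (P ω : ℝ) = ∑ j ∈ J, if ω ∈ PVj j then (1 : ℝ) else 0 := by
      simp only [hP]
      rw [Finset.natCast_card_filter]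
    rw [sq, e1, Finset.sum_mul_sum]
    refine Finset.sum_congr rfl fun i _ => Finset.sum_congr rfl fun j _ => ?_
    by_cases h6 : ω ∈ PVj i <;> by_cases h7 : ω ∈ PVj j <;> simp [h6, h7]
  have hmeas : ∀ i j, MeasurableSet (PVj i ∩ PVj j) := fun i j => meas_PV.inter meas_PV
  have hint : ∀ i j, Integrable ((PVj i ∩ PVj j).indicator (fun _ => (1 : ℝ))) μ := fun i j =>
    (integrable_const (1 : ℝ)).indicator (hmeas i j)
  have h6 : Integrable (fun ω => 32 * (k : ℝ) ^ 2 + 8 * (k : ℝ) ^ 2 *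
      ∑ i ∈ J, ∑ j ∈ J, (PVj i ∩ PVj j).indicator (fun _ => (1 : ℝ)) ω) μ := by
    refine (integrable_const _).add (Integrable.const_mul ?_ _)
    exact integrable_finsetSum _ fun i _ => integrable_finsetSum _ fun j _ => hint i j
  calc S.E (fun ξ => H318.J S.D S.e0 ψ k ξ ^ 2)
      = ∫ ω, H318.J S.D S.e0 ψ k (H192.ov S.F S.z ω) ^ 2 ∂μ := rfl
    _ ≤ ∫ ω, (32 * (k : ℝ) ^ 2 + 8 * (k : ℝ) ^ 2 *
        ∑ i ∈ J, ∑ j ∈ J, (PVj i ∩ PVj j).indicator (fun _ => (1 : ℝ)) ω) ∂μ := by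
        refine integral_mono_of_nonneg (Filter.Eventually.of_forall fun ω => sq_nonneg _) h6
          (Filter.Eventually.of_forall fun ω => ?_)
        have := h4 ω
        rw [h5 ω] at this
        exact this
    _ = 32 * (k : ℝ) ^ 2 + 8 * (k : ℝ) ^ 2 * ∑ i ∈ J, ∑ j ∈ J, μ.real (PVj i ∩ PVj j) := by
        rw [integral_add (integrable_const _) (Integrable.const_mul (integrable_finsetSum _
          fun i _ => integrable_finsetSum _ fun j _ => hint i j) _), integral_const,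
          integral_const_mul, integral_finsetSum _ (fun i _ => integrable_finsetSum _
          fun j _ => hint i j)]
        simp only [probReal_univ, smul_eq_mul, one_mul]
        congr 2
        refine Finset.sum_congr rfl fun i _ => ?_
        rw [integral_finsetSum _ (fun j _ => hint i j)]
        refine Finset.sum_congr rfl fun j _ => ?_
        rw [integral_indicator (hmeas i j)]
        simp
    _ ≤ 32 * (k : ℝ) ^ 2 + 8 * (k : ℝ) ^ 2 * (C * (165 : ℝ) ^ 2) := by gcongr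
    _ = _ := by ring

end Vale.Agent.P167.H632
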