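import Vale.Agent.P167.H632.Prob
import Vale.Agent.P167.H192.Dict2
import Vale.Agent.P167.H166.Pot

/-!
# P167, arm toolkit: the escape lemma (deterministic part)

A strand which has reached a box at a flat side for the first time and which later leaves a larger
box: the squares which it had not explored contain a crossing of the half annulus, by one of the two
colours.
-/

namespace Vale.Agent.P167.H632

open MeasureTheory Vale.Agent.P145.FB Vale.Agent.P153 Vale.Agent.P153.Topo Vale.Agent.P167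
  Vale.Agent.P167.H871
open Relation

/-! ### Potentials -/

/-- Closed forms on `D` have potentials (`D` is simply connected). -/
def Ex (D : Set Pt) : Prop := ∀ g : Ed → ℤ,
  (∀ v ∈ D, g (Sum.inl v) + g (Sum.inr v) =
    g (Sum.inl (v.1 - 1, v.2)) + g (Sum.inr (v.1, v.2 - 1))) →
  ∃ u : Pt → ℤ, ∀ e, (hdv e ∈ D ∨ tlv e ∈ D) → u (ls e) = u (rs e) + sg e * g e

theorem sq_inl (v : Pt) : (hdv (Sum.inl v) = v ∧ tlv (Sum.inl v) = (v.1 + 1, v.2) ∧
      sg (Sum.inl v) = -1 ∧ ls (Sum.inl v) = (v.1 + 1, v.2) ∧ rs (Sum.inl v) = (v.1 + 1, v.2 + 1)) ∨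
    (hdv (Sum.inl v) = (v.1 + 1, v.2) ∧ tlv (Sum.inl v) = v ∧ sg (Sum.inl v) = 1 ∧
      ls (Sum.inl v) = (v.1 + 1, v.2 + 1) ∧ rs (Sum.inl v) = (v.1 + 1, v.2)) := by
  by_cases h : Even (v.1 + v.2) <;> simp [hdv, tlv, sg, ls, rs, h]

theorem sq_inr (v : Pt) : (hdv (Sum.inr v) = v ∧ tlv (Sum.inr v) = (v.1, v.2 + 1) ∧
      sg (Sum.inr v) = -1 ∧ ls (Sum.inr v) = (v.1 + 1, v.2 + 1) ∧ rs (Sum.inr v) = (v.1, v.2 + 1)) ∨
    (hdv (Sum.inr v) = (v.1, v.2 + 1) ∧ tlv (Sum.inr v) = v ∧ sg (Sum.inr v) = 1 ∧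
      ls (Sum.inr v) = (v.1, v.2 + 1) ∧ rs (Sum.inr v) = (v.1 + 1, v.2 + 1)) := by
  by_cases h : Even (v.1 + v.2) <;> simp [hdv, tlv, sg, ls, rs, h]

/-- Rectangles. -/
theorem ex_rect (a b c d : ℤ) : Ex {v | a ≤ v.1 ∧ v.1 < b ∧ c ≤ v.2 ∧ v.2 < d} := by
  intro g hg
  obtain ⟨w, h1, h2⟩ := H166.exists_pot (fun x y => -g (Sum.inr (x, y - 1)))
    (fun x y => g (Sum.inl (x - 1, y))) a c b d (by
      intro x y a1 a2 a3 a4
      have := hg (x, y) ⟨a1, a2, a3, a4⟩
      dsimp only at this ⊢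
      have e1 : x + 1 - 1 = x := by ring
      have e2 : y + 1 - 1 = y := by ring
      rw [e1, e2]
      linarith)
  refine ⟨fun s => w s.1 s.2, ?_⟩
  rintro (⟨x, y⟩ | ⟨x, y⟩) he
  · have hb : a ≤ x + 1 ∧ x + 1 ≤ b ∧ c ≤ y ∧ y < d := by
      rcases sq_inl (x, y) with h | h <;> rw [h.1, h.2.1] at he <;>
        simp only [Set.mem_ofPred_eq] at he <;> omega
    have h3 := h2 (x + 1) y hb.1 hb.2.1 hb.2.2.1 hb.2.2.2
    have e1 : x + 1 - 1 = x := by ring
    rw [e1] at h3
    rcases sq_inl (x, y) with h | h <;> rw [h.2.2.1, h.2.2.2.1, h.2.2.2.2] <;> dsimp only <;>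
      linarith
  · have hb : a ≤ x ∧ x < b ∧ c ≤ y + 1 ∧ y + 1 ≤ d := by
      rcases sq_inr (x, y) with h | h <;> rw [h.1, h.2.1] at he <;>
        simp only [Set.mem_ofPred_eq] at he <;> omega
    have h3 := h1 x (y + 1) hb.1 hb.2.1 hb.2.2.1 hb.2.2.2
    have e1 : y + 1 - 1 = y := by ring
    rw [e1] at h3
    rcases sq_inr (x, y) with h | h <;> rw [h.2.2.1, h.2.2.2.1, h.2.2.2.2] <;> dsimp only <;>
      linarith

/-! ### The past of a strand and its potential -/

/-- The `i`-th edge of the orbit. -/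
def pth (ω : Cfg) (e : Ed) (i : ℕ) : Ed := (nx ω)^[i] e

theorem pth_succ (ω : Cfg) (e : Ed) (i : ℕ) : pth ω e (i + 1) = nx ω (pth ω e i) :=
  Function.iterate_succ_apply' _ _ _

theorem pth_zero (ω : Cfg) (e : Ed) : pth ω e 0 = e := rfl

theorem pth_add (ω : Cfg) (e : Ed) (i j : ℕ) : pth ω (pth ω e i) j = pth ω e (i + j) := by
  rw [pth, pth, pth, ← Function.iterate_add_apply, add_comm]

theorem tlv_pth (ω : Cfg) (e : Ed) (i : ℕ) : tlv (pth ω e (i + 1)) = hdv (pth ω e i) := by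
  rw [pth_succ, tlv_nx]

/-- The squares of the half box. -/
def hq (b : Pt) (r : ℤ) : Set Pt := {v | b.2 ≤ v.2 ∧ v ∈ bl b r}

theorem hq_sub {D : Set Pt} {b : Pt} {r R : ℤ} (hD : Flat D b R) (h : r ≤ R) : hq b r ⊆ D :=
  fun v hv => (hD v (le_trans hv.2 h)).2 hv.1

/-- The past: the orbit enters `D` with `e`, its first `k` squares are in `D` off the half box, the
next one is in the half box. -/
structure Past (D : Set Pt) (b : Pt) (r : ℤ) (ω : Cfg) (e : Ed) (k : ℕ) : Prop where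
  start : tlv e ∉ D
  pos : 1 ≤ k
  mem : ∀ i < k, hdv (pth ω e i) ∈ D
  off : ∀ i < k, hdv (pth ω e i) ∉ hq b r
  tip : hdv (pth ω e k) ∈ hq b r

/-- The half box is in `D`, the row below it is off `D`. -/
structure FlatU (D : Set Pt) (b : Pt) (R : ℤ) : Prop where
  sub : hq b R ⊆ D
  row : ∀ x, b.1 - R ≤ x → x ≤ b.1 + R → ((x, b.2 - 1) : Pt) ∉ D

theorem FlatU.mono {D : Set Pt} {b : Pt} {r R : ℤ} (h : FlatU D b R) (hr : r ≤ R) :
    FlatU D b r where
  sub := fun _ hv => h.sub ⟨hv.1, le_trans hv.2 hr⟩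
  row := fun x h1 h2 => h.row x (by omega) (by omega)

theorem Flat.toU {D : Set Pt} {b : Pt} {r R : ℤ} (h : Flat D b R) (h1 : 1 ≤ R) (hr : r ≤ R) :
    FlatU D b r where
  sub := hq_sub h hr
  row := fun x h2 h3 hmem => by
    have := (h (x, b.2 - 1) (by rw [mem_bl]; dsimp only; omega)).1 hmem
    dsimp only at this
    omega

open Classical in
/-- **The potential of the past.** -/
theorem Past.potU {D : Set Pt} (hD : Ex D) {b : Pt} {r : ℤ} (hf : FlatU D b r) {ω : Cfg}
    {e : Ed} {k : ℕ} (h : Past D b r ω e k) : ∃ u : Pt → ℤ,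
      (∀ i ≤ k, u (ls (pth ω e i)) = u (rs (pth ω e i)) + 1) ∧
      ∀ e', hdv e' ∈ D → tlv e' ∈ D → ¬ (hdv e' ∈ hq b r ∧ tlv e' ∈ hq b r) →
        (∀ i ≤ k, pth ω e i ≠ e') → u (ls e') = u (rs e') := by
  obtain ⟨⟨x0, y0⟩, hv0⟩ : ∃ v, v = hdv (pth ω e k) := ⟨_, rfl⟩
  have htip := h.tip
  rw [← hv0] at htip
  have hsub : hq b r ⊆ D := hf.sub
  have htip1 : b.2 ≤ y0 := htip.1
  have htip2 := mem_bl.1 htip.2
  dsimp only at htip2
  -- tails
  have tail : ∀ j, j ≤ k → tlv (pth ω e j) ∉ hq b r := by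
    intro j hj hmem
    rcases Nat.eq_zero_or_pos j with rfl | hj0
    · exact h.start (hsub hmem)
    · obtain ⟨i, rfl⟩ : ∃ i, j = i + 1 := ⟨j - 1, by omega⟩
      rw [tlv_pth] at hmem
      exact h.off i (by omega) hmem
  have head : ∀ j, j ≤ k → hdv (pth ω e j) ∈ hq b r → j = k := by
    intro j hj hmem
    by_contra hne
    exact h.off j (by omega) hmem
  set A : Set Ed := {e' | ∃ j ≤ k, pth ω e j = e'} with hA
  set Q : Ed → Prop := fun e' => ∃ y, b.2 - 1 ≤ y ∧ y < y0 ∧ e' = Sum.inr (x0, y) with hQ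
  set g : Ed → ℤ := fun e' => (if e' ∈ A then sg e' else 0) + (if Q e' then -1 else 0) with hg
  have Qinl : ∀ v, ¬ Q (Sum.inl v) := by
    rintro v ⟨y, -, -, h3⟩
    exact absurd h3 (by simp)
  have Qinr : ∀ v : Pt, Q (Sum.inr v) ↔ v.1 = x0 ∧ b.2 - 1 ≤ v.2 ∧ v.2 < y0 := by
    intro v
    constructor
    · rintro ⟨y, h1, h2, h3⟩
      have := Sum.inr_injective h3
      subst this
      exact ⟨rfl, h1, h2⟩
    · rintro ⟨h1, h2, h3⟩
      exact ⟨v.2, h2, h3, by rw [← h1]⟩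
  have colD : ((x0, b.2 - 1) : Pt) ∉ D := hf.row x0 (by omega) (by omega)
  have colq : ∀ y, b.2 ≤ y → y ≤ y0 → ((x0, y) : Pt) ∈ hq b r := by
    intro y h1 h2
    exact ⟨h1, by rw [mem_bl]; dsimp only; omega⟩
  obtain ⟨u, hu⟩ := hD g (by
    rintro ⟨x, y⟩ hv
    by_cases hvq : ((x, y) : Pt) ∈ hq b r
    · have hvq1 : b.2 ≤ y := hvq.1
      by_cases hv' : x = x0 ∧ y = y0
      · -- the tip
        obtain ⟨rfl, rfl⟩ := hv'
        have o1 : ∀ e', tlv e' = (x, y) → e' ∉ A := by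
          rintro e' he' ⟨j, hj, rfl⟩
          exact tail j hj (by rw [he']; exact htip)
        have o2 : ∀ e', hdv e' = (x, y) → (e' ∈ A ↔ e' = pth ω e k) := by
          intro e' he'
          constructor
          · rintro ⟨j, hj, rfl⟩
            rw [head j hj (by rw [he']; exact htip)]
          · rintro rfl
            exact ⟨k, le_rfl, rfl⟩
        have q1 : Q (Sum.inr (x, y - 1)) := (Qinr _).2 ⟨rfl, by dsimp only; omega, by dsimp only; omega⟩
        have q2 : ¬ Q (Sum.inr (x, y)) := fun hq => by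
          have := ((Qinr _).1 hq).2.2
          dsimp only at this
          omega
        have hk : hdv (pth ω e k) = (x, y) := hv0.symm
        simp only [hg, Qinl, if_false, q1, q2, if_true, add_zero]
        by_cases hp : Even (x + y)
        · have h3 : ¬ Even (x - 1 + y) := ev3.not.2 (not_not.2 hp)
          have h4 : ¬ Even (x + (y - 1)) := ev4.not.2 (not_not.2 hp)
          have m1 : (Sum.inl (x, y) : Ed) ∉ A := o1 _ (by simp [tlv, hp])
          have m2 : (Sum.inl (x - 1, y) : Ed) ∉ A := o1 _ (by simp [tlv, h3])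
          have m3 := o2 (Sum.inr (x, y)) (by simp [hdv, hp])
          have m4 := o2 (Sum.inr (x, y - 1)) (by simp [hdv, h4])
          rcases hek : pth ω e k with ⟨a, b'⟩ | ⟨a, b'⟩
          · exfalso
            rw [hek] at hk
            by_cases hp' : Even (a + b')
            · simp only [hdv, hp', if_true, Prod.mk.injEq] at hk
              rw [Int.even_iff] at hp hp'; omega
            · simp only [hdv, hp', if_false, Prod.mk.injEq] at hk
              rw [Int.even_iff] at hp hp'; omega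
          · rw [hek] at hk m3 m4
            by_cases hp' : Even (a + b')
            · simp only [hdv, hp', if_true, Prod.mk.injEq] at hk
              obtain ⟨rfl, rfl⟩ := hk
              have m4' : (Sum.inr (a, b' - 1) : Ed) ∉ A := by
                rw [m4]; simp
              have m3' : (Sum.inr (a, b') : Ed) ∈ A := m3.2 rfl
              simp [m1, m2, m3', m4', sg, hp]
            · simp only [hdv, hp', if_false, Prod.mk.injEq] at hk
              obtain ⟨rfl, hk2⟩ := hk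
              have e1 : y - 1 = b' := by omega
              rw [e1] at m4 h4 ⊢
              have m4' : (Sum.inr (a, b') : Ed) ∈ A := m4.2 rfl
              have m3' : (Sum.inr (a, y) : Ed) ∉ A := by
                rw [m3]; simp; omega
              simp [m1, m2, m3', m4', sg, h4]
        · have h3 : Even (x - 1 + y) := ev3.2 hp
          have h4 : Even (x + (y - 1)) := ev4.2 hp
          have m1 : (Sum.inr (x, y) : Ed) ∉ A := o1 _ (by simp [tlv, hp])
          have m2 : (Sum.inr (x, y - 1) : Ed) ∉ A := o1 _ (by simp [tlv, h4])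
          have m3 := o2 (Sum.inl (x, y)) (by simp [hdv, hp])
          have m4 := o2 (Sum.inl (x - 1, y)) (by simp [hdv, h3])
          rcases hek : pth ω e k with ⟨a, b'⟩ | ⟨a, b'⟩
          · rw [hek] at hk m3 m4
            by_cases hp' : Even (a + b')
            · simp only [hdv, hp', if_true, Prod.mk.injEq] at hk
              obtain ⟨hk2, rfl⟩ := hk
              have e1 : x - 1 = a := by omega
              rw [e1] at m4 h3 ⊢
              have m4' : (Sum.inl (a, b') : Ed) ∈ A := m4.2 rfl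
              have m3' : (Sum.inl (x, b') : Ed) ∉ A := by
                rw [m3]; simp; omega
              simp [m1, m2, m3', m4', sg, h3]
            · simp only [hdv, hp', if_false, Prod.mk.injEq] at hk
              obtain ⟨rfl, rfl⟩ := hk
              have m4' : (Sum.inl (a - 1, b') : Ed) ∉ A := by
                rw [m4]; simp
              have m3' : (Sum.inl (a, b') : Ed) ∈ A := m3.2 rfl
              simp [m1, m2, m3', m4', sg, hp]
          · exfalso
            rw [hek] at hk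
            by_cases hp' : Even (a + b')
            · simp only [hdv, hp', if_true, Prod.mk.injEq] at hk
              rw [Int.even_iff] at hp hp'; omega
            · simp only [hdv, hp', if_false, Prod.mk.injEq] at hk
              rw [Int.even_iff] at hp hp'; omega
      · -- inside the half box, not the tip
        have noA : ∀ e', (hdv e' = (x, y) ∨ tlv e' = (x, y)) → e' ∉ A := by
          rintro e' he' ⟨j, hj, rfl⟩
          rcases he' with he' | he'
          · have := head j hj (by rw [he']; exact hvq)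
            subst this
            rw [← hv0] at he'
            exact hv' ⟨(congrArg Prod.fst he').symm, (congrArg Prod.snd he').symm⟩
          · exact tail j hj (by rw [he']; exact hvq)
        have m1 : (Sum.inl (x, y) : Ed) ∉ A := noA _ (by
          rcases sq_inl (x, y) with h' | h' <;> rw [h'.1, h'.2.1] <;> simp)
        have m2 : (Sum.inr (x, y) : Ed) ∉ A := noA _ (by
          rcases sq_inr (x, y) with h' | h' <;> rw [h'.1, h'.2.1] <;> simp)
        have m3 : (Sum.inl (x - 1, y) : Ed) ∉ A := noA _ (by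
          rcases sq_inl (x - 1, y) with h' | h' <;> rw [h'.1, h'.2.1] <;> simp)
        have m4 : (Sum.inr (x, y - 1) : Ed) ∉ A := noA _ (by
          rcases sq_inr (x, y - 1) with h' | h' <;> rw [h'.1, h'.2.1] <;> simp)
        have q : Q (Sum.inr (x, y)) ↔ Q (Sum.inr (x, y - 1)) := by
          rw [Qinr, Qinr]
          dsimp only
          omega
        simp only [hg, Qinl, if_false, m1, m2, m3, m4, q]
    · -- off the half box
      have q1 : ¬ Q (Sum.inr (x, y)) := by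
        rw [Qinr]
        rintro ⟨h1, h2, h3⟩
        dsimp only at h1 h2 h3
        rcases eq_or_lt_of_le h2 with h4 | h4
        · apply colD
          rw [← h1, h4]
          exact hv
        · apply hvq
          rw [h1]
          exact colq y (by omega) (by omega)
      have q2 : ¬ Q (Sum.inr (x, y - 1)) := by
        rw [Qinr]
        rintro ⟨h1, h2, h3⟩
        dsimp only at h1 h2 h3
        apply hvq
        rw [h1]
        exact colq y (by omega) (by omega)
      have := H166.kirchhoff (ω := ω) (A := A) (v := (x, y)) (by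
        intro e' he'
        constructor
        · rintro ⟨j, hj, rfl⟩
          have hjk : j ≠ k := by
            rintro rfl
            rw [← hv0] at he'
            exact hvq (he' ▸ htip)
          exact ⟨j + 1, by omega, pth_succ _ _ _⟩
        · rintro ⟨j, hj, h5⟩
          rcases Nat.eq_zero_or_pos j with rfl | hj0
          · exfalso
            apply h.start
            rw [pth_zero] at h5
            rw [h5, tlv_nx, he']
            exact hv
          · obtain ⟨i, rfl⟩ : ∃ i, j = i + 1 := ⟨j - 1, by omega⟩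
            rw [pth_succ] at h5
            exact ⟨i, by omega, (s_nx ω).1 h5⟩)
      simp only [hg, Qinl, if_false, q1, q2, add_zero]
      convert this)
  refine ⟨u, ?_, ?_⟩
  · intro i hi
    have hd : hdv (pth ω e i) ∈ D := by
      rcases lt_or_eq_of_le hi with h1 | h1
      · exact h.mem i h1
      · rw [h1]; exact hsub h.tip
    have hq' : ¬ Q (pth ω e i) := by
      rintro ⟨y, h1, h2, h3⟩
      have hdt : (hdv (pth ω e i) = (x0, y) ∧ tlv (pth ω e i) = (x0, y + 1)) ∨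
          (hdv (pth ω e i) = (x0, y + 1) ∧ tlv (pth ω e i) = (x0, y)) := by
        rw [h3]
        rcases sq_inr (x0, y) with h' | h'
        · exact Or.inl ⟨h'.1, h'.2.1⟩
        · exact Or.inr ⟨h'.1, h'.2.1⟩
      rcases eq_or_lt_of_le h1 with h4 | h4
      · -- the foot
        subst h4
        have hy : ((x0, b.2 - 1 + 1) : Pt) ∈ hq b r := colq _ (by omega) (by omega)
        rcases hdt with ⟨h5, -⟩ | ⟨h5, h6⟩
        · rw [h5] at hd; exact colD hd
        · have hik := head i hi (by rw [h5]; exact hy)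
          subst hik
          obtain ⟨j, rfl⟩ : ∃ j, i = j + 1 := ⟨i - 1, by have := h.pos; omega⟩
          rw [tlv_pth] at h6
          exact colD (h6 ▸ h.mem j (by omega))
      · have m1 := colq y (by omega) (by omega)
        have m2 := colq (y + 1) (by omega) (by omega)
        refine tail i hi ?_
        rcases hdt with ⟨-, h5⟩ | ⟨-, h5⟩
        · rw [h5]; exact m2
        · rw [h5]; exact m1
    rw [hu _ (Or.inl hd)]
    have hiA : pth ω e i ∈ A := ⟨i, hi, rfl⟩
    simp only [hg, hq', if_false, hiA, if_true, add_zero]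
    have : sg (pth ω e i) * sg (pth ω e i) = 1 := by
      rcases pth ω e i with v | v
      · rcases sq_inl v with h' | h' <;> rw [h'.2.2.1] <;> norm_num
      · rcases sq_inr v with h' | h' <;> rw [h'.2.2.1] <;> norm_num
    rw [this]
  · intro e' h1 h2 h3 h4
    have hq' : ¬ Q e' := by
      rintro ⟨y, k1, k2, rfl⟩
      have hdt : (hdv (Sum.inr (x0, y)) = (x0, y) ∧ tlv (Sum.inr (x0, y)) = (x0, y + 1)) ∨
          (hdv (Sum.inr (x0, y)) = (x0, y + 1) ∧ tlv (Sum.inr (x0, y)) = (x0, y)) := by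
        rcases sq_inr (x0, y) with h' | h'
        · exact Or.inl ⟨h'.1, h'.2.1⟩
        · exact Or.inr ⟨h'.1, h'.2.1⟩
      rcases eq_or_lt_of_le k1 with h5 | h5
      · subst h5
        rcases hdt with ⟨h5, -⟩ | ⟨-, h6⟩
        · rw [h5] at h1; exact colD h1
        · rw [h6] at h2; exact colD h2
      · have m1 := colq y (by omega) (by omega)
        have m2 := colq (y + 1) (by omega) (by omega)
        rcases hdt with ⟨h5, h6⟩ | ⟨h5, h6⟩
        · exact h3 ⟨by rw [h5]; exact m1, by rw [h6]; exact m2⟩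
        · exact h3 ⟨by rw [h5]; exact m2, by rw [h6]; exact m1⟩
    rw [hu _ (Or.inl h1)]
    have hA' : e' ∉ A := by
      rintro ⟨j, hj, h5⟩
      exact h4 j hj h5
    simp only [hg, hq', if_false, hA', add_zero, mul_zero]

theorem Past.pot {D : Set Pt} (hD : Ex D) {b : Pt} {r : ℤ} (hf : Flat D b (r + 1)) {ω : Cfg}
    {e : Ed} {k : ℕ} (h : Past D b r ω e k) : ∃ u : Pt → ℤ,
      (∀ i ≤ k, u (ls (pth ω e i)) = u (rs (pth ω e i)) + 1) ∧
      ∀ e', hdv e' ∈ D → tlv e' ∈ D → ¬ (hdv e' ∈ hq b r ∧ tlv e' ∈ hq b r) →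
        (∀ i ≤ k, pth ω e i ≠ e') → u (ls e') = u (rs e') := by
  have h1 := mem_bl.1 h.tip.2
  exact h.potU hD (hf.toU (by omega) (by omega))

/-! ### Chains along a segment -/

/-- The squares explored by the past. -/
def ex (ω : Cfg) (e : Ed) (k : ℕ) : Set Pt := {v | ∃ i < k, hdv (pth ω e i) = v}

/-- One step of the interface. -/
theorem step_cases (ω : Cfg) (f : Ed) :
    (ω (hdv f) = true ∧ rs (nx ω f) = rs f ∧ PStep {hdv f} (ls f) (ls (nx ω f))) ∨
    (ω (hdv f) = false ∧ ls (nx ω f) = ls f ∧ PStep {hdv f} (rs f) (rs (nx ω f))) := by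
  rcases H192.ls_nx ω f with ⟨h1, h2, h3, h4⟩ | ⟨h1, h2, h3, h4⟩
  · exact Or.inl ⟨h1, h3, h2.1, h2.2.1, h4⟩
  · exact Or.inr ⟨h1, h3, h2.1, h2.2.1, h4⟩

theorem ls_par (e : Ed) : ((ls e).1 + (ls e).2) % 2 = 0 := by
  rcases e with ⟨x, y⟩ | ⟨x, y⟩ <;> by_cases h : Even (x + y) <;>
    simp only [ls, h, if_true, if_false] <;> rw [Int.even_iff] at h <;> omega

theorem rs_par (e : Ed) : ((rs e).1 + (rs e).2) % 2 = 1 := by
  rcases e with ⟨x, y⟩ | ⟨x, y⟩ <;> by_cases h : Even (x + y) <;>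
    simp only [rs, h, if_true, if_false] <;> rw [Int.even_iff] at h <;> omega

/-- Two diagonals of the same square with a common parity have the same end points. -/
theorem diag_eq {v x y x' : Pt} (h : PStep {v} x y) (hx' : (x'.1 = v.1 ∨ x'.1 = v.1 + 1) ∧
    (x'.2 = v.2 ∨ x'.2 = v.2 + 1)) (hp : (x'.1 + x'.2) % 2 = (x.1 + x.2) % 2) :
    x' = x ∨ x' = y := by
  obtain ⟨h1, h2, h3⟩ := h
  rw [Set.mem_singleton_iff] at h3
  have h4 : min x.1 y.1 = v.1 := congrArg Prod.fst h3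
  have h5 : min x.2 y.2 = v.2 := congrArg Prod.snd h3
  by_cases hc : x'.1 = x.1
  · left
    refine Prod.ext hc ?_
    omega
  · right
    refine Prod.ext ?_ ?_ <;> omega

theorem corners (e : Ed) : (((ls e).1 = (hdv e).1 ∨ (ls e).1 = (hdv e).1 + 1) ∧
      ((ls e).2 = (hdv e).2 ∨ (ls e).2 = (hdv e).2 + 1)) ∧
    (((rs e).1 = (hdv e).1 ∨ (rs e).1 = (hdv e).1 + 1) ∧
      ((rs e).2 = (hdv e).2 ∨ (rs e).2 = (hdv e).2 + 1)) := by
  rcases e with ⟨x, y⟩ | ⟨x, y⟩ <;> by_cases h : Even (x + y) <;>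
    simp [ls, rs, hdv, h]

/-- **The dichotomy**: along a segment which does not use edges of the past, all the closed squares
are unexplored or all the open squares are unexplored. -/
theorem Past.dichU {D : Set Pt} (hD : Ex D) {b : Pt} {r : ℤ} (hf : FlatU D b r) {ω : Cfg}
    {e : Ed} {k : ℕ} (h : Past D b r ω e k) {f : Ed} {n : ℕ}
    (h1 : ∀ i ≤ n, hdv (pth ω f i) ∈ D)
    (h2 : ∀ i < n, ¬ (hdv (pth ω f i) ∈ hq b r ∧ hdv (pth ω f (i + 1)) ∈ hq b r))
    (h3 : ∀ i < n, ∀ j ≤ k, pth ω e j ≠ pth ω f (i + 1)) :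
    (∀ i, 1 ≤ i → i < n → ω (hdv (pth ω f i)) = false → hdv (pth ω f i) ∉ ex ω e k) ∨
    (∀ i, 1 ≤ i → i < n → ω (hdv (pth ω f i)) = true → hdv (pth ω f i) ∉ ex ω e k) := by
  obtain ⟨u, hu1, hu2⟩ := h.potU hD hf
  -- the constant of the past
  have hpast : ∀ i ≤ k, u (rs (pth ω e i)) = u (rs e) ∧ u (ls (pth ω e i)) = u (rs e) + 1 := by
    intro i
    induction i with
    | zero => intro _; exact ⟨rfl, hu1 0 (by omega)⟩
    | succ i ih =>
      intro hi
      obtain ⟨a1, a2⟩ := ih (by omega)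
      have a3 := hu1 (i + 1) hi
      rw [pth_succ] at a3 ⊢
      rcases step_cases ω (pth ω e i) with ⟨-, h5, -⟩ | ⟨-, h5, -⟩
      · rw [h5] at a3 ⊢; omega
      · rw [h5] at a3 ⊢; omega
  -- the constant of the segment
  have hseg : ∀ i < n, u (ls (pth ω f (i + 1))) = u (ls (pth ω f 1)) ∧
      u (rs (pth ω f (i + 1))) = u (ls (pth ω f 1)) := by
    have key : ∀ i < n, u (ls (pth ω f (i + 1))) = u (rs (pth ω f (i + 1))) := by
      intro i hi
      refine hu2 _ (h1 (i + 1) (by omega)) ?_ ?_ (fun j hj => h3 i hi j hj)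
      · rw [tlv_pth]; exact h1 i (by omega)
      · rw [tlv_pth]
        rintro ⟨a, a'⟩
        exact h2 i hi ⟨a', a⟩
    intro i
    induction i with
    | zero => intro hi; exact ⟨rfl, (key 0 hi).symm⟩
    | succ i ih =>
      intro hi
      obtain ⟨a1, a2⟩ := ih (by omega)
      have a3 := key (i + 1) hi
      have e1 : pth ω f (i + 1 + 1) = nx ω (pth ω f (i + 1)) := pth_succ _ _ _
      rw [e1] at a3 ⊢
      rcases step_cases ω (pth ω f (i + 1)) with ⟨-, h5, -⟩ | ⟨-, h5, -⟩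
      · rw [h5] at a3 ⊢; omega
      · rw [h5] at a3 ⊢; omega
  by_contra hcon
  push Not at hcon
  obtain ⟨⟨i, i1, i2, i3, j, j1, j2⟩, i', i1', i2', i3', j', j1', j2'⟩ := hcon
  -- an explored closed square
  have c1 : u (ls (pth ω f 1)) = u (rs e) := by
    obtain ⟨i0, rfl⟩ : ∃ i0, i = i0 + 1 := ⟨i - 1, by omega⟩
    have a1 := (hseg i0 (by omega)).2
    rcases step_cases ω (pth ω e j) with ⟨h5, -, -⟩ | ⟨h5, h6, h7⟩
    · rw [j2, i3] at h5; exact absurd h5 (by simp)
    · rw [← pth_succ, j2] at h7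
      rcases diag_eq h7 (corners (pth ω f (i0 + 1))).2 (by rw [rs_par, rs_par]) with h8 | h8
      · rw [← a1, h8]; exact (hpast j j1.le).1
      · rw [← a1, h8]; exact (hpast (j + 1) j1).1
  have c2 : u (ls (pth ω f 1)) = u (rs e) + 1 := by
    obtain ⟨i0, rfl⟩ : ∃ i0, i' = i0 + 1 := ⟨i' - 1, by omega⟩
    have a1 := (hseg i0 (by omega)).1
    rcases step_cases ω (pth ω e j') with ⟨h5, h6, h7⟩ | ⟨h5, -, -⟩
    · rw [← pth_succ, j2'] at h7
      rcases diag_eq h7 (corners (pth ω f (i0 + 1))).1 (by rw [ls_par, ls_par]) with h8 | h8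
      · rw [← a1, h8]; exact (hpast j' j1'.le).2
      · rw [← a1, h8]; exact (hpast (j' + 1) j1').2
    · rw [j2', i3'] at h5; exact absurd h5 (by simp)
  omega

/-- The right chain and the left chain of a segment. -/
theorem chains {ω : Cfg} {f : Ed} {Z Rg : Set Pt} (n : ℕ)
    (hR : ∀ i < n, ls (pth ω f (i + 1)) ∈ Rg ∧ rs (pth ω f (i + 1)) ∈ Rg) :
    ((∀ i, 1 ≤ i → i < n → ω (hdv (pth ω f i)) = false → hdv (pth ω f i) ∉ Z) → 1 ≤ n →
      PConn (cs false ω ∩ Zᶜ) Rg (rs (pth ω f 1)) (rs (pth ω f n))) ∧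
    ((∀ i, 1 ≤ i → i < n → ω (hdv (pth ω f i)) = true → hdv (pth ω f i) ∉ Z) → 1 ≤ n →
      PConn (cs true ω ∩ Zᶜ) Rg (ls (pth ω f 1)) (ls (pth ω f n))) := by
  constructor
  · intro hZ hn
    obtain ⟨m, rfl⟩ : ∃ m, n = m + 1 := ⟨n - 1, by omega⟩
    clear hn
    induction m with
    | zero => exact PConn.refl (hR 0 (by omega)).2
    | succ m ih =>
      have h1 := ih (fun i hi => hR i (by omega)) (fun i a1 a2 => hZ i a1 (by omega))
      rw [pth_succ ω f (m + 1)]
      rcases step_cases ω (pth ω f (m + 1)) with ⟨-, h5, -⟩ | ⟨h4, -, h5⟩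
      · rw [h5]; exact h1
      · refine h1.tail ⟨h5.1, h5.2.1, ?_⟩ ?_
        · have h6 : (min (rs (pth ω f (m + 1))).1 (rs (nx ω (pth ω f (m + 1)))).1,
              min (rs (pth ω f (m + 1))).2 (rs (nx ω (pth ω f (m + 1)))).2) =
              hdv (pth ω f (m + 1)) := h5.2.2
          rw [h6]
          exact ⟨h4, hZ (m + 1) (by omega) (by omega) h4⟩
        · rw [← pth_succ]; exact (hR (m + 1) (by omega)).2
  · intro hZ hn
    obtain ⟨m, rfl⟩ : ∃ m, n = m + 1 := ⟨n - 1, by omega⟩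
    clear hn
    induction m with
    | zero => exact PConn.refl (hR 0 (by omega)).1
    | succ m ih =>
      have h1 := ih (fun i hi => hR i (by omega)) (fun i a1 a2 => hZ i a1 (by omega))
      rw [pth_succ ω f (m + 1)]
      rcases step_cases ω (pth ω f (m + 1)) with ⟨h4, -, h5⟩ | ⟨-, h5, -⟩
      · refine h1.tail ⟨h5.1, h5.2.1, ?_⟩ ?_
        · have h6 : (min (ls (pth ω f (m + 1))).1 (ls (nx ω (pth ω f (m + 1)))).1,
              min (ls (pth ω f (m + 1))).2 (ls (nx ω (pth ω f (m + 1)))).2) =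
              hdv (pth ω f (m + 1)) := h5.2.2
          rw [h6]
          exact ⟨h4, hZ (m + 1) (by omega) (by omega) h4⟩
        · rw [← pth_succ]; exact (hR (m + 1) (by omega)).1
      · rw [h5]; exact h1

/-- Crossing of the half annulus by squares of colour `c` off `Z`. -/
def FX (c : Bool) (Z : Set Pt) (b : Pt) (r R : ℤ) : Set Mk :=
  {ω | ∃ y y' : Pt, (y.1 + y.2) % 2 = pr c ∧ nm (y - b) = r ∧ nm (y' - b) = R ∧
    PConn (cs c ω ∩ Zᶜ) (hp b ∩ an b r R) y y'}

theorem pr_true : pr true = 0 := rfl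

theorem pr_false : pr false = 1 := rfl

theorem corner_bl {b v x : Pt} {R : ℤ} (hv : v ∈ bl b R)
    (hx : (x.1 = v.1 ∨ x.1 = v.1 + 1) ∧ (x.2 = v.2 ∨ x.2 = v.2 + 1)) :
    x ∈ bl b (R + 1) := by
  rw [mem_bl] at hv ⊢
  omega

theorem nm_corner {b v x : Pt} (hx : (x.1 = v.1 ∨ x.1 = v.1 + 1) ∧ (x.2 = v.2 ∨ x.2 = v.2 + 1)) :
    nm (x - b) ≤ nm (v - b) + 1 ∧ nm (v - b) ≤ nm (x - b) + 1 := by
  have k1 : nm (x - b) ≤ nm (x - b) := le_rfl
  have k2 : nm (v - b) ≤ nm (v - b) := le_rfl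
  constructor
  · rw [nm_le] at k2 ⊢
    simp only [Prod.fst_sub, Prod.snd_sub] at *
    omega
  · rw [nm_le] at k1 ⊢
    simp only [Prod.fst_sub, Prod.snd_sub] at *
    omega

/-- A run in `D` which starts above the row off `D` stays above it. -/
theorem up_of_row {D : Set Pt} {b : Pt} {R : ℤ} {ω : Cfg} {f : Ed} {n : ℕ}
    (hrow : ∀ x, b.1 - R ≤ x → x ≤ b.1 + R → ((x, b.2 - 1) : Pt) ∉ D)
    (hf0 : b.2 ≤ (hdv f).2) (h1 : ∀ i ≤ n, hdv (pth ω f i) ∈ D)
    (hb : ∀ i ≤ n, nm (hdv (pth ω f i) - b) ≤ R) : ∀ i ≤ n, b.2 ≤ (hdv (pth ω f i)).2 := by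
  intro i
  induction i with
  | zero => exact fun _ => hf0
  | succ i ih =>
    intro hi
    have h2 := ih (by omega)
    have h3 := h1 (i + 1) hi
    have h4 := mem_bl.1 (show hdv (pth ω f (i + 1)) ∈ bl b R from hb (i + 1) hi)
    rw [← tlv_pth] at h2
    have h5 : (hdv (pth ω f (i + 1))).2 ≠ b.2 - 1 := by
      intro h6
      apply hrow (hdv (pth ω f (i + 1))).1 h4.1 h4.2.1
      rw [← h6]
      exact h3
    revert h2 h5
    generalize pth ω f (i + 1) = g
    rcases g with v | v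
    · rcases sq_inl v with h' | h' <;> rw [h'.1, h'.2.1] <;> dsimp only <;> omega
    · rcases sq_inr v with h' | h' <;> rw [h'.1, h'.2.1] <;> dsimp only <;> omega

/-- A run between distance `r` and distance `R` crosses the half annulus, off `Z` if the squares of
one of its chains are off `Z`. -/
theorem fx_of_run {b : Pt} {r R : ℤ} (hrR : r + 3 ≤ R) {ω : Cfg} {f : Ed} {n : ℕ} (Z : Set Pt)
    (hb2 : ∀ i ≤ n, b.2 ≤ (hdv (pth ω f i)).2)
    (hd : (∀ i, 1 ≤ i → i < n → ω (hdv (pth ω f i)) = false → hdv (pth ω f i) ∉ Z) ∨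
      (∀ i, 1 ≤ i → i < n → ω (hdv (pth ω f i)) = true → hdv (pth ω f i) ∉ Z))
    (h4 : (nm (hdv (pth ω f 0) - b) ≤ r ∧ nm (hdv (pth ω f n) - b) = R) ∨
      (nm (hdv (pth ω f 0) - b) = R ∧ nm (hdv (pth ω f n) - b) ≤ r)) :
    ω ∈ FX true Z b (r + 1) (R - 1) ∪ FX false Z b (r + 1) (R - 1) := by
  have hn : 1 ≤ n := by
    by_contra hcon
    have : n = 0 := by omega
    subst this
    omega
  -- the sites are in the half plane
  have hsite : ∀ i < n, ls (pth ω f (i + 1)) ∈ hp b ∧ rs (pth ω f (i + 1)) ∈ hp b := by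
    intro i hi
    have h5 := corners (pth ω f (i + 1))
    have h6 := hb2 (i + 1) (by omega)
    simp only [hp, Set.mem_ofPred_eq]
    omega
  have hc1 : ((ls (pth ω f 1)).1 = (hdv (pth ω f 0)).1 ∨ (ls (pth ω f 1)).1 = (hdv (pth ω f 0)).1 + 1) ∧
      ((ls (pth ω f 1)).2 = (hdv (pth ω f 0)).2 ∨ (ls (pth ω f 1)).2 = (hdv (pth ω f 0)).2 + 1) ∧
      ((rs (pth ω f 1)).1 = (hdv (pth ω f 0)).1 ∨ (rs (pth ω f 1)).1 = (hdv (pth ω f 0)).1 + 1) ∧
      ((rs (pth ω f 1)).2 = (hdv (pth ω f 0)).2 ∨ (rs (pth ω f 1)).2 = (hdv (pth ω f 0)).2 + 1) := by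
    have h5 : tlv (pth ω f 1) = hdv (pth ω f 0) := tlv_pth ω f 0
    rw [← h5]
    generalize pth ω f 1 = g
    rcases g with ⟨x, y⟩ | ⟨x, y⟩ <;> by_cases hp' : Even (x + y) <;> simp [ls, rs, tlv, hp']
  have hcn := corners (pth ω f n)
  -- a chain gives a crossing
  have fin : ∀ (c : Bool) (y y' : Pt), (y.1 + y.2) % 2 = pr c →
      PConn (cs c ω ∩ Zᶜ) (hp b) y y' →
      ((nm (y - b) ≤ r + 1 ∧ R - 1 ≤ nm (y' - b)) ∨ (R - 1 ≤ nm (y - b) ∧ nm (y' - b) ≤ r + 1)) →
      ω ∈ FX c Z b (r + 1) (R - 1) := by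
    intro c y y' hy hyy' hh
    rcases hh with ⟨a1, a2⟩ | ⟨a1, a2⟩
    · obtain ⟨z, z', k1, k2, k3, k4, -⟩ := crossing (r := r + 1) (R := R - 1) (by omega) hyy' a1 a2
      exact ⟨z, z', by rw [← k3.parity, hy], k1, k2, k4⟩
    · obtain ⟨z, z', k1, k2, k3, k4, -⟩ := crossing (r := r + 1) (R := R - 1) (by omega) hyy'.symm a2 a1
      exact ⟨z, z', by rw [← k3.parity, ← hyy'.parity, hy], k1, k2, k4⟩
  have hch := chains (ω := ω) (f := f) (Z := Z) (Rg := hp b) n hsite
  rcases hd with hd | hd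
  · right
    refine fin false _ _ (by rw [rs_par]; rfl) (hch.1 hd hn) ?_
    have n1 := nm_corner (b := b) ⟨hc1.2.2.1, hc1.2.2.2⟩
    have n2 := nm_corner (b := b) hcn.2
    omega
  · left
    refine fin true _ _ (by rw [ls_par]; rfl) (hch.2 hd hn) ?_
    have n1 := nm_corner (b := b) ⟨hc1.1, hc1.2.1⟩
    have n2 := nm_corner (b := b) hcn.1
    omega

/-- **Fresh crossing.** A segment between the half box of radius `r` and distance `R` (inside the
box of radius `R`, off the half box in between) which does not use edges of the past gives a crossing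
of the half annulus by unexplored squares of one colour. -/
theorem Past.freshU {D : Set Pt} (hD : Ex D) {b : Pt} {r R : ℤ} (hrR : r + 3 ≤ R)
    (hf : FlatU D b R) {ω : Cfg} {e : Ed} {k : ℕ} (h : Past D b r ω e k) {f : Ed} {n : ℕ}
    (hf0 : b.2 ≤ (hdv f).2)
    (h1 : ∀ i ≤ n, hdv (pth ω f i) ∈ D) (hb : ∀ i ≤ n, nm (hdv (pth ω f i) - b) ≤ R)
    (h2 : ∀ i < n, ¬ (hdv (pth ω f i) ∈ hq b r ∧ hdv (pth ω f (i + 1)) ∈ hq b r))
    (h3 : ∀ i < n, ∀ j ≤ k, pth ω e j ≠ pth ω f (i + 1))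
    (h4 : (nm (hdv (pth ω f 0) - b) ≤ r ∧ nm (hdv (pth ω f n) - b) = R) ∨
      (nm (hdv (pth ω f 0) - b) = R ∧ nm (hdv (pth ω f n) - b) ≤ r)) :
    ω ∈ FX true (ex ω e k) b (r + 1) (R - 1) ∪ FX false (ex ω e k) b (r + 1) (R - 1) :=
  fx_of_run hrR _ (up_of_row hf.row hf0 h1 hb) (h.dichU hD (hf.mono (by omega)) h1 h2 h3) h4

theorem Past.fresh {D : Set Pt} (hD : Ex D) {b : Pt} {r R : ℤ} (hrR : r + 3 ≤ R)
    (hf : Flat D b R) {ω : Cfg} {e : Ed} {k : ℕ} (h : Past D b r ω e k) {f : Ed} {n : ℕ}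
    (h1 : ∀ i ≤ n, hdv (pth ω f i) ∈ D) (hb : ∀ i ≤ n, nm (hdv (pth ω f i) - b) ≤ R)
    (h2 : ∀ i < n, ¬ (hdv (pth ω f i) ∈ hq b r ∧ hdv (pth ω f (i + 1)) ∈ hq b r))
    (h3 : ∀ i < n, ∀ j ≤ k, pth ω e j ≠ pth ω f (i + 1))
    (h4 : (nm (hdv (pth ω f 0) - b) ≤ r ∧ nm (hdv (pth ω f n) - b) = R) ∨
      (nm (hdv (pth ω f 0) - b) = R ∧ nm (hdv (pth ω f n) - b) ≤ r)) :
    ω ∈ FX true (ex ω e k) b (r + 1) (R - 1) ∪ FX false (ex ω e k) b (r + 1) (R - 1) := by
  have h5 := mem_bl.1 h.tip.2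
  exact h.freshU hD hrR (hf.toU (by omega) le_rfl) ((hf _ (hb 0 (by omega))).1 (h1 0 (by omega)))
    h1 hb h2 h3 h4

/-- An orbit which enters `D` does not visit an edge twice before it leaves `D`. -/
theorem pth_inj {D : Set Pt} {ω : Cfg} {e : Ed} (h0 : tlv e ∉ D) {n : ℕ}
    (h1 : ∀ i < n, hdv (pth ω e i) ∈ D) {i j : ℕ} (hi : i ≤ n) (hij : j < i) :
    pth ω e j ≠ pth ω e i := by
  intro h
  induction j generalizing i with
  | zero =>
    apply h0
    obtain ⟨m, rfl⟩ : ∃ m, i = m + 1 := ⟨i - 1, by omega⟩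
    rw [pth_zero] at h
    rw [h, tlv_pth]
    exact h1 m (by omega)
  | succ j ih =>
    obtain ⟨m, rfl⟩ : ∃ m, i = m + 1 := ⟨i - 1, by omega⟩
    rw [pth_succ, pth_succ] at h
    exact ih (by omega) (by omega) ((s_nx ω).1 h)

/-- The last segment between the half box and the first visit of distance `R`. -/
theorem seg_of_far {b : Pt} {r R : ℤ} (hrR : r < R) {ω : Cfg} {e : Ed} {k m : ℕ}
    (hk : hdv (pth ω e k) ∈ hq b r) (hkm : k ≤ m) (h2 : R ≤ nm (hdv (pth ω e m) - b)) :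
    ∃ l n, k ≤ l ∧ 1 ≤ n ∧ l + n ≤ m ∧ hdv (pth ω e l) ∈ hq b r ∧
      (∀ i, 1 ≤ i → i ≤ n → hdv (pth ω e (l + i)) ∉ hq b r) ∧
      (∀ i ≤ n, nm (hdv (pth ω e (l + i)) - b) ≤ R) ∧ nm (hdv (pth ω e (l + n)) - b) = R := by
  classical
  -- the first time `m'` after `k` at distance `R`
  have hex : ∃ m', k ≤ m' ∧ R ≤ nm (hdv (pth ω e m') - b) := ⟨m, hkm, h2⟩
  obtain ⟨m', ⟨a1, a2⟩, a3, a4⟩ : ∃ m', (k ≤ m' ∧ R ≤ nm (hdv (pth ω e m') - b)) ∧ m' ≤ m ∧
      ∀ i, k ≤ i → i < m' → nm (hdv (pth ω e i) - b) < R := by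
    refine ⟨Nat.find hex, Nat.find_spec hex, Nat.find_min' hex ⟨hkm, h2⟩, ?_⟩
    intro i hi hlt
    by_contra hcon
    exact Nat.find_min hex hlt ⟨hi, by omega⟩
  -- the last time in the half box
  have htip : nm (hdv (pth ω e k) - b) ≤ r := hk.2
  have hkm' : k < m' := by
    rcases lt_or_eq_of_le a1 with h5 | h5
    · exact h5
    · rw [← h5] at a2; omega
  set l := Nat.findGreatest (fun l => k ≤ l ∧ hdv (pth ω e l) ∈ hq b r) m' with hl
  have hls : k ≤ l ∧ hdv (pth ω e l) ∈ hq b r :=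
    Nat.findGreatest_spec (P := fun l => k ≤ l ∧ hdv (pth ω e l) ∈ hq b r) (m := k) a1
      ⟨le_rfl, hk⟩
  have hlm : l ≤ m' := Nat.findGreatest_le _
  have hl4 : ∀ i, l < i → i ≤ m' → hdv (pth ω e i) ∉ hq b r := by
    intro i hi hi' hmem
    exact Nat.findGreatest_is_greatest (P := fun l => k ≤ l ∧ hdv (pth ω e l) ∈ hq b r) hi hi'
      ⟨by omega, hmem⟩
  have hlt : l < m' := by
    rcases lt_or_eq_of_le hlm with h5 | h5
    · exact h5
    · have h6 : nm (hdv (pth ω e l) - b) ≤ r := hls.2.2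
      rw [h5] at h6
      omega
  -- steps change the distance by at most one
  have hstep : ∀ i, nm (hdv (pth ω e (i + 1)) - b) ≤ nm (hdv (pth ω e i) - b) + 1 := by
    intro i
    rw [← tlv_pth ω e i]
    generalize pth ω e (i + 1) = g
    have k1 : nm (tlv g - b) ≤ nm (tlv g - b) := le_rfl
    rw [nm_le] at k1 ⊢
    simp only [Prod.fst_sub, Prod.snd_sub] at *
    rcases g with v | v
    · rcases sq_inl v with h' | h' <;> rw [h'.2.1] at k1 ⊢ <;> rw [h'.1] <;> dsimp only at * <;> omega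
    · rcases sq_inr v with h' | h' <;> rw [h'.2.1] at k1 ⊢ <;> rw [h'.1] <;> dsimp only at * <;> omega
  have hm'R : nm (hdv (pth ω e m') - b) = R := by
    obtain ⟨m0, hm0⟩ : ∃ m0, m' = m0 + 1 := ⟨m' - 1, by omega⟩
    have h5 := a4 m0 (by omega) (by omega)
    have h6 := hstep m0
    rw [← hm0] at h6
    omega
  have hlm' : l + (m' - l) = m' := by omega
  refine ⟨l, m' - l, hls.1, by omega, by omega, hls.2, fun i hi hi' => hl4 _ (by omega) (by omega),
    fun i hi => ?_, by rw [hlm']; exact hm'R⟩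
  rcases lt_or_eq_of_le (show l + i ≤ m' by omega) with h5 | h5
  · exact (a4 _ (by omega) h5).le
  · rw [h5, hm'R]

/-- **Escape lemma.** If the orbit later reaches distance `R`, then the unexplored squares contain a
crossing of the half annulus by one of the two colours. -/
theorem Past.escapeU {D : Set Pt} (hD : Ex D) {b : Pt} {r R : ℤ} (hrR : r + 3 ≤ R)
    (hf : FlatU D b R) {ω : Cfg} {e : Ed} {k : ℕ} (h : Past D b r ω e k) {m : ℕ} (hkm : k ≤ m)
    (h1 : ∀ i ≤ m, hdv (pth ω e i) ∈ D) (h2 : R ≤ nm (hdv (pth ω e m) - b)) :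
    ω ∈ FX true (ex ω e k) b (r + 1) (R - 1) ∪ FX false (ex ω e k) b (r + 1) (R - 1) := by
  obtain ⟨l, n, a1, a2, a3, a4, a5, a6, a7⟩ := seg_of_far (by omega) h.tip hkm h2
  refine h.freshU (f := pth ω e l) (n := n) hD hrR hf a4.1 ?_ ?_ ?_ ?_ (Or.inl ⟨?_, ?_⟩)
  · intro i hi
    rw [pth_add]
    exact h1 _ (by omega)
  · intro i hi
    rw [pth_add]
    exact a6 i hi
  · intro i hi
    rw [pth_add, pth_add]
    rintro ⟨-, h5⟩
    exact a5 (i + 1) (by omega) (by omega) h5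
  · intro i hi j hj
    rw [pth_add]
    exact pth_inj h.start (n := m) (fun i hi => h1 i (by omega)) (by omega) (by omega)
  · rw [pth_zero]; exact a4.2
  · rw [pth_add]
    exact a7

theorem Past.escape {D : Set Pt} (hD : Ex D) {b : Pt} {r R : ℤ} (hrR : r + 3 ≤ R)
    (hf : Flat D b R) {ω : Cfg} {e : Ed} {k : ℕ} (h : Past D b r ω e k) {m : ℕ} (hkm : k ≤ m)
    (h1 : ∀ i ≤ m, hdv (pth ω e i) ∈ D) (h2 : R ≤ nm (hdv (pth ω e m) - b)) :
    ω ∈ FX true (ex ω e k) b (r + 1) (R - 1) ∪ FX false (ex ω e k) b (r + 1) (R - 1) := by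
  have h5 := mem_bl.1 h.tip.2
  exact h.escapeU hD hrR (hf.toU (by omega) le_rfl) hkm h1 h2

end Vale.Agent.P167.H632
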