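import Vale.Agent.P167.H632.Co
import Vale.Agent.P167.BR.Poly
import Vale.Agent.P167.CL.Enl

/-!
# P167: `CoConn` for the enlarged lattice polygons of the core
-/

namespace Vale.Agent.P167.H632

open Vale.Agent.P167
open Vale.Agent.P167.E6 (IsPolygon Encloses)

/-- The squares outside of a polygon are connected, in the sense of `H318`. -/
theorem coConn_poly {n : ℕ} {q : ZMod n → ℤ × ℤ} {D : Finset (ℤ × ℤ)} (hq : IsPolygon q)
    (hD : Encloses q D) : H318.CoConn D := coConn_of_scon (BR.scon hq hD)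

theorem coConn_enl {m : ℕ} {q : ZMod m → ℤ × ℤ} {Q : Finset (ℤ × ℤ)} (hq : IsPolygon q)
    (hD : Encloses q Q) {n : ℕ} (hn : 0 < n) : H318.CoConn (CA.enl Q n) :=
  coConn_poly (CL.re_poly hq hn 0) (CL.re_encl hq hD hn 0)

/-- **The complement of the domain of a datum is connected.** -/
theorem coConn_dat (S : CA.Dat) (n : ℕ) (hn : 1 ≤ n) : H318.CoConn (S.D n) :=
  coConn_enl S.poly S.enc hn

end Vale.Agent.P167.H632
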