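import Vale.Agent.P167.FK.Sym
import Vale.Agent.P167.BR.Pot
import Vale.Agent.P167.H365.NSep
import Vale.Agent.P167.H167.Equi
import Vale.Agent.P167.H135.Tra

/-!
# P167: symmetries of the functionals of the strands and loops of a domain

`GS s φ σ τ ω ω'`: `φ`, `σ`, `τ` (medial edges, squares, sites) map the interfaces of `ω` to those of
`ω'`; `s = true` if the left sites stay on the left of the canonical direction.
The reflections `x ↦ -x`, `y ↦ -y`, `(x, y) ↦ (y, x)` of the sites, all translations.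
-/

namespace Vale.Agent.P167.H632

open Finset MeasureTheory Vale.Agent.P167.BR
open Vale.Agent.P167.H542 (XT wp')
open Vale.Agent.P167.H365 (TA)
open Vale.Agent.P167.H167 (WD)

/-- `z` is a corner of the square `v`. -/
def Cor (v z : ℤ × ℤ) : Prop := (z.1 = v.1 ∨ z.1 = v.1 + 1) ∧ (z.2 = v.2 ∨ z.2 = v.2 + 1)

/-- A symmetry of the interfaces. -/
structure GS (s : Bool) (φ : Ed ≃ Ed) (σ τ : ℤ × ℤ ≃ ℤ × ℤ) (ω ω' : Cfg) : Prop where
  sy : FK.SyP φ σ ω ω' ∨ FK.SyR φ σ ω ω'
  l : ∀ e, ls (φ e) = if s then τ (ls e) else τ (rs e)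
  r : ∀ e, rs (φ e) = if s then τ (rs e) else τ (ls e)
  co : ∀ v z, Cor (σ v) (τ z) ↔ Cor v z

variable {s : Bool} {φ : Ed ≃ Ed} {σ τ : ℤ × ℤ ≃ ℤ × ℤ} {ω ω' : Cfg}
  {D : Finset (ℤ × ℤ)} {A : Finset Ed} {e e' : Ed}

theorem GS.symm (h : GS s φ σ τ ω ω') : GS s φ.symm σ.symm τ.symm ω' ω where
  sy := h.sy.imp FK.SyP.symm FK.SyR.symm
  l := fun e => by
    have h1 := h.l (φ.symm e)
    have h2 := h.r (φ.symm e)
    rw [Equiv.apply_symm_apply] at h1 h2
    cases s
    · simp only [Bool.false_eq_true, if_false] at h1 h2 ⊢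
      rw [h2, Equiv.symm_apply_apply]
    · simp only [if_true] at h1 h2 ⊢
      rw [h1, Equiv.symm_apply_apply]
  r := fun e => by
    have h1 := h.l (φ.symm e)
    have h2 := h.r (φ.symm e)
    rw [Equiv.apply_symm_apply] at h1 h2
    cases s
    · simp only [Bool.false_eq_true, if_false] at h1 h2 ⊢
      rw [h1, Equiv.symm_apply_apply]
    · simp only [if_true] at h1 h2 ⊢
      rw [h2, Equiv.symm_apply_apply]
  co := fun v z => by
    have := h.co (σ.symm v) (τ.symm z)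
    rw [Equiv.apply_symm_apply, Equiv.apply_symm_apply] at this
    exact this.symm

/-- The two squares of an edge. -/
theorem GS.ends (h : GS s φ σ τ ω ω') (e : Ed) :
    (hdv (φ e) = σ (hdv e) ∧ tlv (φ e) = σ (tlv e)) ∨
      (hdv (φ e) = σ (tlv e) ∧ tlv (φ e) = σ (hdv e)) := by
  rcases h.sy with h | h
  · refine Or.inl ⟨h.h e, ?_⟩
    obtain ⟨e0, rfl⟩ := (s_nx ω).2 e
    rw [← h.n, tlv_nx, tlv_nx, h.h]
  · exact Or.inr ⟨h.h e, h.t e⟩

theorem mem_im {α β : Type*} [DecidableEq β] (σ : α ≃ β) {S : Finset α} {v : α} :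
    σ v ∈ S.image σ ↔ v ∈ S := by
  rw [mem_image]
  exact ⟨fun ⟨w, hw, h⟩ => σ.injective h ▸ hw, fun h => ⟨v, h, rfl⟩⟩

theorem mem_im' {α β : Type*} [DecidableEq β] (σ : α ≃ β) {S : Finset α} {v : β} :
    v ∈ S.image σ ↔ σ.symm v ∈ S := by
  rw [← mem_im σ (v := σ.symm v), Equiv.apply_symm_apply]

theorem im_symm {α β : Type*} [DecidableEq α] [DecidableEq β] (σ : α ≃ β) (S : Finset α) :
    (S.image σ).image σ.symm = S := by
  ext v
  rw [mem_im' σ.symm, Equiv.symm_symm, mem_im σ]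

theorem GS.eds (h : GS s φ σ τ ω ω') : φ e ∈ eds (D.image σ) ↔ e ∈ eds D := by
  rw [mem_eds, mem_eds]
  rcases h.ends e with ⟨h1, h2⟩ | ⟨h1, h2⟩ <;> rw [h1, h2, mem_im, mem_im]
  exact or_comm

theorem GS.eds_im (h : GS s φ σ τ ω ω') : BR.eds (D.image σ) = (BR.eds D).image φ := by
  ext e
  rw [mem_im' φ, ← h.eds (D := D) (e := φ.symm e), Equiv.apply_symm_apply]

theorem GS.eqv_aux (h : GS s φ σ τ ω ω') (he : Relation.EqvGen (Nxt ω D) e e') :
    Relation.EqvGen (Nxt ω' (D.image σ)) (φ e) (φ e') := by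
  induction he with
  | rel x y hxy =>
    obtain ⟨h1, rfl⟩ := hxy
    rcases h.sy with h | h
    · exact Relation.EqvGen.rel _ _ ⟨by rw [h.h, mem_im]; exact h1, (h.n x).symm⟩
    · exact Relation.EqvGen.symm _ _ (Relation.EqvGen.rel _ _
        ⟨by rw [h.h, mem_im, tlv_nx]; exact h1, (h.n x).symm⟩)
  | refl x => exact Relation.EqvGen.refl _
  | symm x y _ ih => exact ih.symm
  | trans x y z _ _ ih1 ih2 => exact ih1.trans _ _ _ ih2

theorem GS.eqv (h : GS s φ σ τ ω ω') : Relation.EqvGen (Nxt ω' (D.image σ)) (φ e) (φ e') ↔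
    Relation.EqvGen (Nxt ω D) e e' := by
  refine ⟨fun he => ?_, h.eqv_aux⟩
  have := h.symm.eqv_aux he
  rwa [im_symm, Equiv.symm_apply_apply, Equiv.symm_apply_apply] at this

theorem GS.piece (h : GS s φ σ τ ω ω') :
    BR.piece ω' (D.image σ) (φ e) = (BR.piece ω D e).image φ := by
  ext e'
  rw [mem_im' φ, mem_piece, mem_piece, ← h.eds (D := D) (e := φ.symm e'),
    ← h.eqv (e' := φ.symm e'), Equiv.apply_symm_apply]

theorem GS.pcs (h : GS s φ σ τ ω ω') :
    BR.pcs ω' (D.image σ) = (BR.pcs ω D).image fun A => A.image φ := by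
  unfold BR.pcs
  rw [h.eds_im, image_image, image_image]
  exact image_congr fun e _ => h.piece

theorem GS.isLp (h : GS s φ σ τ ω ω') (hA : A ∈ BR.pcs ω D) :
    IsLp (D.image σ) (A.image φ) ↔ IsLp D A := by
  have key : IsLp (D.image σ) (A.image φ) ↔ ∀ e ∈ A, hdv (φ e) ∈ D.image σ := by
    unfold IsLp
    rw [forall_mem_image]
  rw [key]
  rcases h.sy with h | h
  · simp only [h.h, mem_im]
    rfl
  · simp only [h.h, mem_im]
    constructor
    · intro h1
      by_contra hcon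
      obtain ⟨e, he, he'⟩ := exists_entry hA hcon
      exact he' (h1 e he)
    · exact fun h1 e he => BR.IsLp.tl hA h1 he

theorem GS.potD (h : GS s φ σ τ ω ω') {u : ℤ × ℤ → ℤ} (hu : PotD D A u) :
    PotD (D.image σ) (A.image φ) fun z => if s then u (τ.symm z) else - u (τ.symm z) := by
  intro e he
  have he' : φ.symm e ∈ BR.eds D := by
    rw [← h.eds, Equiv.apply_symm_apply]; exact he
  have h1 := hu _ he'
  have h2 : (if e ∈ A.image φ then (1 : ℤ) else 0) = if φ.symm e ∈ A then 1 else 0 := by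
    simp only [mem_im' φ]
  rw [h2]
  have g1 := h.l (φ.symm e)
  have g2 := h.r (φ.symm e)
  rw [Equiv.apply_symm_apply] at g1 g2
  rw [g1, g2]
  cases s
  · simp only [Bool.false_eq_true, if_false, Equiv.symm_apply_apply]
    rw [h1]
    ring
  · simp only [if_true, Equiv.symm_apply_apply]
    exact h1

theorem GS.sep_aux (h : GS s φ σ τ ω ω') {z z' : ℤ × ℤ} (hz : Sep D A z z') :
    Sep (D.image σ) (A.image φ) (τ z) (τ z') := by
  obtain ⟨u, hu, hne⟩ := hz
  refine ⟨_, h.potD hu, ?_⟩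
  simp only [Equiv.symm_apply_apply]
  split_ifs
  · exact hne
  · simpa using hne

theorem GS.sep (h : GS s φ σ τ ω ω') {z z' : ℤ × ℤ} :
    Sep (D.image σ) (A.image φ) (τ z) (τ z') ↔ Sep D A z z' := by
  refine ⟨fun hz => ?_, h.sep_aux⟩
  have := h.symm.sep_aux hz
  rwa [im_symm, im_symm, Equiv.symm_apply_apply, Equiv.symm_apply_apply] at this

theorem GS.sites (h : GS s φ σ τ ω ω') : BR.sites (D.image σ) = (BR.sites D).image τ := by
  ext z
  rw [mem_im' τ, mem_sites, mem_sites]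
  constructor
  · rintro ⟨v, hv, h1⟩
    rw [mem_im' σ] at hv
    refine ⟨σ.symm v, hv, ?_⟩
    have := (h.co (σ.symm v) (τ.symm z)).1 (by
      rw [Equiv.apply_symm_apply, Equiv.apply_symm_apply]; exact h1)
    exact this
  · rintro ⟨v, hv, h1⟩
    refine ⟨σ v, (mem_im σ).2 hv, ?_⟩
    have := (h.co v (τ.symm z)).2 h1
    rwa [Equiv.apply_symm_apply] at this

theorem GS.mass (h : GS s φ σ τ ω ω') (p : ℤ × ℤ) (f : ℤ × ℤ → ℝ) :
    BR.mass (D.image σ) (τ p) (fun z => f (τ.symm z)) (A.image φ) = BR.mass D p f A := by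
  classical
  unfold BR.mass
  rw [h.sites, sum_image fun x _ y _ h => τ.injective h]
  refine sum_congr rfl fun z _ => ?_
  have h1 := h.sep (D := D) (A := A) (z := z) (z' := p)
  simp only [h1, Equiv.symm_apply_apply]

theorem GS.wp (h : GS s φ σ τ ω ω') (hA : A ∈ BR.pcs ω D) (t : ℝ) :
    BR.wp (D.image σ) (A.image φ) t = BR.wp D A t := by
  classical
  unfold BR.wp
  simp only [h.isLp hA]

theorem GS.wp' (h : GS s φ σ τ ω ω') (hA : A ∈ BR.pcs ω D) (t : ℝ) :
    H542.wp' (D.image σ) (A.image φ) t = H542.wp' D A t := by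
  classical
  unfold H542.wp'
  simp only [h.isLp hA]

theorem im_inj (φ : Ed ≃ Ed) : Function.Injective (fun A : Finset Ed => A.image φ) :=
  image_injective φ.injective

theorem GS.XD (h : GS s φ σ τ ω ω') (p : ℤ × ℤ) (f : ℤ × ℤ → ℝ) :
    BR.XD (D.image σ) (τ p) (fun z => f (τ.symm z)) ω' = BR.XD D p f ω := by
  classical
  unfold BR.XD
  rw [h.pcs, prod_image fun x _ y _ h => im_inj φ h]
  refine prod_congr rfl fun A hA => ?_
  rw [h.mass, h.wp hA]

theorem GS.TA (h : GS s φ σ τ ω ω') (hA : A ∈ BR.pcs ω D) (p : ℤ × ℤ) (f : ℤ × ℤ → ℝ) :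
    H365.TA (D.image σ) (τ p) (fun z => f (τ.symm z)) ω' (A.image φ) = H365.TA D p f ω A := by
  classical
  unfold H365.TA
  rw [h.mass, h.wp' hA, h.pcs]
  congr 1
  have e1 : ((BR.pcs ω D).image fun A => A.image φ).erase (A.image φ) =
      ((BR.pcs ω D).erase A).image fun A => A.image φ := (Finset.image_erase (im_inj φ) _ _).symm
  rw [e1, prod_image fun x _ y _ h => im_inj φ h]
  refine prod_congr rfl fun B hB => ?_
  rw [h.mass, h.wp (mem_of_mem_erase hB)]

theorem GS.se (h : GS s φ σ τ ω ω') (p z : ℤ × ℤ) :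
    H365.se (D.image σ) (τ p) (A.image φ) (τ z) = H365.se D p A z := by
  classical
  unfold H365.se
  simp only [h.sep]

theorem GS.XT (h : GS s φ σ τ ω ω') (p : ℤ × ℤ) (f : ℤ × ℤ → ℝ) (z : ℤ × ℤ) :
    H542.XT (D.image σ) (τ p) (fun z => f (τ.symm z)) (τ z) ω' = H542.XT D p f z ω := by
  rw [H365.XT_eq, H365.XT_eq, h.pcs, sum_image fun x _ y _ h => im_inj φ h]
  refine sum_congr rfl fun A hA => ?_
  rw [h.TA hA, h.se]

/-! ### Integrals -/

open Vale.Agent.P167.H135 (rl mp_rl shC shE)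

/-- The relabelling as a measurable equivalence. -/
noncomputable def rlM (σ : ℤ × ℤ ≃ ℤ × ℤ) (b : Bool) : Cfg ≃ᵐ Cfg where
  toFun := rl σ b
  invFun := rl σ.symm b
  left_inv ω := by
    funext v
    cases b <;> simp [rl, H135.fx]
  right_inv ω := by
    funext v
    cases b <;> simp [rl, H135.fx]
  measurable_toFun := (mp_rl σ b).measurable
  measurable_invFun := (mp_rl σ.symm b).measurable

theorem int_rl (σ : ℤ × ℤ ≃ ℤ × ℤ) (b : Bool) (g : Cfg → ℝ) :
    ∫ ω, g (rl σ b ω) ∂μ = ∫ ω, g ω ∂μ :=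
  (show MeasurePreserving (rlM σ b) μ μ from mp_rl σ b).integral_comp' (g := g)

/-- A symmetry of the model (with exchange of the colours if `b`). -/
def Sm (s b : Bool) (φ : Ed ≃ Ed) (σ τ : ℤ × ℤ ≃ ℤ × ℤ) : Prop :=
  ∀ ω, GS s φ σ τ ω (rl σ.symm b ω)

section

variable {b : Bool} (p z : ℤ × ℤ) (f : ℤ × ℤ → ℝ)

theorem Sm.VD (h : Sm s b φ σ τ) (D : Finset (ℤ × ℤ)) :
    BR.VD (D.image σ) (τ p) (fun z => f (τ.symm z)) = BR.VD D p f := by
  unfold BR.VD
  rw [← int_rl σ.symm b]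
  simp only [(h _).XD]

theorem Sm.intXT (h : Sm s b φ σ τ) (D : Finset (ℤ × ℤ)) :
    ∫ ω, XT (D.image σ) (τ p) (fun z => f (τ.symm z)) (τ z) ω ∂μ = ∫ ω, XT D p f z ω ∂μ := by
  rw [← int_rl σ.symm b]
  simp only [(h _).XT]

/-- **The field of the derivative is invariant.** -/
theorem Sm.WD (h : Sm s b φ σ τ) (D : Finset (ℤ × ℤ)) :
    H167.WD (D.image σ) (τ p) (fun z => f (τ.symm z)) (τ z) = H167.WD D p f z := by
  unfold H167.WD
  have h0 := h.intXT p z (0 : ℤ × ℤ → ℝ) D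
  have e0 : (fun z => (0 : ℤ × ℤ → ℝ) (τ.symm z)) = (0 : ℤ × ℤ → ℝ) := rfl
  rw [e0] at h0
  rw [h.VD, h.intXT, h0]

end

/-! ### The symmetries -/

/-- `x ↦ - x`, sites. -/
def rxS : ℤ × ℤ ≃ ℤ × ℤ where
  toFun v := (- v.1, v.2)
  invFun v := (- v.1, v.2)
  left_inv := by intro v; simp
  right_inv := by intro v; simp

/-- `y ↦ - y`, sites. -/
def ryS : ℤ × ℤ ≃ ℤ × ℤ where
  toFun v := (v.1, - v.2)
  invFun v := (v.1, - v.2)
  left_inv := by intro v; simp
  right_inv := by intro v; simp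

/-- Transposition, sites (and squares). -/
def swS : ℤ × ℤ ≃ ℤ × ℤ where
  toFun v := (v.2, v.1)
  invFun v := (v.2, v.1)
  left_inv := by intro v; simp
  right_inv := by intro v; simp

/-- Reflection `x ↦ - x` of the sites. -/
theorem sm_rx : Sm true false FK.rxE FK.rxV rxS := fun ω => by
  have h1 := FK.syR_rx ω
  refine ⟨Or.inr h1, ?_, ?_, ?_⟩
  · rintro (⟨x, y⟩ | ⟨x, y⟩) <;> by_cases h : Even (x + y) <;>
      simp [ls, FK.rxE, rxS, h, FK.px1, FK.px2] <;> omega
  · rintro (⟨x, y⟩ | ⟨x, y⟩) <;> by_cases h : Even (x + y) <;>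
      simp [rs, FK.rxE, rxS, h, FK.px1, FK.px2] <;> omega
  · rintro ⟨x, y⟩ ⟨z, w⟩
    simp only [Cor, FK.rxV, rxS, Equiv.coe_fn_mk]
    omega

/-- Reflection `y ↦ - y` of the sites. -/
theorem sm_ry : Sm true false FK.ryE FK.ryV ryS := fun ω => by
  have h1 := FK.syR_ry ω
  refine ⟨Or.inr h1, ?_, ?_, ?_⟩
  · rintro (⟨x, y⟩ | ⟨x, y⟩) <;> by_cases h : Even (x + y) <;>
      simp [ls, FK.ryE, ryS, h, FK.py1, FK.py2] <;> omega
  · rintro (⟨x, y⟩ | ⟨x, y⟩) <;> by_cases h : Even (x + y) <;>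
      simp [rs, FK.ryE, ryS, h, FK.py1, FK.py2] <;> omega
  · rintro ⟨x, y⟩ ⟨z, w⟩
    simp only [Cor, FK.ryV, ryS, Equiv.coe_fn_mk]
    omega

/-- Transposition. -/
theorem sm_sw : Sm true false FK.swE FK.swV swS := fun ω => by
  have h1 := FK.syR_sw ω
  have hc : ∀ x y : ℤ, Even (y + x) ↔ Even (x + y) := fun x y => by rw [add_comm]
  refine ⟨Or.inr h1, ?_, ?_, ?_⟩
  · rintro (⟨x, y⟩ | ⟨x, y⟩) <;> by_cases h : Even (x + y) <;>
      simp [ls, FK.swE, swS, h, hc x y]
  · rintro (⟨x, y⟩ | ⟨x, y⟩) <;> by_cases h : Even (x + y) <;>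
      simp [rs, FK.swE, swS, h, hc x y]
  · rintro ⟨x, y⟩ ⟨z, w⟩
    simp only [Cor, FK.swV, swS, Equiv.coe_fn_mk]
    omega

/-- Translation of the medial edges. -/
def shEe (a : ℤ × ℤ) : Ed ≃ Ed where
  toFun := shE a
  invFun := shE (-a)
  left_inv := H135.shE_neg a
  right_inv e := by
    have := H135.shE_neg (-a) e
    rwa [neg_neg] at this

/-- Even translations. -/
theorem sm_sh {a : ℤ × ℤ} (ha : Even (a.1 + a.2)) :
    Sm true false (shEe a) (Equiv.addRight a) (Equiv.addRight a) := fun ω => by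
  have e1 : rl (Equiv.addRight a).symm false ω = shC a ω := by
    funext v
    simp [rl, shC, H135.trS, ha, sub_eq_add_neg]
  rw [e1]
  refine ⟨Or.inl ⟨H135.nx_sh ha ω, H135.hdv_sh ha⟩, ?_, ?_, ?_⟩
  · rintro (⟨x, y⟩ | ⟨x, y⟩)
    · have h1 := H135.ev_add ha x y
      show ls (Sum.inl (x + a.1, y + a.2)) = _
      by_cases hp : Even (x + y) <;> simp only [ls, h1, hp, if_true, if_false] <;>
        ext <;> simp <;> ring
    · have h1 := H135.ev_add ha x y
      show ls (Sum.inr (x + a.1, y + a.2)) = _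
      by_cases hp : Even (x + y) <;> simp only [ls, h1, hp, if_true, if_false] <;>
        ext <;> simp <;> ring
  · rintro (⟨x, y⟩ | ⟨x, y⟩)
    · have h1 := H135.ev_add ha x y
      show rs (Sum.inl (x + a.1, y + a.2)) = _
      by_cases hp : Even (x + y) <;> simp only [rs, h1, hp, if_true, if_false] <;>
        ext <;> simp <;> ring
    · have h1 := H135.ev_add ha x y
      show rs (Sum.inr (x + a.1, y + a.2)) = _
      by_cases hp : Even (x + y) <;> simp only [rs, h1, hp, if_true, if_false] <;>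
        ext <;> simp <;> ring
  · rintro ⟨x, y⟩ ⟨z, w⟩
    simp only [Cor, Equiv.coe_addRight, Prod.fst_add, Prod.snd_add]
    omega

/-- Odd translations, with exchange of the colours. -/
theorem sm_sh' {a : ℤ × ℤ} (ha : ¬ Even (a.1 + a.2)) :
    Sm false true (shEe a) (Equiv.addRight a) (Equiv.addRight a) := fun ω => by
  have e1 : rl (Equiv.addRight a).symm true ω = shC a ω := by
    funext v
    simp [rl, shC, H135.trS, ha, sub_eq_add_neg]
  rw [e1]
  refine ⟨Or.inr ⟨H135.nx_sh' ha ω, H135.hdv_sh' ha, ?_⟩, ?_, ?_, ?_⟩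
  · intro e
    obtain ⟨e0, rfl⟩ := (s_nx ω).2 e
    have h1 := H135.hdv_sh' ha (nx ω e0)
    have h2 := H135.nx_sh' ha ω e0
    rcases hx : nx ω e0 with ⟨x, y⟩ | ⟨x, y⟩
    · have h3 := H135.od_add ha x y
      show tlv (Sum.inl (x + a.1, y + a.2)) = _
      by_cases hp : Even (x + y) <;>
        simp only [hdv, tlv, h3, hp, not_true_eq_false, not_false_eq_true, if_true, if_false,
          Equiv.coe_addRight] <;> ext <;> simp <;> ring
    · have h3 := H135.od_add ha x y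
      show tlv (Sum.inr (x + a.1, y + a.2)) = _
      by_cases hp : Even (x + y) <;>
        simp only [hdv, tlv, h3, hp, not_true_eq_false, not_false_eq_true, if_true, if_false,
          Equiv.coe_addRight] <;> ext <;> simp <;> ring
  · rintro (⟨x, y⟩ | ⟨x, y⟩)
    · have h1 := H135.od_add ha x y
      show ls (Sum.inl (x + a.1, y + a.2)) = _
      by_cases hp : Even (x + y) <;>
        simp only [ls, rs, h1, hp, not_true_eq_false, not_false_eq_true, if_true, if_false,
          Bool.false_eq_true] <;> ext <;> simp <;> ring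
    · have h1 := H135.od_add ha x y
      show ls (Sum.inr (x + a.1, y + a.2)) = _
      by_cases hp : Even (x + y) <;>
        simp only [ls, rs, h1, hp, not_true_eq_false, not_false_eq_true, if_true, if_false,
          Bool.false_eq_true] <;> ext <;> simp <;> ring
  · rintro (⟨x, y⟩ | ⟨x, y⟩)
    · have h1 := H135.od_add ha x y
      show rs (Sum.inl (x + a.1, y + a.2)) = _
      by_cases hp : Even (x + y) <;>
        simp only [ls, rs, h1, hp, not_true_eq_false, not_false_eq_true, if_true, if_false,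
          Bool.false_eq_true] <;> ext <;> simp <;> ring
    · have h1 := H135.od_add ha x y
      show rs (Sum.inr (x + a.1, y + a.2)) = _
      by_cases hp : Even (x + y) <;>
        simp only [ls, rs, h1, hp, not_true_eq_false, not_false_eq_true, if_true, if_false,
          Bool.false_eq_true] <;> ext <;> simp <;> ring
  · rintro ⟨x, y⟩ ⟨z, w⟩
    simp only [Cor, Equiv.coe_addRight, Prod.fst_add, Prod.snd_add]
    omega

end Vale.Agent.P167.H632
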