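import Vale.Agent.P167.H871.Tr

/-!
# P167, arm toolkit: deterministic part

Paths of diagonals of squares, cutting at spheres, gluing of crossings of an annulus or of a half
annulus which is not crossed by the other colour.
-/

namespace Vale.Agent.P167.H632

open Vale.Agent.P145.FB Vale.Agent.P153 Vale.Agent.P153.Topo Vale.Agent.P167 Vale.Agent.P167.H871
open Relation

/-! ### Balls and annuli -/

/-- The box of radius `R` around `b`. -/
def bl (b : Pt) (R : ℤ) : Set Pt := {w | nm (w - b) ≤ R}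

/-- The annulus of radii `r`, `R` around `b`. -/
def an (b : Pt) (r R : ℤ) : Set Pt := {w | r ≤ nm (w - b) ∧ nm (w - b) ≤ R}

theorem nm_le {v : Pt} {R : ℤ} : nm v ≤ R ↔ -R ≤ v.1 ∧ v.1 ≤ R ∧ -R ≤ v.2 ∧ v.2 ≤ R := by
  simp only [nm, max_le_iff, abs_le]
  tauto

theorem le_nm {v : Pt} {R : ℤ} : R ≤ nm v ↔ v.1 ≤ -R ∨ R ≤ v.1 ∨ v.2 ≤ -R ∨ R ≤ v.2 := by
  simp only [nm, le_max_iff, le_abs]
  omega

theorem mem_bl {b w : Pt} {R : ℤ} :
    w ∈ bl b R ↔ b.1 - R ≤ w.1 ∧ w.1 ≤ b.1 + R ∧ b.2 - R ≤ w.2 ∧ w.2 ≤ b.2 + R := by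
  simp only [bl, Set.mem_ofPred_eq, nm_le, Prod.fst_sub, Prod.snd_sub]
  omega

theorem bl_eq_rect (b : Pt) (R : ℤ) : bl b R = Rect (b.1 - R) (b.1 + R) (b.2 - R) (b.2 + R) := by
  ext w
  rw [mem_bl, mem_rect]

theorem nm_nonneg (v : Pt) : 0 ≤ nm v := le_max_of_le_left (abs_nonneg _)

theorem an_sub_bl {b : Pt} {r R : ℤ} : an b r R ⊆ bl b R := fun _ h => h.2

/-- Steps change the distance by at most one. -/
theorem nm_step {F : Set Pt} {b u v : Pt} (h : PStep F u v) :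
    nm (v - b) ≤ nm (u - b) + 1 ∧ nm (u - b) ≤ nm (v - b) + 1 := by
  obtain ⟨h1, h2, -⟩ := h
  have k1 : nm (u - b) ≤ nm (u - b) := le_rfl
  have k2 : nm (v - b) ≤ nm (v - b) := le_rfl
  constructor
  · rw [nm_le] at k1 ⊢
    simp only [Prod.fst_sub, Prod.snd_sub] at *
    omega
  · rw [nm_le] at k2 ⊢
    simp only [Prod.fst_sub, Prod.snd_sub] at *
    omega

/-! ### Cutting paths -/

theorem pconn_cut_first {G Rg : Set Pt} (f : Pt → ℤ)
    (hf : ∀ u v, PStep G u v → f v ≤ f u + 1) {y y' : Pt} {R : ℤ} (h : PConn G Rg y y')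
    (hy : f y ≤ R) (hy' : R ≤ f y') :
    ∃ z, f z = R ∧ PConn G (Rg ∩ {w | f w ≤ R}) y z ∧ PConn G Rg z y' := by
  have key : (∃ z, f z = R ∧ PConn G (Rg ∩ {w | f w ≤ R}) y z ∧ PConn G Rg z y') ∨
      (PConn G (Rg ∩ {w | f w ≤ R}) y y' ∧ f y' < R) := by
    clear hy'
    obtain ⟨h0, h⟩ := h
    induction h with
    | refl =>
      rcases hy.lt_or_eq with h1 | h1
      · exact Or.inr ⟨PConn.refl ⟨h0, hy⟩, h1⟩
      · exact Or.inl ⟨y, h1, PConn.refl ⟨h0, hy⟩, PConn.refl h0⟩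
    | @tail x x' hx hxx' ih =>
      rcases ih with ⟨z, h1, h2, h3⟩ | ⟨h1, h2⟩
      · exact Or.inl ⟨z, h1, h2, h3.tail hxx'.1 hxx'.2⟩
      · have h3 := hf _ _ hxx'.1
        have h4 : f x' ≤ R := by omega
        rcases h4.lt_or_eq with h5 | h5
        · exact Or.inr ⟨h1.tail hxx'.1 ⟨hxx'.2, h4⟩, h5⟩
        · exact Or.inl ⟨x', h5, h1.tail hxx'.1 ⟨hxx'.2, h4⟩, PConn.refl hxx'.2⟩
  rcases key with h1 | ⟨-, h1⟩
  · exact h1
  · omega

/-- First exit of a ball. -/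
theorem first_exit {G Rg : Set Pt} {b y y' : Pt} {R : ℤ} (h : PConn G Rg y y')
    (hy : nm (y - b) ≤ R) (hy' : R ≤ nm (y' - b)) :
    ∃ z, nm (z - b) = R ∧ PConn G (Rg ∩ bl b R) y z ∧ PConn G Rg z y' :=
  pconn_cut_first (fun w => nm (w - b)) (fun _ _ h => (nm_step h).1) h hy hy'

/-- Last visit of a ball. -/
theorem last_visit {G Rg : Set Pt} {b y y' : Pt} {r : ℤ} (h : PConn G Rg y y')
    (hy : nm (y - b) ≤ r) (hy' : r ≤ nm (y' - b)) :
    ∃ z, nm (z - b) = r ∧ PConn G Rg y z ∧ PConn G (Rg ∩ {w | r ≤ nm (w - b)}) z y' := by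
  obtain ⟨z, h1, h2, h3⟩ := pconn_cut_first (fun w => - nm (w - b)) (R := -r)
    (fun _ _ h => by have := (nm_step (b := b) h).2; omega) h.symm (by omega) (by omega)
  refine ⟨z, by omega, h3.symm, (h2.symm).mono subset_rfl ?_⟩
  rintro w ⟨hw1, hw2⟩
  refine ⟨hw1, ?_⟩
  simp only [Set.mem_ofPred_eq] at hw2 ⊢
  omega

/-- A path across an annulus contains a crossing. -/
theorem crossing {G Rg : Set Pt} {b y y' : Pt} {r R : ℤ} (hrR : r ≤ R) (h : PConn G Rg y y')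
    (hy : nm (y - b) ≤ r) (hy' : R ≤ nm (y' - b)) :
    ∃ z z', nm (z - b) = r ∧ nm (z' - b) = R ∧ PConn G (Rg ∩ bl b R) y z ∧
      PConn G (Rg ∩ an b r R) z z' ∧ PConn G Rg z' y' := by
  obtain ⟨z', h1, h2, h3⟩ := first_exit h (hy.trans hrR) hy'
  obtain ⟨z, h4, h5, h6⟩ := last_visit h2 hy (by omega)
  refine ⟨z, z', h4, h1, h5, h6.mono subset_rfl ?_, h3⟩
  rintro w ⟨⟨hw1, hw2⟩, hw3⟩
  exact ⟨hw1, hw3, hw2⟩

/-! ### The plane lemma -/

theorem Sc_compl' (F : Set Pt) {e : ℤ} (he : e = 0 ∨ e = 1) : (Sc e F)ᶜ = Sc (1 - e) Fᶜ := by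
  rcases he with rfl | rfl
  · exact Sc_compl F
  · have h := Sc_compl Fᶜ
    rw [compl_compl] at h
    rw [← h, compl_compl]
    rfl

theorem conn_rect {a b c d : ℤ} {x y : Pt} (hx : x ∈ Rect a b c d) (hy : y ∈ Rect a b c d) :
    Conn (Rect a b c d) x y := by
  obtain ⟨i, j⟩ := x
  obtain ⟨k, l⟩ := y
  rw [mem_rect] at hx hy
  refine (conn_row (j := j) (s := i) (t := k) ?_).trans (conn_col (i := k) (s := j) (t := l) ?_)
  · intro m hm hm'
    rw [mem_rect]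
    dsimp only at *
    omega
  · intro m hm hm'
    rw [mem_rect]
    dsimp only at *
    omega

/-- Points on or outside the sides of a parallelogram which contains `K` strictly are exterior. -/
theorem mem_ext_of_box {K : Set Pt} {a b c d : ℤ}
    (hK : ∀ x ∈ K, a < x.1 ∧ x.1 < b ∧ c < x.2 ∧ x.2 < d) {z : Pt}
    (hz : z.1 ≤ a ∨ b ≤ z.1 ∨ z.2 ≤ c ∨ d ≤ z.2) : z ∈ Topo.ext K := by
  intro N
  obtain ⟨i, j⟩ := z
  dsimp only at hz
  have row : ∀ i' j' : ℤ, (b ≤ i' ∨ j' ≤ c ∨ d ≤ j') → ∃ y : Pt, N ≤ y.1 ∧ Conn Kᶜ (i', j') y := by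
    intro i' j' h
    refine ⟨(max N i', j'), le_max_left _ _, conn_row ?_⟩
    intro m hm hm' hmem
    have := hK _ hmem
    dsimp only at this
    omega
  rcases hz with h | h | h | h
  · obtain ⟨y, hy, h1⟩ := row i d (Or.inr (Or.inr le_rfl))
    refine ⟨y, hy, Conn.trans (conn_col (i := i) (s := j) (t := d) ?_) h1⟩
    intro m hm hm' hmem
    have := hK _ hmem
    dsimp only at this
    omega
  · exact row i j (Or.inl h)
  · exact row i j (Or.inr (Or.inl h))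
  · exact row i j (Or.inr (Or.inr h))

/-- `w` is a site of parity `e` at the point `z` of the scaled lattice. -/
def Nr (e : ℤ) (z w : Pt) : Prop :=
  (¬ Ctr z ∧ w = st z) ∨ (Ctr z ∧ (w.1 = z.1 / 2 ∨ w.1 = z.1 / 2 + 1) ∧
    (w.2 = z.2 / 2 ∨ w.2 = z.2 / 2 + 1) ∧ (w.1 + w.2) % 2 = e)

/-- The box of the scaled lattice. -/
def BR (b : Pt) (R : ℤ) : Set Pt := Rect (2 * (b.1 - R)) (2 * (b.1 + R)) (2 * (b.2 - R)) (2 * (b.2 + R))

theorem mem_BR {b z : Pt} {R : ℤ} : z ∈ BR b R ↔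
    2 * (b.1 - R) ≤ z.1 ∧ z.1 ≤ 2 * (b.1 + R) ∧ 2 * (b.2 - R) ≤ z.2 ∧ z.2 ≤ 2 * (b.2 + R) := Iff.rfl

theorem nr_mem {e : ℤ} {b z w : Pt} {R : ℤ} (hz : z ∈ BR b R) (h : Nr e z w) : w ∈ bl b R := by
  rw [mem_BR] at hz
  rw [mem_bl]
  rcases h with ⟨-, rfl⟩ | ⟨⟨h1, h2⟩, h3, h4, -⟩
  · simp only [st]
    omega
  · omega

theorem nr_parity {F : Set Pt} {e : ℤ} {z w : Pt} (hz : z ∈ Sc e F) (h : Nr e z w) :
    (w.1 + w.2) % 2 = e := by
  rcases h with ⟨h, rfl⟩ | ⟨-, -, -, h⟩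
  · exact parity_of_mem hz h
  · exact h

/-- All the sites at a point are joined. -/
theorem nr_joined {F : Set Pt} {e : ℤ} {b z w w' : Pt} {R : ℤ} (hz : z ∈ Sc e F) (hz' : z ∈ BR b R)
    (h : Nr e z w) (h' : Nr e z w') : PConn F (bl b R) w w' := by
  have m := nr_mem hz' h
  have m' := nr_mem hz' h'
  by_cases hww : w = w'
  · subst hww; exact PConn.refl m
  rcases h with ⟨h, h1⟩ | ⟨h, h1, h2, h3⟩
  · rcases h' with ⟨-, h1'⟩ | ⟨h', -⟩
    · exact absurd (h1.trans h1'.symm) hww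
    · exact absurd h' h
  · rcases h' with ⟨h', -⟩ | ⟨-, h1', h2', h3'⟩
    · exact absurd h h'
    · have hF : (z.1 / 2, z.2 / 2) ∈ F := by
        rcases hz with hz | hz
        · exact hz.2
        · exact absurd h hz.1
      exact (PConn.refl m).tail (step_of_corners hF h1 h2 h1' h2' h3 h3' hww) m'

theorem nr_exists {e : ℤ} (he : e = 0 ∨ e = 1) {z : Pt} : ∃ w, Nr e z w := by
  by_cases hc : Ctr z
  · rcases Int.emod_two_eq (z.1 / 2 + z.2 / 2 + e) with h | h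
    · exact ⟨(z.1 / 2, z.2 / 2), Or.inr ⟨hc, Or.inl rfl, Or.inl rfl, by dsimp only; omega⟩⟩
    · exact ⟨(z.1 / 2 + 1, z.2 / 2), Or.inr ⟨hc, Or.inr rfl, Or.inl rfl, by dsimp only; omega⟩⟩
  · exact ⟨st z, Or.inl ⟨hc, rfl⟩⟩

/-- Adjacent points have a common site. -/
theorem nr_adj {F : Set Pt} {e : ℤ} {z z' : Pt} (hz : z ∈ Sc e F) (hz' : z' ∈ Sc e F)
    (h : Adj z z') : ∃ w, Nr e z w ∧ Nr e z' w := by
  by_cases hc : Ctr z
  · obtain ⟨h1, h2, h3⟩ := ctr_adj hc h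
    exact ⟨st z', Or.inr ⟨hc, h2, h3, parity_of_mem hz' h1⟩, Or.inl ⟨h1, rfl⟩⟩
  · by_cases hc' : Ctr z'
    · obtain ⟨-, h2, h3⟩ := ctr_adj hc' (adj_symm h)
      exact ⟨st z, Or.inl ⟨hc, rfl⟩, Or.inr ⟨hc', h2, h3, parity_of_mem hz hc⟩⟩
    · have := nctr_adj hc hc' h ((parity_of_mem hz hc).trans (parity_of_mem hz' hc').symm)
      exact ⟨st z, Or.inl ⟨hc, rfl⟩, Or.inl ⟨hc', this.symm⟩⟩

/-- Projection of a path of the scaled lattice. -/
theorem nr_path {F : Set Pt} {e : ℤ} {b z z' : Pt} {R : ℤ} (h : Conn (Sc e F ∩ BR b R) z z')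
    {w w' : Pt} (hw : Nr e z w) (hw' : Nr e z' w') : PConn F (bl b R) w w' := by
  revert w'
  refine Conn.ind (S := Sc e F ∩ BR b R) (fun z' => ∀ {w' : Pt}, Nr e z' w' → PConn F (bl b R) w w') ?_ ?_ h
  · intro w' hw'
    exact nr_joined h.left_mem.1 h.left_mem.2 hw hw'
  · intro u v hu huv hv ih w' hw'
    obtain ⟨x, hx1, hx2⟩ := nr_adj hu.right_mem.1 hv.1 huv
    exact (ih hx1).trans (nr_joined hv.1 hv.2 hx2 hw')

/-- The paths of the other colour which leave the inner box. -/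
theorem attach {F : Set Pt} {b : Pt} {r R e : ℤ} (he : e = 0 ∨ e = 1) {z : Pt}
    (hz : z ∈ comp (((Sc e F)ᶜ ∩ BR b R) ∪ BR b r) (BR b r)) :
    z ∈ BR b r ∨ (z ∈ (Sc e F)ᶜ ∩ BR b R ∧ ∃ y, (y.1 + y.2) % 2 = 1 - e ∧ nm (y - b) ≤ r + 1 ∧
      ∀ w, Nr (1 - e) z w → PConn Fᶜ (bl b R) y w) := by
  obtain ⟨x, hx, hxz⟩ := hz
  rw [Sc_compl' F he] at hxz ⊢
  refine Conn.ind (S := (Sc (1 - e) Fᶜ ∩ BR b R) ∪ BR b r)
    (fun z => z ∈ BR b r ∨ (z ∈ Sc (1 - e) Fᶜ ∩ BR b R ∧ ∃ y, (y.1 + y.2) % 2 = 1 - e ∧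
      nm (y - b) ≤ r + 1 ∧ ∀ w, Nr (1 - e) z w → PConn Fᶜ (bl b R) y w)) (Or.inl hx) ?_ hxz
  intro u v _ huv hv ih
  by_cases hvB : v ∈ BR b r
  · exact Or.inl hvB
  right
  rcases hv with hv | hv
  swap
  · exact absurd hv hvB
  refine ⟨hv, ?_⟩
  rcases ih with hu | ⟨hu, y, hy1, hy2, hy3⟩
  · obtain ⟨y, hy⟩ := nr_exists (e := 1 - e) (by omega) (z := v)
    refine ⟨y, nr_parity hv.1 hy, ?_, fun w hw => nr_joined hv.1 hv.2 hy hw⟩
    rw [mem_BR] at hu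
    rw [adj_iff] at huv
    have : y ∈ bl b (r + 1) := by
      rw [mem_bl]
      rcases hy with ⟨-, rfl⟩ | ⟨⟨h1, h2⟩, h3, h4, -⟩
      · simp only [st]
        omega
      · omega
    exact this
  · refine ⟨y, hy1, hy2, fun w hw => ?_⟩
    obtain ⟨x', h1, h2⟩ := nr_adj hu.1 hv.1 huv
    exact (hy3 x' h1).trans (nr_joined hv.1 hv.2 h2 hw)

/-- The annulus is not crossed by the other colour. -/
def NoX (F Rg : Set Pt) (e : ℤ) (b : Pt) (r R : ℤ) : Prop :=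
  ∀ y y' : Pt, (y.1 + y.2) % 2 = 1 - e → nm (y - b) = r → nm (y' - b) = R →
    ¬ PConn Fᶜ (Rg ∩ an b r R) y y'

/-- **Gluing in the plane.** -/
theorem plane_glue {F : Set Pt} {b : Pt} {r R e : ℤ} (he : e = 0 ∨ e = 1) (hr : 1 ≤ r)
    (hrR : r ≤ R) (H : NoX F Set.univ e b r R) {u v u' v' : Pt} (hu : (u.1 + u.2) % 2 = e)
    (hu' : (u'.1 + u'.2) % 2 = e) (h : PConn F (bl b R) u v) (h' : PConn F (bl b R) u' v')
    (h1 : nm (u - b) < r) (h1' : nm (u' - b) < r) (h2 : R ≤ nm (v - b)) (h2' : R ≤ nm (v' - b)) :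
    PConn F (bl b R) u u' := by
  set K := comp (((Sc e F)ᶜ ∩ BR b R) ∪ BR b (r - 1)) (BR b (r - 1)) with hK
  have hsub : BR b (r - 1) ⊆ BR b R := by
    intro z hz
    rw [mem_BR] at hz ⊢
    omega
  -- `K` is strictly inside
  have hin : ∀ x ∈ K, 2 * (b.1 - R) < x.1 ∧ x.1 < 2 * (b.1 + R) ∧ 2 * (b.2 - R) < x.2 ∧
      x.2 < 2 * (b.2 + R) := by
    intro x hx
    rcases attach he hx with hx | ⟨⟨hx1, hx2⟩, y, hy1, hy2, hy3⟩
    · rw [mem_BR] at hx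
      omega
    · by_contra hcon
      rw [mem_BR] at hx2
      have hc : ¬ Ctr x := by
        rintro ⟨h3, h4⟩
        omega
      have h5 := hy3 (st x) (Or.inl ⟨hc, rfl⟩)
      have h6 : R ≤ nm (st x - b) := by
        rw [le_nm]
        simp only [st, Prod.fst_sub, Prod.snd_sub]
        omega
      obtain ⟨z, z', k1, k2, k3, k4, -⟩ := crossing (r := r) (R := R) hrR h5 (by omega) h6
      refine H z z' ?_ k1 k2 (k4.mono subset_rfl ?_)
      · rw [← k3.parity, hy1]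
      · rintro w ⟨-, hw⟩
        exact ⟨Set.mem_univ _, hw⟩
  have hfin : K.Finite := (rect_finite _ _ _ _).subset
    (fun x hx => by have := hin x hx; exact ⟨this.1.le, this.2.1.le, this.2.2.1.le, this.2.2.2.le⟩)
  obtain ⟨C, -, -, c1, c2, c3, c4⟩ := exists_circuit (A := (Sc e F)ᶜ ∩ BR b R) (B := BR b (r - 1))
    (fun x hx y hy => conn_rect hx hy) ⟨(2 * b.1, 2 * b.2), by rw [mem_BR]; dsimp only; omega⟩ hfin
  have hC : C ⊆ Sc e F ∩ BR b R := by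
    intro x hx
    obtain ⟨k, hk, hkx⟩ := c2 x hx
    have h3 := hin k hk
    rw [adj_iff] at hkx
    have h4 : x ∈ BR b R := by
      rw [mem_BR]
      omega
    refine ⟨?_, h4⟩
    by_contra h5
    exact (c1 x hx).1 ⟨h5, h4⟩
  -- every path meets `C`
  have meet : ∀ u v : Pt, (u.1 + u.2) % 2 = e → PConn F (bl b R) u v → nm (u - b) < r →
      R ≤ nm (v - b) → ∃ w ∈ C, Conn (Sc e F ∩ BR b R) (2 * u.1, 2 * u.2) w := by
    intro u v hu h h1 h2
    rw [bl_eq_rect] at h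
    have k := lift h hu
    have k' : Conn ((Sc e F ∩ BR b R) ∩ {z | Conn (Sc e F ∩ BR b R) (2 * u.1, 2 * u.2) z})
        (2 * u.1, 2 * u.2) (2 * v.1, 2 * v.2) :=
      Conn.of_closed k (Conn.refl k.left_mem) fun x y hx _ hy hxy => hx.tail hxy hy
    obtain ⟨w, hw1, hw2⟩ := c4 (2 * u.1, 2 * u.2) ⟨(2 * u.1, 2 * u.2), by
        have h3 : nm (u - b) ≤ r - 1 := by omega
        rw [nm_le] at h3
        simp only [Prod.fst_sub, Prod.snd_sub] at h3
        rw [mem_BR]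
        dsimp only
        omega, Conn.refl (Or.inr (by
        have h3 : nm (u - b) ≤ r - 1 := by omega
        rw [nm_le] at h3
        simp only [Prod.fst_sub, Prod.snd_sub] at h3
        rw [mem_BR]
        dsimp only
        omega))⟩ (2 * v.1, 2 * v.2) (mem_ext_of_box hin (by
        rw [le_nm] at h2
        simp only [Prod.fst_sub, Prod.snd_sub] at h2
        omega)) _ k'
    exact ⟨w, hw2, hw1.2⟩
  obtain ⟨w, hw, hw'⟩ := meet u v hu h h1 h2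
  obtain ⟨x, hx, hx'⟩ := meet u' v' hu' h' h1' h2'
  have key : Conn (Sc e F ∩ BR b R) (2 * u.1, 2 * u.2) (2 * u'.1, 2 * u'.2) :=
    (hw'.trans ((c3 w hw x hx).mono hC)).trans hx'.symm
  have hn : ∀ u : Pt, Nr e (2 * u.1, 2 * u.2) u := by
    intro u
    refine Or.inl ⟨fun h => by have := h.1; dsimp only at this; omega, ?_⟩
    refine Prod.ext ?_ ?_ <;> simp only [st] <;> omega
  exact nr_path key (hn u) (hn u')

/-! ### The half plane -/

/-- The closed half plane above `b`. -/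
def hp (b : Pt) : Set Pt := {w | b.2 ≤ w.2}

/-- Folding of the sites. -/
def fs (b w : Pt) : Pt := (w.1, b.2 + |w.2 - b.2|)

/-- Folding of the squares. -/
def fq (b v : Pt) : Pt := if b.2 ≤ v.2 then v else (v.1, 2 * b.2 - 1 - v.2)

/-- The reflected set of squares. -/
def rf (b : Pt) (F : Set Pt) : Set Pt := {v | fq b v ∈ F}

theorem fs_of_mem {b w : Pt} (h : w ∈ hp b) : fs b w = w := by
  have h' : b.2 ≤ w.2 := h
  refine Prod.ext rfl ?_
  simp only [fs]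
  rw [abs_of_nonneg (by omega)]
  ring

theorem fs_mem (b w : Pt) : fs b w ∈ hp b := by
  have := abs_nonneg (w.2 - b.2)
  simp only [hp, fs, Set.mem_ofPred_eq]
  omega

theorem nm_fs (b w : Pt) : nm (fs b w - b) = nm (w - b) := by
  simp only [nm, fs, Prod.fst_sub, Prod.snd_sub, add_sub_cancel_left, abs_abs]

theorem fs_parity (b w : Pt) : ((fs b w).1 + (fs b w).2) % 2 = (w.1 + w.2) % 2 := by
  simp only [fs]
  rcases abs_choice (w.2 - b.2) with h | h <;> rw [h] <;> omega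

theorem fold_step {b u v : Pt} {F : Set Pt} (h : PStep (rf b F) u v) : PStep F (fs b u) (fs b v) := by
  obtain ⟨h1, h2, h3⟩ := h
  simp only [rf, Set.mem_ofPred_eq, fq] at h3
  split_ifs at h3 with hc
  · have e1 : |u.2 - b.2| = u.2 - b.2 := abs_of_nonneg (by omega)
    have e2 : |v.2 - b.2| = v.2 - b.2 := abs_of_nonneg (by omega)
    refine ⟨h1, by simp only [fs]; omega, ?_⟩
    simp only [fs, e1, e2, add_sub_cancel]
    exact h3
  · have e1 : |u.2 - b.2| = b.2 - u.2 := by rw [abs_of_nonpos (by omega)]; ring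
    have e2 : |v.2 - b.2| = b.2 - v.2 := by rw [abs_of_nonpos (by omega)]; ring
    refine ⟨h1, by simp only [fs]; omega, ?_⟩
    have e3 : min (fs b u).2 (fs b v).2 = 2 * b.2 - 1 - min u.2 v.2 := by
      simp only [fs, e1, e2]
      omega
    rw [e3]
    exact h3

theorem fold_path {b u v : Pt} {F Rg : Set Pt} (hR : ∀ w, w ∈ Rg → fs b w ∈ Rg)
    (h : PConn (rf b F) Rg u v) :
    PConn F (hp b ∩ Rg) (fs b u) (fs b v) := by
  obtain ⟨h0, h⟩ := h
  induction h with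
  | refl => exact PConn.refl ⟨fs_mem b u, hR u h0⟩
  | @tail x y _ hxy ih => exact ih.tail (fold_step hxy.1) ⟨fs_mem b y, hR y hxy.2⟩

theorem unfold_path {b u v : Pt} {F Rg : Set Pt} (h : PConn F (hp b ∩ Rg) u v) :
    PConn (rf b F) Rg u v := by
  obtain ⟨h0, h⟩ := h
  induction h with
  | refl => exact PConn.refl h0.2
  | @tail x y hx hxy ih =>
    have hxm : x ∈ hp b ∩ Rg := (show PConn F (hp b ∩ Rg) u x from ⟨h0, hx⟩).right_mem
    refine ih.tail ⟨hxy.1.1, hxy.1.2.1, ?_⟩ hxy.2.2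
    have h1 : b.2 ≤ x.2 := hxm.1
    have h2 : b.2 ≤ y.2 := hxy.2.1
    simp only [rf, Set.mem_ofPred_eq, fq]
    rw [if_pos (le_min h1 h2)]
    exact hxy.1.2.2

/-- **Gluing in the half plane.** -/
theorem half_glue {F : Set Pt} {b : Pt} {r R e : ℤ} (he : e = 0 ∨ e = 1) (hr : 1 ≤ r)
    (hrR : r ≤ R) (H : NoX F (hp b) e b r R) {u v u' v' : Pt} (hu : (u.1 + u.2) % 2 = e)
    (hu' : (u'.1 + u'.2) % 2 = e) (h : PConn F (hp b ∩ bl b R) u v)
    (h' : PConn F (hp b ∩ bl b R) u' v')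
    (h1 : nm (u - b) < r) (h1' : nm (u' - b) < r) (h2 : R ≤ nm (v - b)) (h2' : R ≤ nm (v' - b)) :
    PConn F (hp b ∩ bl b R) u u' := by
  have k := plane_glue (F := rf b F) he hr hrR ?_ hu hu' (unfold_path h) (unfold_path h') h1 h1' h2 h2'
  · have k' := fold_path (fun w hw => by
      simp only [bl, Set.mem_ofPred_eq, nm_fs] at hw ⊢; exact hw) k
    rwa [fs_of_mem h.left_mem.1, fs_of_mem h'.left_mem.1] at k'
  · intro y y' hy hy1 hy2 hc
    have hc' : PConn (rf b Fᶜ) (an b r R) y y' := hc.mono subset_rfl fun w hw => hw.2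
    have k := fold_path (fun w hw => by
      simp only [an, Set.mem_ofPred_eq, nm_fs] at hw ⊢; exact hw) hc'
    exact H (fs b y) (fs b y') (by rw [fs_parity, hy]) (by rw [nm_fs, hy1]) (by rw [nm_fs, hy2]) k

/-! ### Domains with a flat boundary near `b` -/

/-- `D` is the half plane in the box of radius `R` around `b`. -/
def Flat (D : Set Pt) (b : Pt) (R : ℤ) : Prop := ∀ v ∈ bl b R, (v ∈ D ↔ b.2 ≤ v.2)

theorem Flat.mono {D : Set Pt} {b : Pt} {R R' : ℤ} (h : Flat D b R) (hR : R' ≤ R) : Flat D b R' :=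
  fun v hv => h v (le_trans hv hR)

theorem sq_mem_bl {b x y : Pt} {R : ℤ} (hx : x ∈ bl b R)
    (hy : y ∈ bl b R) : (min x.1 y.1, min x.2 y.2) ∈ bl b R := by
  rw [mem_bl] at hx hy ⊢
  dsimp only
  omega

theorem flat_path {F D Rg : Set Pt} {b u v : Pt} {R : ℤ} (hD : Flat D b R) (hRg : Rg ⊆ bl b R)
    (hu : u ∈ hp b) (h : PConn (F ∩ D) Rg u v) : PConn F (hp b ∩ Rg) u v := by
  obtain ⟨h0, h⟩ := h
  induction h with
  | refl => exact PConn.refl ⟨hu, h0⟩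
  | @tail x y hx hxy ih =>
    have hxm := ih.right_mem
    have h1 := (hD _ (sq_mem_bl (hRg hxm.2) (hRg hxy.2))).1 hxy.1.2.2.2
    have h2 := hxy.1.2.1
    refine ih.tail ⟨hxy.1.1, hxy.1.2.1, hxy.1.2.2.1⟩ ⟨?_, hxy.2⟩
    simp only [hp, Set.mem_ofPred_eq]
    dsimp only at h1
    omega

theorem path_flat {F D Rg : Set Pt} {b u v : Pt} {R : ℤ} (hD : Flat D b R) (hRg : Rg ⊆ bl b R)
    (h : PConn F (hp b ∩ Rg) u v) : PConn (F ∩ D) Rg u v := by
  obtain ⟨h0, h⟩ := h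
  induction h with
  | refl => exact PConn.refl h0.2
  | @tail x y hx hxy ih =>
    have hxm : x ∈ hp b ∩ Rg := (show PConn F (hp b ∩ Rg) u x from ⟨h0, hx⟩).right_mem
    refine ih.tail ⟨hxy.1.1, hxy.1.2.1, hxy.1.2.2, ?_⟩ hxy.2.2
    refine (hD _ (sq_mem_bl (hRg hxm.2) (hRg hxy.2.2))).2 ?_
    exact le_min hxm.1 hxy.2.1

/-- **Gluing in a domain.** -/
theorem dom_glue {F D : Set Pt} {b : Pt} {r R e : ℤ} (he : e = 0 ∨ e = 1) (hr : 1 ≤ r)
    (hrR : r ≤ R) (hD : Flat D b R) (H : NoX F (hp b) e b r R) {u v u' v' : Pt}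
    (hu : (u.1 + u.2) % 2 = e) (hu' : (u'.1 + u'.2) % 2 = e)
    (h : PConn (F ∩ D) Set.univ u v) (h' : PConn (F ∩ D) Set.univ u' v')
    (hub : u ∈ hp b) (hub' : u' ∈ hp b)
    (h1 : nm (u - b) < r) (h1' : nm (u' - b) < r) (h2 : R ≤ nm (v - b)) (h2' : R ≤ nm (v' - b)) :
    PConn (F ∩ D) (bl b R) u u' := by
  obtain ⟨z, k1, k2, -⟩ := first_exit h (by omega) h2
  obtain ⟨z', k1', k2', -⟩ := first_exit h' (by omega) h2'
  rw [Set.univ_inter] at k2 k2'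
  exact path_flat hD subset_rfl (half_glue he hr hrR H hu hu' (flat_path hD subset_rfl hub k2)
    (flat_path hD subset_rfl hub' k2') h1 h1' k1.ge k1'.ge)

/-- Without the other colour in the annulus: a path from a source to distance `R` and a path from
distance less than `r` to a target are joined. -/
theorem dom_join {F D : Set Pt} {b : Pt} {r R e : ℤ} (he : e = 0 ∨ e = 1) (hr : 1 ≤ r)
    (hrR : r ≤ R) (hD : Flat D b R) (H : NoX F (hp b) e b r R) {u v u' v' : Pt}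
    (hu : (u.1 + u.2) % 2 = e) (hu' : (u'.1 + u'.2) % 2 = e)
    (h : PConn (F ∩ D) Set.univ u v) (h' : PConn (F ∩ D) Set.univ u' v')
    (hub : u ∈ hp b) (hub' : u' ∈ hp b)
    (h1 : nm (u - b) < r) (h1' : nm (u' - b) < r) (h2 : R ≤ nm (v - b)) (h2' : R ≤ nm (v' - b)) :
    PConn (F ∩ D) Set.univ u v' :=
  ((dom_glue he hr hrR hD H hu hu' h h' hub hub' h1 h1' h2 h2').mono subset_rfl
    (Set.subset_univ _)).trans h'

end Vale.Agent.P167.H632
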