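import Vale.Agent.P167.H632.Esc
import Vale.Agent.P167.H318.Defs
import Vale.Agent.P167.BR.Pot

/-!
# P167, arm toolkit: potentials in domains with connected complement

`ex_of_co`: a finite set of squares with connected complement is simply connected (`Ex`).
`strand_pot`: the potential of a complete strand; it takes two values on every connected part of `D`
which meets the strand.
-/

namespace Vale.Agent.P167.H632

open Vale.Agent.P145.FB Vale.Agent.P153 Vale.Agent.P153.Topo Vale.Agent.P167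
  Vale.Agent.P167.H871
open Relation

theorem dv_sum {ι : Type*} (s : Finset ι) (f : ι → Ed → ℤ) (v : Pt) :
    BR.dv (fun e => ∑ i ∈ s, f i e) v = ∑ i ∈ s, BR.dv (f i) v := by
  classical
  induction s using Finset.induction_on with
  | empty => simpa using BR.dv_zero v
  | @insert a s ha ih =>
    simp only [Finset.sum_insert ha]
    rw [BR.dv_add, ih]

theorem dv_mul (c : ℤ) (J : Ed → ℤ) (v : Pt) : BR.dv (fun e => c * J e) v = c * BR.dv J v := by
  simp only [BR.dv]
  ring

theorem adj_edge {a b : Pt} (h : H318.Adj a b) :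
    ∃ e : Ed, (tlv e = a ∧ hdv e = b) ∨ (tlv e = b ∧ hdv e = a) := by
  obtain ⟨a1, a2⟩ := a
  obtain ⟨b1, b2⟩ := b
  rcases h with ⟨h1, h2 | h2⟩ | ⟨h1, h2 | h2⟩ <;> dsimp only at h1 h2 <;> subst h1 <;> subst h2
  · refine ⟨Sum.inr (a1, a2), ?_⟩
    rcases sq_inr (a1, a2) with h | h <;> rw [h.1, h.2.1] <;> simp
  · refine ⟨Sum.inr (a1, a2 - 1), ?_⟩
    rcases sq_inr (a1, a2 - 1) with h | h <;> rw [h.1, h.2.1] <;> simp
  · refine ⟨Sum.inl (a1, a2), ?_⟩
    rcases sq_inl (a1, a2) with h | h <;> rw [h.1, h.2.1] <;> simp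
  · refine ⟨Sum.inl (a1 - 1, a2), ?_⟩
    rcases sq_inl (a1 - 1, a2) with h | h <;> rw [h.1, h.2.1] <;> simp

theorem flow_out {D : Finset Pt} {a b : Pt} (ha : a ∉ D)
    (h : ReflTransGen (fun a b => H318.Adj a b ∧ b ∉ D) a b) :
    ∃ J : Ed → ℤ, (∀ e, (hdv e ∈ D ∨ tlv e ∈ D) → J e = 0) ∧
      ∀ u, BR.dv J u = (if a = u then 1 else 0) - (if b = u then 1 else 0) := by
  have key : ReflTransGen (BR.Adj D) a b ∧ b ∉ D := by
    induction h with
    | refl => exact ⟨.refl, ha⟩
    | @tail b c _ hbc ih =>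
      refine ⟨ih.1.tail ?_, hbc.2⟩
      obtain ⟨e, he⟩ := adj_edge hbc.1
      refine ⟨e, ?_, he⟩
      rw [BR.mem_eds]
      rcases he with ⟨h1, h2⟩ | ⟨h1, h2⟩ <;> rw [h1, h2]
      · rintro (h | h)
        · exact hbc.2 h
        · exact ih.2 h
      · rintro (h | h)
        · exact ih.2 h
        · exact hbc.2 h
  obtain ⟨J, h1, h2⟩ := BR.flow_of_chain key.1
  exact ⟨J, fun e he => h1 e (BR.mem_eds.2 he), h2⟩

/-- **A finite set of squares with connected complement is simply connected.** -/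
theorem ex_of_co {D : Finset Pt} (hD : H318.CoConn D) : Ex (D : Set Pt) := by
  classical
  intro g hg
  set J0 : Ed → ℤ := fun e => ∑ e' ∈ BR.eds D, if e = e' then sg e' * g e' else 0 with hJ0
  have hJ1 : ∀ e, (hdv e ∈ D ∨ tlv e ∈ D) → J0 e = sg e * g e := by
    intro e he
    rw [hJ0]
    dsimp only
    rw [Finset.sum_ite_eq]
    rw [if_pos (BR.mem_eds.2 he)]
  have hdv0 : ∀ v, BR.dv J0 v = ∑ e' ∈ BR.eds D, ((if tlv e' = v then sg e' * g e' else 0) -
      (if hdv e' = v then sg e' * g e' else 0)) := by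
    intro v
    rw [hJ0, dv_sum]
    exact Finset.sum_congr rfl fun e' _ => BR.dv_single e' _ v
  -- no divergence at the squares of `D`
  have hD0 : ∀ v ∈ D, BR.dv J0 v = 0 := by
    rintro ⟨x, y⟩ hv
    have h1 := hJ1 (Sum.inl (x, y)) (by
      rcases sq_inl (x, y) with h' | h' <;> rw [h'.1, h'.2.1] <;> simp [hv])
    have h2 := hJ1 (Sum.inr (x, y)) (by
      rcases sq_inr (x, y) with h' | h' <;> rw [h'.1, h'.2.1] <;> simp [hv])
    have h3 := hJ1 (Sum.inl (x - 1, y)) (by
      rcases sq_inl (x - 1, y) with h' | h' <;> rw [h'.1, h'.2.1] <;> simp [hv])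
    have h4 := hJ1 (Sum.inr (x, y - 1)) (by
      rcases sq_inr (x, y - 1) with h' | h' <;> rw [h'.1, h'.2.1] <;> simp [hv])
    have h5 := hg (x, y) (Finset.mem_coe.2 hv)
    dsimp only at h5
    have hs : ∀ e : Ed, sg e * (sg e * g e) = g e := by
      intro e
      rcases e with v | v
      · rcases sq_inl v with h' | h' <;> rw [h'.2.2.1] <;> ring
      · rcases sq_inr v with h' | h' <;> rw [h'.2.2.1] <;> ring
    simp only [BR.dv]
    rw [h1, h2, h3, h4, hs, hs, hs, hs]
    linarith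
  -- the squares with divergence
  set V : Finset Pt := (BR.eds D).image tlv ∪ (BR.eds D).image hdv with hV
  have hV0 : ∀ v, v ∉ V → BR.dv J0 v = 0 := by
    intro v hv
    rw [hdv0]
    refine Finset.sum_eq_zero fun e' he' => ?_
    rw [if_neg, if_neg, sub_self]
    · intro h
      exact hv (Finset.mem_union_right _ (Finset.mem_image.2 ⟨e', he', h⟩))
    · intro h
      exact hv (Finset.mem_union_left _ (Finset.mem_image.2 ⟨e', he', h⟩))
  have hsum : ∑ v ∈ V, BR.dv J0 v = 0 := by
    simp only [hdv0]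
    rw [Finset.sum_comm]
    refine Finset.sum_eq_zero fun e' he' => ?_
    rw [Finset.sum_sub_distrib, Finset.sum_ite_eq, Finset.sum_ite_eq,
      if_pos (Finset.mem_union_left _ (Finset.mem_image.2 ⟨e', he', rfl⟩)),
      if_pos (Finset.mem_union_right _ (Finset.mem_image.2 ⟨e', he', rfl⟩)), sub_self]
  obtain ⟨v0, hv0⟩ := Infinite.exists_notMem_finset D
  have hK : ∀ v : Pt, ∃ J : Ed → ℤ, v ∉ D → (∀ e, (hdv e ∈ D ∨ tlv e ∈ D) → J e = 0) ∧
      ∀ u, BR.dv J u = (if v = u then 1 else 0) - (if v0 = u then 1 else 0) := by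
    intro v
    by_cases hv : v ∈ D
    · exact ⟨0, fun h => absurd hv h⟩
    · obtain ⟨J, h1, h2⟩ := flow_out hv (hD v v0 hv hv0)
      exact ⟨J, fun _ => ⟨h1, h2⟩⟩
  choose K hK using hK
  set W : Finset Pt := V.filter (· ∉ D) with hW
  have hWsum : ∑ v ∈ W, BR.dv J0 v = 0 := by
    rw [← hsum, hW, Finset.sum_filter]
    refine Finset.sum_congr rfl fun v _ => ?_
    by_cases h : v ∈ D
    · rw [if_neg (not_not.2 h), hD0 v h]
    · rw [if_pos h]
  have hdiv : ∀ u, BR.dv (fun e => J0 e - ∑ v ∈ W, BR.dv J0 v * K v e) u = 0 := by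
    intro u
    rw [BR.dv_sub, dv_sum W (fun v e => BR.dv J0 v * K v e) u]
    have h1 : ∀ v ∈ W, BR.dv (fun e => BR.dv J0 v * K v e) u =
        (if v = u then BR.dv J0 v else 0) - BR.dv J0 v * (if v0 = u then 1 else 0) := by
      intro v hv
      rw [dv_mul, ((hK v (Finset.mem_filter.1 hv).2).2 u), mul_sub]
      congr 1
      split_ifs <;> ring
    rw [Finset.sum_congr rfl h1, Finset.sum_sub_distrib, ← Finset.sum_mul, hWsum, zero_mul, sub_zero,
      Finset.sum_ite_eq']
    split_ifs with h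
    · rw [sub_self]
    · rw [sub_zero]
      by_cases hu : u ∈ V
      · refine hD0 u ?_
        by_contra hcon
        exact h (Finset.mem_filter.2 ⟨hu, hcon⟩)
      · exact hV0 u hu
  obtain ⟨w, hw⟩ := BR.exists_plane hdiv
  refine ⟨w, fun e he => ?_⟩
  have he' : hdv e ∈ D ∨ tlv e ∈ D := he
  rw [hw e, hJ1 e he', Finset.sum_eq_zero fun v hv => ?_, sub_zero]
  rw [(hK v (Finset.mem_filter.1 hv).2).1 e he', mul_zero]

/-! ### The complete strand -/

open Classical in
/-- **The potential of a complete strand.** -/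
theorem strand_pot {D : Set Pt} (hD : Ex D) {ω : Cfg} {e : Ed} (h0 : tlv e ∉ D) {n : ℕ}
    (h2 : hdv (pth ω e n) ∉ D) :
    ∃ u : Pt → ℤ, ∀ e', (hdv e' ∈ D ∨ tlv e' ∈ D) →
      u (ls e') = u (rs e') + if ∃ i ≤ n, pth ω e i = e' then 1 else 0 := by
  set A : Set Ed := {e' | ∃ i ≤ n, pth ω e i = e'} with hA
  obtain ⟨u, hu⟩ := hD (fun e' => if e' ∈ A then sg e' else 0) (by
    intro v hv
    have := H166.kirchhoff (ω := ω) (A := A) (v := v) (by
      intro e' he'
      constructor
      · rintro ⟨j, hj, rfl⟩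
        have hjk : j ≠ n := by
          rintro rfl
          exact h2 (he' ▸ hv)
        exact ⟨j + 1, by omega, pth_succ _ _ _⟩
      · rintro ⟨j, hj, h5⟩
        rcases Nat.eq_zero_or_pos j with rfl | hj0
        · exfalso
          apply h0
          rw [pth_zero] at h5
          rw [h5, tlv_nx, he']
          exact hv
        · obtain ⟨i, rfl⟩ : ∃ i, j = i + 1 := ⟨j - 1, by omega⟩
          rw [pth_succ] at h5
          exact ⟨i, by omega, (s_nx ω).1 h5⟩)
    convert this)
  refine ⟨u, fun e' he' => ?_⟩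
  rw [hu e' he']
  have hs : sg e' * sg e' = 1 := by
    rcases e' with v | v
    · rcases sq_inl v with h' | h' <;> rw [h'.2.2.1] <;> norm_num
    · rcases sq_inr v with h' | h' <;> rw [h'.2.2.1] <;> norm_num
  by_cases h : e' ∈ A
  · have h' : ∃ i ≤ n, pth ω e i = e' := h
    simp only [h, h', if_true, hs]
  · have h' : ¬ ∃ i ≤ n, pth ω e i = e' := h
    simp only [h, h', if_false, mul_zero]

end Vale.Agent.P167.H632
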