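import Vale.Agent.P167.H632.Esc2
import Vale.Agent.P167.H945.Seg

/-!
# P167, arm toolkit: visits of half boxes at a flat side

`Vis D b r ω e`: the run from `e` visits the half box of radius `r` before it leaves `D`;
`Ft D b ρ ω e`: it leaves `D` at distance at most `ρ` from `b`. A visit is followed by a foot with
positive probability, the foot is unique: the expected number of visited blocks is bounded.
-/

namespace Vale.Agent.P167.H632

open MeasureTheory Vale.Agent.P145.FB Vale.Agent.P153 Vale.Agent.P153.Topo Vale.Agent.P167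
  Vale.Agent.P167.H871
open Relation
open scoped ENNReal

/-- The run from `e` visits the half box before it leaves `D`. -/
def Vis (D : Set Pt) (b : Pt) (r : ℤ) (ω : Cfg) (e : Ed) : Prop :=
  ∃ k, (∀ i < k, hdv (pth ω e i) ∈ D) ∧ hdv (pth ω e k) ∈ hq b r

/-- The run from `e` leaves `D` near `b`. -/
def Ft (D : Set Pt) (b : Pt) (ρ : ℤ) (ω : Cfg) (e : Ed) : Prop :=
  ∃ k, (∀ i < k, hdv (pth ω e i) ∈ D) ∧ hdv (pth ω e k) ∉ D ∧ hdv (pth ω e k) ∈ bl b ρ

variable {B : Finset Pt} {bc : Cfg} {D : Set Pt} {b : Pt} {r R : ℤ} {e : Ed} {ω ω' : Cfg} {k : ℕ}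

theorem Past.vis (h : Past D b r ω e k) : Vis D b r ω e := ⟨k, h.mem, h.tip⟩

theorem vis_past (h0 : tlv e ∉ D) (h1 : hdv e ∉ hq b r) (h : Vis D b r ω e) :
    ∃ k, Past D b r ω e k := by
  classical
  obtain ⟨k, h2, h3⟩ := h
  have hex : ∃ k, hdv (pth ω e k) ∈ hq b r := ⟨k, h3⟩
  have hle : Nat.find hex ≤ k := Nat.find_min' hex h3
  refine ⟨Nat.find hex, h0, ?_, fun i hi => h2 i (by omega), fun i hi => Nat.find_min hex hi,
    Nat.find_spec hex⟩
  by_contra hcon
  have : Nat.find hex = 0 := by omega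
  have h4 := Nat.find_spec hex
  rw [this] at h4
  exact h1 h4

theorem Past.unique {k' : ℕ} (h : Past D b r ω e k) (h' : Past D b r ω e k') : k = k' := by
  rcases lt_trichotomy k k' with h1 | h1 | h1
  · exact absurd h.tip (h'.off k h1)
  · exact h1
  · exact absurd h'.tip (h.off k' h1)

/-- Steps change the distance by at most one. -/
theorem nm_pth (ω : Cfg) (e : Ed) (b : Pt) (i : ℕ) :
    nm (hdv (pth ω e (i + 1)) - b) ≤ nm (hdv (pth ω e i) - b) + 1 ∧
      nm (hdv (pth ω e i) - b) ≤ nm (hdv (pth ω e (i + 1)) - b) + 1 := by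
  rw [← tlv_pth ω e i]
  generalize pth ω e (i + 1) = g
  have k1 : nm (tlv g - b) ≤ nm (tlv g - b) := le_rfl
  have k2 : nm (hdv g - b) ≤ nm (hdv g - b) := le_rfl
  constructor
  · rw [nm_le] at k1 ⊢
    simp only [Prod.fst_sub, Prod.snd_sub] at *
    rcases g with v | v
    · rcases sq_inl v with h' | h' <;> rw [h'.2.1] at k1 ⊢ <;> rw [h'.1] <;> dsimp only at * <;> omega
    · rcases sq_inr v with h' | h' <;> rw [h'.2.1] at k1 ⊢ <;> rw [h'.1] <;> dsimp only at * <;> omega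
  · rw [nm_le] at k2 ⊢
    simp only [Prod.fst_sub, Prod.snd_sub] at *
    rcases g with v | v
    · rcases sq_inl v with h' | h' <;> rw [h'.1] at k2 ⊢ <;> rw [h'.2.1] <;> dsimp only at * <;> omega
    · rcases sq_inr v with h' | h' <;> rw [h'.1] at k2 ⊢ <;> rw [h'.2.1] <;> dsimp only at * <;> omega

/-- The orbit leaves a finite domain. -/
theorem exit_exists (hfin : D.Finite) (h0 : tlv e ∉ D) : ∃ m, hdv (pth ω e m) ∉ D := by
  classical
  by_contra hcon
  push Not at hcon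
  have h1 := (H166.touch_finite hfin.toFinset).subset
    (show Set.range (pth ω e) ⊆ {e : Ed | hdv e ∈ hfin.toFinset ∨ tlv e ∈ hfin.toFinset} by
      rintro _ ⟨m, rfl⟩
      exact Or.inl (hfin.mem_toFinset.2 (hcon m)))
  obtain ⟨i, -, j, -, hij, h2⟩ := Set.infinite_univ.exists_ne_map_eq_of_mapsTo
    (fun m _ => Set.mem_range_self m) h1
  rcases lt_or_gt_of_ne hij with h3 | h3
  · exact pth_inj h0 (n := j) (fun i _ => hcon i) le_rfl h3 h2
  · exact pth_inj h0 (n := i) (fun i _ => hcon i) le_rfl h3 h2.symm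

/-- Without escape there is a foot. -/
theorem Past.foot (hfin : D.Finite) (hr : hq b r ⊆ D) (h : Past D b r ω e k)
    (hne : ∀ m, k ≤ m → (∀ i ≤ m, hdv (pth ω e i) ∈ D) → nm (hdv (pth ω e m) - b) < R) :
    Ft D b R ω e := by
  classical
  have hex := exit_exists (ω := ω) hfin h.start
  have h1 := Nat.find_spec hex
  have h2 : ∀ i < Nat.find hex, hdv (pth ω e i) ∈ D := fun i hi => not_not.1 (Nat.find_min hex hi)
  have h3 : k < Nat.find hex := by
    by_contra hcon
    rcases lt_or_eq_of_le (not_lt.1 hcon) with h4 | h4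
    · exact h1 (h.mem _ h4)
    · rw [h4] at h1
      exact h1 (hr h.tip)
  obtain ⟨m, hm⟩ : ∃ m, Nat.find hex = m + 1 := ⟨Nat.find hex - 1, by omega⟩
  rw [hm] at h1 h2 h3
  refine ⟨m + 1, h2, h1, ?_⟩
  have h4 := hne m (by omega) (fun i hi => h2 i (by omega))
  have h5 := (nm_pth ω e b m).1
  show nm (_ - b) ≤ R
  omega

/-- The foot is unique. -/
theorem foot_unique {k k' : ℕ} (h : ∀ i < k, hdv (pth ω e i) ∈ D) (h1 : hdv (pth ω e k) ∉ D)
    (h' : ∀ i < k', hdv (pth ω e i) ∈ D) (h1' : hdv (pth ω e k') ∉ D) : k = k' := by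
  rcases lt_trichotomy k k' with h2 | h2 | h2
  · exact absurd (h' _ h2) h1
  · exact h2
  · exact absurd (h _ h2) h1'

/-- Events of finitely many squares are measurable. -/
theorem meas_ov (P : Cfg → Prop) : MeasurableSet {w : Cfg | P (H192.ov B bc w)} := by
  have : H558.Past (fun _ : Cfg => B) (fun w => P (H192.ov B bc w)) := by
    intro w w' h
    have : H192.ov B bc w' = H192.ov B bc w := by
      funext q
      by_cases hq : q ∈ B
      · rw [H192.ov_mem hq, H192.ov_mem hq, h q hq]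
      · rw [H192.ov_notMem hq, H192.ov_notMem hq]
    show P _ = P _
    rw [this]
  exact this.measurableSet {p | p}

/-- **(V)** A visit is followed by a foot nearby with positive probability. -/
theorem vis_ft : ∃ c0 : ℝ, 0 < c0 ∧ c0 ≤ 1 ∧ ∀ (B : Finset Pt) (bc : Cfg) (D : Set Pt) (b : Pt)
    (r : ℤ) (e : Ed), Ex D → D.Finite → 1 ≤ r → Flat D b (200 * r) → hq b (200 * r) ⊆ (B : Set Pt) →
    tlv e ∉ D → hdv e ∉ hq b r →
    c0 * μ.real {w | Vis D b r (H192.ov B bc w) e} ≤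
      μ.real {w | Vis D b r (H192.ov B bc w) e ∧ Ft D b (200 * r) (H192.ov B bc w) e} := by
  obtain ⟨c0, hc, hc1, h⟩ := noesc_ge
  have hp := fair_mu.prob
  refine ⟨c0, hc, hc1, fun B bc D b r e hD hfin hr hf hB h0 h1 => ?_⟩
  have e1 : {w | Vis D b r (H192.ov B bc w) e} = ⋃ k, {w | PE B bc D b r e k w} := by
    ext w
    simp only [Set.mem_iUnion, Set.mem_ofPred_eq]
    exact ⟨fun h2 => vis_past h0 h1 h2, fun ⟨k, h2⟩ => h2.vis⟩
  have hdisj : Pairwise (Function.onFun Disjoint fun k => {w | PE B bc D b r e k w}) := by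
    intro k k' hk
    rw [Function.onFun, Set.disjoint_left]
    intro w h2 h3
    exact hk (Past.unique h2 h3)
  have h2 : ENNReal.ofReal c0 * μ {w | Vis D b r (H192.ov B bc w) e} ≤
      μ {w | Vis D b r (H192.ov B bc w) e ∧ Ft D b (200 * r) (H192.ov B bc w) e} := by
    rw [e1, measure_iUnion hdisj (fun k => meas_PE k), ← ENNReal.tsum_mul_left]
    have h3 : ∀ k, ENNReal.ofReal c0 * μ {w | PE B bc D b r e k w} ≤
        μ ({w | PE B bc D b r e k w} ∩ NE B bc D b (200 * r) e k) := by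
      intro k
      have := ENNReal.ofReal_le_ofReal (h B bc D b r (200 * r) e k hD hr le_rfl hf hB)
      rwa [ENNReal.ofReal_mul hc.le, ofReal_measureReal, ofReal_measureReal] at this
    refine (ENNReal.tsum_le_tsum h3).trans ?_
    rw [← measure_iUnion (fun i j hij => (hdisj hij).mono Set.inter_subset_left
      Set.inter_subset_left) (fun k => (meas_PE k).inter (meas_NE k))]
    refine measure_mono (Set.iUnion_subset fun k => ?_)
    rintro w ⟨h4, h5⟩
    exact ⟨h4.vis, Past.foot hfin (hq_sub hf (by omega)) h4 h5⟩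
  have h3 := ENNReal.toReal_mono (measure_ne_top _ _) h2
  rw [ENNReal.toReal_mul, ENNReal.toReal_ofReal hc.le] at h3
  exact h3

open Classical in
theorem sum_le_lint {ι Ω : Type*} [MeasurableSpace Ω] {P : Measure Ω}
    (J : Finset ι) (A : ι → Set Ω) (hA : ∀ j ∈ J, MeasurableSet (A j)) (f : Ω → ℝ≥0∞)
    (h : ∀ w, ∀ T ⊆ J, (∀ j ∈ T, w ∈ A j) → (T.card : ℝ≥0∞) ≤ f w) :
    ∑ j ∈ J, P (A j) ≤ ∫⁻ w, f w ∂P := by
  calc ∑ j ∈ J, P (A j) = ∑ j ∈ J, ∫⁻ w, (A j).indicator 1 w ∂P :=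
        Finset.sum_congr rfl fun j hj => (lintegral_indicator_one (hA j hj)).symm
    _ = ∫⁻ w, ∑ j ∈ J, (A j).indicator 1 w ∂P := by
        rw [lintegral_finsetSum' _ fun j hj => (measurable_one.indicator (hA j hj)).aemeasurable]
    _ ≤ ∫⁻ w, f w ∂P := by
        refine lintegral_mono fun w => ?_
        calc ∑ j ∈ J, (A j).indicator (1 : Ω → ℝ≥0∞) w
            = ∑ j ∈ J, if w ∈ A j then (1 : ℝ≥0∞) else 0 := by
              refine Finset.sum_congr rfl fun j _ => ?_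
              by_cases hj : w ∈ A j <;> simp [hj]
          _ = ((J.filter fun j => w ∈ A j).card : ℝ≥0∞) := by
              rw [Finset.sum_ite, Finset.sum_const_zero, add_zero, Finset.sum_const]
              simp
          _ ≤ f w := h w _ (Finset.filter_subset _ _) fun j hj => (Finset.mem_filter.1 hj).2

open Classical in
theorem sum_le_sum' {ι ι' Ω : Type*} [MeasurableSpace Ω] {P : Measure Ω} [IsFiniteMeasure P]
    (J : Finset ι) (A : ι → Set Ω) (hA : ∀ j ∈ J, MeasurableSet (A j))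
    (J' : Finset ι') (A' : ι' → Set Ω) (hA' : ∀ j ∈ J', MeasurableSet (A' j))
    (h : ∀ w, ∀ T ⊆ J, (∀ j ∈ T, w ∈ A j) →
      ∃ T' ⊆ J', (∀ j ∈ T', w ∈ A' j) ∧ T.card ≤ T'.card) :
    ∑ j ∈ J, P.real (A j) ≤ ∑ j ∈ J', P.real (A' j) := by
  have h1 : ∑ j ∈ J, P (A j) ≤ ∑ j ∈ J', P (A' j) := by
    refine (sum_le_lint J A hA (fun w => ∑ j ∈ J', (A' j).indicator 1 w)
      fun w T hT hTw => ?_).trans ?_
    · obtain ⟨T', hT', hw', hc⟩ := h w T hT hTw
      calc (T.card : ℝ≥0∞) ≤ (T'.card : ℝ≥0∞) := by exact_mod_cast hc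
        _ = ∑ j ∈ T', (A' j).indicator (1 : Ω → ℝ≥0∞) w := by
            rw [Finset.sum_congr rfl (fun j hj => Set.indicator_of_mem (hw' j hj) _)]
            simp
        _ ≤ ∑ j ∈ J', (A' j).indicator (1 : Ω → ℝ≥0∞) w :=
            Finset.sum_le_sum_of_subset hT'
    · rw [lintegral_finsetSum' _ fun j hj => (measurable_one.indicator (hA' j hj)).aemeasurable]
      exact Finset.sum_le_sum fun j hj => (lintegral_indicator_one (hA' j hj)).le
  have h2 := ENNReal.toReal_mono (ENNReal.sum_ne_top.2 fun j _ => measure_ne_top _ _) h1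
  rw [ENNReal.toReal_sum (fun j _ => measure_ne_top _ _),
    ENNReal.toReal_sum (fun j _ => measure_ne_top _ _)] at h2
  exact h2

theorem sum_meas_le {ι Ω : Type*} [MeasurableSpace Ω] {P : Measure Ω} [IsFiniteMeasure P]
    (J : Finset ι) (A : ι → Set Ω) (hA : ∀ j ∈ J, MeasurableSet (A j)) {S : Set Ω}
    (hAS : ∀ j ∈ J, A j ⊆ S) (M : ℕ) (h : ∀ w, ∀ T ⊆ J, (∀ j ∈ T, w ∈ A j) → T.card ≤ M) :
    ∑ j ∈ J, P.real (A j) ≤ M * P.real S := by
  have h1 : ∑ j ∈ J, P (A j) ≤ (M : ℝ≥0∞) * P S := by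
    refine (sum_le_lint J A hA (fun w => (M : ℝ≥0∞) * (toMeasurable P S).indicator 1 w)
      fun w T hT hTw => ?_).trans ?_
    · rcases T.eq_empty_or_nonempty with h0 | ⟨j, hj⟩
      · rw [h0]; simp
      · rw [Set.indicator_of_mem (subset_toMeasurable P S (hAS j (hT hj) (hTw j hj)))]
        simp only [Pi.one_apply, mul_one]
        exact_mod_cast h w T hT hTw
    · rw [lintegral_const_mul _ (measurable_one.indicator (measurableSet_toMeasurable _ _)),
        lintegral_indicator_one (measurableSet_toMeasurable _ _), measure_toMeasurable]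
  have h2 := ENNReal.toReal_mono (by finiteness) h1
  rw [ENNReal.toReal_mul, ENNReal.toReal_sum (fun j _ => measure_ne_top _ _)] at h2
  simpa [Measure.real] using h2

/-- **(V) + (D)** The expected number of visited blocks: every square is near at most `M` blocks. -/
theorem vis_sum : ∃ C : ℝ, 0 < C ∧ ∀ (B : Finset Pt) (bc : Cfg) (D : Set Pt) (e : Ed) {ι : Type}
    (J : Finset ι) (x : ι → Pt) (ρ : ι → ℤ) (M : ℕ) (S : Set Cfg), Ex D → D.Finite →
    tlv e ∉ D →
    (∀ j ∈ J, 1 ≤ ρ j ∧ Flat D (x j) (200 * ρ j) ∧ hq (x j) (200 * ρ j) ⊆ (B : Set Pt) ∧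
      hdv e ∉ hq (x j) (ρ j)) →
    (∀ v : Pt, ∀ T ⊆ J, (∀ j ∈ T, v ∈ bl (x j) (200 * ρ j)) → T.card ≤ M) →
    (∀ j ∈ J, {w | Vis D (x j) (ρ j) (H192.ov B bc w) e} ⊆ S) →
    ∑ j ∈ J, μ.real {w | Vis D (x j) (ρ j) (H192.ov B bc w) e} ≤ C * M * μ.real S := by
  obtain ⟨c0, hc, hc1, h⟩ := vis_ft
  have hp := fair_mu.prob
  refine ⟨c0⁻¹, by positivity, fun B bc D e ι J x ρ M S hD hfin h0 hJ hM hS => ?_⟩
  have h1 : ∑ j ∈ J, μ.real {w | Vis D (x j) (ρ j) (H192.ov B bc w) e ∧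
      Ft D (x j) (200 * ρ j) (H192.ov B bc w) e} ≤ M * μ.real S := by
    refine sum_meas_le J _ (fun j _ => meas_ov (fun ω => Vis D (x j) (ρ j) ω e ∧
      Ft D (x j) (200 * ρ j) ω e)) (fun j hj w hw => hS j hj hw.1) M fun w T hT hTw => ?_
    by_cases hne : ∃ m, (∀ i < m, hdv (pth (H192.ov B bc w) e i) ∈ D) ∧
        hdv (pth (H192.ov B bc w) e m) ∉ D
    · obtain ⟨m, hm1, hm2⟩ := hne
      refine hM (hdv (pth (H192.ov B bc w) e m)) T hT fun j hj => ?_
      obtain ⟨-, k, hk1, hk2, hk3⟩ := hTw j hj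
      rw [← foot_unique hk1 hk2 hm1 hm2]
      exact hk3
    · have : T = ∅ := by
        refine Finset.eq_empty_of_forall_notMem fun j hj => ?_
        obtain ⟨-, k, hk1, hk2, -⟩ := hTw j hj
        exact hne ⟨k, hk1, hk2⟩
      rw [this]
      simp
  calc ∑ j ∈ J, μ.real {w | Vis D (x j) (ρ j) (H192.ov B bc w) e}
      ≤ ∑ j ∈ J, c0⁻¹ * μ.real {w | Vis D (x j) (ρ j) (H192.ov B bc w) e ∧
        Ft D (x j) (200 * ρ j) (H192.ov B bc w) e} := by
        refine Finset.sum_le_sum fun j hj => ?_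
        obtain ⟨a1, a2, a3, a4⟩ := hJ j hj
        rw [← div_eq_inv_mul, le_div_iff₀ hc, mul_comm]
        exact h B bc D (x j) (ρ j) e hD hfin a1 a2 a3 h0 a4
    _ = c0⁻¹ * ∑ j ∈ J, μ.real {w | Vis D (x j) (ρ j) (H192.ov B bc w) e ∧
        Ft D (x j) (200 * ρ j) (H192.ov B bc w) e} := by rw [Finset.mul_sum]
    _ ≤ c0⁻¹ * (M * μ.real S) := by gcongr
    _ = _ := by ring

end Vale.Agent.P167.H632
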