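import Vale.Agent.P167.H632.Vis

/-!
# P167, arm toolkit: the second moment of the number of visited blocks
-/

namespace Vale.Agent.P167.H632

open MeasureTheory Vale.Agent.P145.FB Vale.Agent.P153 Vale.Agent.P153.Topo Vale.Agent.P167
  Vale.Agent.P167.H871
open Relation
open scoped ENNReal

variable {B : Finset Pt} {bc : Cfg} {D : Set Pt} {b : Pt} {r R : ℤ} {e : Ed}

/-- The strand visits the half box at a positive time. -/
def PV (B : Finset Pt) (bc : Cfg) (D : Set Pt) (b : Pt) (r : ℤ) (e : Ed) : Set Cfg :=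
  {w | ∃ k, PE B bc D b r e k w}

/-- The strand leaves `D` near `b`. -/
def FtS (B : Finset Pt) (bc : Cfg) (D : Set Pt) (b : Pt) (R : ℤ) (e : Ed) : Set Cfg :=
  {w | Ft D b R (H192.ov B bc w) e}

theorem meas_PV : MeasurableSet (PV B bc D b r e) :=
  meas_ov (B := B) (bc := bc) (fun ω => ∃ k, Past D b r ω e k)

theorem meas_FtS : MeasurableSet (FtS B bc D b R e) :=
  meas_ov (B := B) (bc := bc) (fun ω => Ft D b R ω e)

theorem glue_NEU {w : Cfg} {k : ℕ} (hD : Ex D) (hrR : r + 3 ≤ R) (hf : FlatU D b R)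
    (hB : hq b R ⊆ (B : Set Pt)) (hw : PE B bc D b r e k w) :
    NX b (r + 1) (R - 1) ⊆ {w' | H558.glue (↑(H192.rev B bc e k w)) w w' ∈ NE B bc D b R e k} := by
  intro w' h0
  by_contra hw'
  have h0' : w' ∉ HX true b (r + 1) (R - 1) ∪ HX false b (r + 1) (R - 1) := by
    rw [← NX_compl]
    exact fun h => h h0
  apply h0'
  have hP : PE B bc D b r e k (H558.glue (↑(H192.rev B bc e k w)) w w') := by
    have := (past_PE (B := B) (bc := bc) (D := D) (b := b) (r := r) (e := e) k).glue w w'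
    rw [this]
    exact hw
  simp only [NE, Set.mem_ofPred_eq] at hw'
  push Not at hw'
  obtain ⟨m, h1, h2, h3⟩ := hw'
  have hsub : hq b (R - 1) ⊆ (B : Set Pt) := by
    refine subset_trans ?_ hB
    rintro v ⟨hv1, hv2⟩
    refine ⟨hv1, ?_⟩
    have : nm (v - b) ≤ R - 1 := hv2
    show nm (v - b) ≤ R
    omega
  rcases Past.escapeU hD hrR hf hP h1 h2 h3 with h | h
  · exact Or.inl (hx_of_fx hsub h)
  · exact Or.inr (hx_of_fx hsub h)

/-- **No escape with positive probability, given the past and any event of the past.** -/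
theorem noesc_geY : ∃ c0 : ℝ, 0 < c0 ∧ c0 ≤ 1 ∧ ∀ (B : Finset Pt) (bc : Cfg) (D : Set Pt) (b : Pt)
    (r R : ℤ) (e : Ed) (k : ℕ) (Y : Cfg → Prop), Ex D → 0 ≤ r → 81 * (r + 1) ≤ R → FlatU D b R →
    hq b R ⊆ (B : Set Pt) → H558.Past (H192.rev B bc e k) Y →
    ENNReal.ofReal c0 * μ {w | PE B bc D b r e k w ∧ Y w} ≤
      μ ({w | PE B bc D b r e k w ∧ Y w} ∩ NE B bc D b R e k) := by
  obtain ⟨c0, hc, hc1, h⟩ := nx_ge
  have hprob := fair_mu.prob
  refine ⟨c0, hc, hc1, fun B bc D b r R e k Y hD hr hR hf hB hY => ?_⟩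
  have hPY : H558.Past (H192.rev B bc e k) (fun w => PE B bc D b r e k w ∧ Y w) :=
    ((past_PE (D := D) (b := b) (r := r) k).pair hY).comp fun q => q.1 ∧ q.2
  have h1 := H558.le_stop fair (H192.stop_rev (D := B) (bc := bc) (e := e) k) hPY
    (meas_NE (D := D) (b := b) (R := R) k)
    (q := ENNReal.ofReal c0) (fun w hw => by
      refine le_trans ?_ (measure_mono (glue_NEU hD (by omega) hf hB hw.1))
      rw [← mu_eq, ← ofReal_measureReal]
      exact ENNReal.ofReal_le_ofReal (h b (r + 1) (R - 1) (by omega) (by omega)))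
  rw [← mu_eq] at h1
  exact h1

/-- A visit after an event of the past is followed by a foot. -/
theorem vis_ftY : ∃ c0 : ℝ, 0 < c0 ∧ c0 ≤ 1 ∧ ∀ (B : Finset Pt) (bc : Cfg) (D : Set Pt) (b : Pt)
    (r R : ℤ) (e : Ed) (Y : ℕ → Cfg → Prop), Ex D → D.Finite → 0 ≤ r → 81 * (r + 1) ≤ R →
    FlatU D b R → hq b R ⊆ (B : Set Pt) → (∀ k, H558.Past (H192.rev B bc e k) (Y k)) →
    c0 * μ.real {w | ∃ k, PE B bc D b r e k w ∧ Y k w} ≤
      μ.real ({w | ∃ k, PE B bc D b r e k w ∧ Y k w} ∩ FtS B bc D b R e) := by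
  obtain ⟨c0, hc, hc1, h⟩ := noesc_geY
  have hprob := fair_mu.prob
  refine ⟨c0, hc, hc1, fun B bc D b r R e Y hD hfin hr hR hf hB hY => ?_⟩
  have e1 : {w | ∃ k, PE B bc D b r e k w ∧ Y k w} = ⋃ k, {w | PE B bc D b r e k w ∧ Y k w} := by
    ext w
    simp only [Set.mem_iUnion, Set.mem_ofPred_eq]
  have hm : ∀ k, MeasurableSet {w | PE B bc D b r e k w ∧ Y k w} := fun k =>
    (((past_PE (D := D) (b := b) (r := r) k).pair (hY k)).comp fun q => q.1 ∧ q.2).measurableSet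
      {p | p}
  have hdisj : Pairwise (Function.onFun Disjoint fun k => {w | PE B bc D b r e k w ∧ Y k w}) := by
    intro k k' hk
    rw [Function.onFun, Set.disjoint_left]
    intro w h2 h3
    exact hk (Past.unique h2.1 h3.1)
  have h2 : ENNReal.ofReal c0 * μ {w | ∃ k, PE B bc D b r e k w ∧ Y k w} ≤
      μ ({w | ∃ k, PE B bc D b r e k w ∧ Y k w} ∩ FtS B bc D b R e) := by
    rw [e1, measure_iUnion hdisj hm, ← ENNReal.tsum_mul_left]
    refine (ENNReal.tsum_le_tsum fun k => h B bc D b r R e k (Y k) hD hr hR hf hB (hY k)).trans ?_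
    rw [← measure_iUnion (fun i j hij => (hdisj hij).mono Set.inter_subset_left
      Set.inter_subset_left) (fun k => (hm k).inter (meas_NE k))]
    refine measure_mono (Set.iUnion_subset fun k => ?_)
    rintro w ⟨h4, h5⟩
    refine ⟨Set.mem_iUnion.2 ⟨k, h4⟩, Past.foot hfin ?_ h4.1 h5⟩
    have h6 : hq b r ⊆ hq b R := by
      rintro v ⟨hv1, hv2⟩
      have hv3 : nm (v - b) ≤ r := hv2
      refine ⟨hv1, ?_⟩
      show nm (v - b) ≤ R
      omega
    exact h6.trans hf.sub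
  have h3 := ENNReal.toReal_mono (measure_ne_top _ _) h2
  rw [ENNReal.toReal_mul, ENNReal.toReal_ofReal hc.le] at h3
  exact h3

theorem past_Y {B : Finset Pt} {bc : Cfg} {D : Set Pt} {b : Pt} {r : ℤ} {e : Ed} (k : ℕ) :
    H558.Past (H192.rev B bc e k) (fun w => ∃ k' ≤ k, PE B bc D b r e k' w) := by
  intro w w' h
  refine propext (exists_congr fun k' => and_congr_right fun hk' => ?_)
  have h1 : H558.Past (H192.rev B bc e k) (PE B bc D b r e k') :=
    (past_PE (D := D) (b := b) (r := r) k').mono fun w => H192.rev_mono w hk'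
  rw [h1 w w' h]

/-- **The second moment of the number of visited blocks.** -/
theorem vis2 : ∃ C : ℝ, 0 < C ∧ ∀ (B : Finset Pt) (bc : Cfg) (D : Set Pt) (e : Ed) {ι : Type}
    (J : Finset ι) (x : ι → Pt) (ρ : ι → ℤ) (M : ℕ), Ex D → D.Finite →
    (∀ j ∈ J, 0 ≤ ρ j ∧ FlatU D (x j) (81 * (ρ j + 1)) ∧ hq (x j) (81 * (ρ j + 1)) ⊆ (B : Set Pt)) →
    (∀ v : Pt, ∀ T ⊆ J, (∀ j ∈ T, v ∈ bl (x j) (81 * (ρ j + 1))) → T.card ≤ M) →
    ∑ i ∈ J, ∑ j ∈ J, μ.real (PV B bc D (x i) (ρ i) e ∩ PV B bc D (x j) (ρ j) e) ≤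
      C * (M : ℝ) ^ 2 := by
  obtain ⟨c0, hc, hc1, h⟩ := vis_ftY
  have hprob := fair_mu.prob
  refine ⟨2 * (c0⁻¹ * c0⁻¹), by positivity, fun B bc D e ι J x ρ M hD hfin hJ hM => ?_⟩
  set P : ι → Set Cfg := fun j => PV B bc D (x j) (ρ j) e with hP
  set F : ι → Set Cfg := fun j => FtS B bc D (x j) (81 * (ρ j + 1)) e with hF
  set A : ι → ι → Set Cfg := fun i j => {w | ∃ k, PE B bc D (x j) (ρ j) e k w ∧
    ∃ k' ≤ k, PE B bc D (x i) (ρ i) e k' w} with hA
  -- the feet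
  have foot : ∀ (S : Set Cfg), MeasurableSet S → ∑ j ∈ J, μ.real (S ∩ F j) ≤ M * μ.real S := by
    intro S hS
    refine sum_meas_le J _ (fun j _ => hS.inter meas_FtS) (fun j _ => Set.inter_subset_left) M
      fun w T hT hTw => ?_
    by_cases hne : ∃ m, (∀ i < m, hdv (pth (H192.ov B bc w) e i) ∈ D) ∧
        hdv (pth (H192.ov B bc w) e m) ∉ D
    · obtain ⟨m, hm1, hm2⟩ := hne
      refine hM (hdv (pth (H192.ov B bc w) e m)) T hT fun j hj => ?_
      obtain ⟨-, k, hk1, hk2, hk3⟩ := hTw j hj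
      rw [← foot_unique hk1 hk2 hm1 hm2]
      exact hk3
    · have : T = ∅ := by
        refine Finset.eq_empty_of_forall_notMem fun j hj => ?_
        obtain ⟨-, k, hk1, hk2, -⟩ := hTw j hj
        exact hne ⟨k, hk1, hk2⟩
      rw [this]
      simp
  have hA1 : ∀ i ∈ J, ∀ j ∈ J, μ.real (A i j) ≤ c0⁻¹ * μ.real (P i ∩ F j) := by
    intro i hi j hj
    obtain ⟨a1, a2, a3⟩ := hJ j hj
    rw [← div_eq_inv_mul, le_div_iff₀ hc, mul_comm]
    refine (h B bc D (x j) (ρ j) (81 * (ρ j + 1)) e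
      (fun k w => ∃ k' ≤ k, PE B bc D (x i) (ρ i) e k' w) hD hfin a1 le_rfl a2 a3
      (fun k => past_Y k)).trans (measureReal_mono ?_)
    rintro w ⟨⟨k, -, k', -, h1⟩, h2⟩
    exact ⟨⟨k', h1⟩, h2⟩
  have hP1 : ∀ i ∈ J, μ.real (P i) ≤ c0⁻¹ * μ.real (Set.univ ∩ F i) := by
    intro i hi
    obtain ⟨a1, a2, a3⟩ := hJ i hi
    rw [← div_eq_inv_mul, le_div_iff₀ hc, mul_comm]
    have h1 := h B bc D (x i) (ρ i) (81 * (ρ i + 1)) e (fun k w => True) hD hfin a1 le_rfl a2 a3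
      (fun k => H558.Past.const True)
    have e1 : {w | ∃ k, PE B bc D (x i) (ρ i) e k w ∧ True} = P i := by
      ext w
      simp only [and_true, Set.mem_ofPred_eq, hP, PV]
    rw [e1] at h1
    exact h1.trans (measureReal_mono (Set.inter_subset_inter_left _ (Set.subset_univ _)))
  have hAs : ∑ i ∈ J, ∑ j ∈ J, μ.real (A i j) ≤ c0⁻¹ * c0⁻¹ * (M : ℝ) ^ 2 := by
    calc ∑ i ∈ J, ∑ j ∈ J, μ.real (A i j)
        ≤ ∑ i ∈ J, ∑ j ∈ J, c0⁻¹ * μ.real (P i ∩ F j) :=
          Finset.sum_le_sum fun i hi => Finset.sum_le_sum fun j hj => hA1 i hi j hj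
      _ = ∑ i ∈ J, c0⁻¹ * ∑ j ∈ J, μ.real (P i ∩ F j) := by simp only [Finset.mul_sum]
      _ ≤ ∑ i ∈ J, c0⁻¹ * (M * μ.real (P i)) := by
          refine Finset.sum_le_sum fun i _ => ?_
          gcongr
          exact foot (P i) meas_PV
      _ ≤ ∑ i ∈ J, c0⁻¹ * (M * (c0⁻¹ * μ.real (Set.univ ∩ F i))) := by
          refine Finset.sum_le_sum fun i hi => ?_
          gcongr
          exact hP1 i hi
      _ = c0⁻¹ * c0⁻¹ * M * ∑ i ∈ J, μ.real (Set.univ ∩ F i) := by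
          rw [Finset.mul_sum]
          exact Finset.sum_congr rfl fun _ _ => by ring
      _ ≤ c0⁻¹ * c0⁻¹ * M * (M * μ.real (Set.univ : Set Cfg)) := by
          gcongr
          exact foot _ MeasurableSet.univ
      _ = _ := by
          rw [probReal_univ]
          ring
  calc ∑ i ∈ J, ∑ j ∈ J, μ.real (P i ∩ P j)
      ≤ ∑ i ∈ J, ∑ j ∈ J, (μ.real (A i j) + μ.real (A j i)) := by
        refine Finset.sum_le_sum fun i _ => Finset.sum_le_sum fun j _ => ?_
        have h1 : P i ∩ P j ⊆ A i j ∪ A j i := by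
          rintro w ⟨⟨k, hk⟩, ⟨k', hk'⟩⟩
          rcases le_total k k' with hkk | hkk
          · exact Or.inl ⟨k', hk', k, hkk, hk⟩
          · exact Or.inr ⟨k, hk, k', hkk, hk'⟩
        exact (measureReal_mono h1).trans (measureReal_union_le _ _)
    _ = ∑ i ∈ J, ∑ j ∈ J, μ.real (A i j) + ∑ i ∈ J, ∑ j ∈ J, μ.real (A j i) := by
        simp only [Finset.sum_add_distrib]
    _ = 2 * ∑ i ∈ J, ∑ j ∈ J, μ.real (A i j) := by
        rw [Finset.sum_comm (f := fun i j => μ.real (A j i))]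
        ring
    _ ≤ _ := by linarith

end Vale.Agent.P167.H632
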